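import Vale.Agent.P236JW.Msk

/-!
# P236JW / Gd : good arrays and final reductions
-/

namespace Vale.Agent.P236JW

open Vale.Agent.P236KE

/-- the digits vanish in all lanes which are not in use -/
def Gz (a : Bs) (x : ℕ) : Prop := ∀ r, ∀ i < a.n, ¬ On a 7 r i → dg x (a.n * r + i) = 0

/-- reduced digits which vanish in all lanes which are not in use -/
structure Gd (a : Bs) (x : ℕ) : Prop where
  bd : Bd x 2
  z : Gz a x

variable {a : Bs} {x y B C : ℕ}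

theorem gz_zero (a : Bs) : Gz a 0 := fun _ _ _ _ => dg_zero _

theorem gd_zero (a : Bs) : Gd a 0 := ⟨bd_zero 2, gz_zero a⟩

theorem Gz.add (h : Gz a x) (h' : Gz a y) (hx : Bd x B) (hy : Bd y C) (hB : B + C < 256) :
    Gz a (x + y) := fun r i hi ho => by rw [hx.dg_add hy hB, h r i hi ho, h' r i hi ho]

theorem Gz.dbl (h : Gz a x) (hx : Bd x B) (hB : 2 * B < 256) : Gz a (x <<< 1) := fun r i hi ho => by
  rw [Nat.shiftLeft_eq, mul_comm x, pow_one, hx.dg_mul 2 hB, h r i hi ho]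

theorem Gz.and (h : Gz a x) (m : ℕ) : Gz a (x &&& m) := fun r i hi ho => by
  rw [dg_land, h r i hi ho, Nat.zero_and]

theorem dg_sh (a : Bs) (x k r i : ℕ) :
    dg (x >>> sh a k) (a.n * r + i) = dg x (a.n * (r + k) + i) := by
  rw [sh_eq, dg_shr, mul_add, add_right_comm]

theorem cl_sh (a : Bs) (x k r i : ℕ) :
    cl (x >>> sh a k) (a.n * r + i) = cl x (a.n * (r + k) + i) := congrArg _ (dg_sh a x k r i)

theorem Bd.sh (h : Bd x B) (a : Bs) (k : ℕ) : Bd (x >>> sh a k) B := sh_eq a k ▸ h.shr _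

theorem Gz.sh (h : Gz a x) (b : ℕ) : Gz a (x >>> sh a (4 * b)) := fun r i hi ho => by
  rw [dg_sh]
  refine h _ i hi fun h1 => ho ?_
  rw [on_seven] at h1 ⊢
  omega

theorem Gz.cl (h : Gz a x) {r i : ℕ} (hi : i < a.n) (ho : ¬ On a 7 r i) :
    cl x (a.n * r + i) = 0 := (congrArg _ (h r i hi ho)).trans Nat.cast_zero

theorem Rd.gd {c : ℕ → ℕ → Prop} [∀ r i, Decidable (c r i)] (hn : 0 < a.n) (h : Rd a c x y)
    (hc : ∀ r i, c r i → On a 7 r i) : Gd a y :=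
  ⟨h.bd hn, fun r i hi ho => (h r i hi).trans (if_neg fun h1 => ho (hc r i h1))⟩

theorem gd_ex5 (hn : 0 < a.n) (hx : Bd x 23) (hz : Gz a x) : Gd a (ex5 a x) :=
  ⟨fun j => by rw [dg_ex5' hn hx hz]; omega, fun r i hi ho => by
    rw [dg_ex5' hn hx hz, hz r i hi ho]⟩

theorem cl_ex5 (hn : 0 < a.n) (hx : Bd x 23) (hz : Gz a x) (j : ℕ) : cl (ex5 a x) j = cl x j := by
  rw [cl, dg_ex5' hn hx hz]
  exact cast_eq (Nat.mod_mod _ _)

theorem gd_redF (hn : 0 < a.n) (hx : Bd x 143) : Gd a (redF a x) :=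
  (rd_redF hn hx).gd hn fun _ _ h => h

theorem gd_redG (hn : 0 < a.n) (x : ℕ) : Gd a (redG a x) := (rd_redG hn x).gd hn fun _ _ h => h

/-- `fn r` is a reduction of digits at most `B` in the first `r` rows; `o` : only for numbers
which vanish in the lanes which are not in use -/
def FnOk (a : Bs) (fn : ℕ → ℕ → ℕ) (B : ℕ) (o : Bool) : Prop :=
  ∀ r x, Bd x B → (o = true → Gz a x) → Gd a (fn r x) ∧
    ∀ j < r, ∀ i < a.n, On a 7 j i → cl (fn r x) (a.n * j + i) = cl x (a.n * j + i)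

theorem fn_of_rd (hn : 0 < a.n) {fn : ℕ → ℕ → ℕ}
    (h : ∀ r x, Bd x B → Rd a (fun j i => j < r ∧ On a 7 j i) x (fn r x)) : FnOk a fn B false :=
  fun r x hx _ => ⟨(h r x hx).gd hn fun _ _ h => h.2,
    fun j hj _ hi ho => ((h r x hx).cl j hi).trans (if_pos ⟨hj, ho⟩)⟩

theorem fn_red9 (hn : 0 < a.n) : FnOk a (red9 a) 143 false :=
  fn_of_rd hn fun r _ hx => rd_red9 hn hx r

theorem fn_ex6 (hn : 0 < a.n) : FnOk a (ex6 a) 23 false :=
  fn_of_rd hn fun r _ hx => rd_ex6 hn hx r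

theorem fn_mFF (hn : 0 < a.n) : FnOk a (fun r x => Nat.land x (mFF a r)) 2 false :=
  fn_of_rd hn fun r _ hx => rd_mFF hx r

theorem fn_ex5 (hn : 0 < a.n) : FnOk a (fun _ x => ex5 a x) 23 true :=
  fun _ _ hx hz => ⟨gd_ex5 hn hx (hz rfl), fun _ _ _ _ _ => cl_ex5 hn hx (hz rfl) _⟩

theorem fn_id : FnOk a (fun _ x => x) 2 true :=
  fun _ _ hx hz => ⟨⟨hx, hz rfl⟩, fun _ _ _ _ _ => rfl⟩

end Vale.Agent.P236JW
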