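import Vale.Agent.P236JK.Eng

/-!
# P236JW / Eng2 : the kernel program for the curvature modulo `(3, v_1 ^ 3)`, byte lanes

An array is a number, read in base `256`. The lane `n * ρ + i` belongs to the weight `T - ρ`
and the column `i`. All other indices form the code of the array.
-/

noncomputable section

namespace Vale.Agent.P236JW

open Vale.Agent.P236KE
open Vale.Agent.P236JK (ones ite')

/-- families of arrays -/
structure Fm : Type where
  f : Nat → Nat

/-- lists of families -/
inductive FL : Type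
  | nil : FL
  | cons : (Nat → Nat) → FL → FL

/-- tables with three indices -/
inductive D3 : Type
  | nil : D3
  | cons : DLL → D3 → D3

/-- tables with four indices -/
inductive D4 : Type
  | nil : D4
  | cons : D3 → D4 → D4

def D3.tail (l : D3) : D3 := D3.rec (motive := fun _ => D3) D3.nil (fun _ t _ => t) l
def D3.drop (l : D3) (i : Nat) : D3 :=
  Nat.rec (motive := fun _ => D3) l (fun _ ih => D3.tail ih) i
def D3.get (l : D3) (i : Nat) : DLL :=
  D3.rec (motive := fun _ => DLL) DLL.nil (fun h _ _ => h) (D3.drop l i)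
def D4.tail (l : D4) : D4 := D4.rec (motive := fun _ => D4) D4.nil (fun _ t _ => t) l
def D4.drop (l : D4) (i : Nat) : D4 :=
  Nat.rec (motive := fun _ => D4) l (fun _ ih => D4.tail ih) i
def D4.get (l : D4) (i : Nat) : D3 :=
  D4.rec (motive := fun _ => D3) D3.nil (fun h _ _ => h) (D4.drop l i)

/-- the data of a group of columns: bound, number and degrees of the columns, upper table,
degrees of the middle generators, layout of the lower table -/
structure Bs : Type where
  tt : Nat
  n : Nat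
  dc : Nat
  up : D4
  dm : Nat
  nn : Nat
  pw : Nat
  pq : Nat

variable (a : Bs)

/-- the number of bits of a row -/
def rS : Nat := Nat.mul (nat_lit 8) a.n
def sh (k : Nat) : Nat := Nat.mul k (rS a)
def kT : Nat := Nat.succ a.tt
/-- ones in the rows `k - 1 - i`, `i < k`, where bit `i % 4` of `t` is set -/
def pat (t k : Nat) : Nat :=
  Nat.rec (motive := fun _ => Nat) (nat_lit 0)
    (fun i ih => Nat.lor (Nat.shiftLeft ih (rS a))
      (Nat.land (Nat.shiftRight t (Nat.land i (nat_lit 3))) (nat_lit 1))) k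
/-- ones in the lanes with `D ≤ W` where bit `(W - D) % 4` of `t` is set -/
def vm (t : Nat) : Nat :=
  Nat.rec (motive := fun _ => Nat) (nat_lit 0)
    (fun i ih => Nat.lor ih (Nat.shiftLeft (force (Nat.sub (kT a) (byte a.dc i)) (pat a t))
      (Nat.mul (nat_lit 8) i))) a.n
def cm (t r : Nat) : Nat := Nat.land (vm a t) (ones (sh a r))
def m03 (r : Nat) : Nat := Nat.mul (cm a (nat_lit 7) r) (nat_lit 3)
def m0F (r : Nat) : Nat := Nat.mul (cm a (nat_lit 7) r) (nat_lit 15)
def mF0 (r : Nat) : Nat := Nat.mul (cm a (nat_lit 7) r) (nat_lit 240)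
def mFF (r : Nat) : Nat := Nat.mul (cm a (nat_lit 7) r) (nat_lit 255)
def n0F (r : Nat) : Nat := Nat.mul (cm a (nat_lit 4) r) (nat_lit 15)
def nF0 (r : Nat) : Nat := Nat.mul (cm a (nat_lit 4) r) (nat_lit 240)
def f0F : Nat := Nat.mul (vm a (nat_lit 7)) (nat_lit 15)
def fF0 : Nat := Nat.mul (vm a (nat_lit 7)) (nat_lit 240)
def mE0 : Nat := Nat.mul (vm a (nat_lit 7)) (nat_lit 224)
def mA2 : Nat := Nat.mul (vm a (nat_lit 4)) (nat_lit 255)

/-- digits at most `23` are reduced modulo three -/
def ex5 (y : Nat) : Nat :=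
  Nat.sub y (Nat.shiftRight (Nat.mul (Nat.land (Nat.mul y (nat_lit 11)) (mE0 a)) (nat_lit 3))
    (nat_lit 5))
def q16 (m m' x : Nat) : Nat :=
  Nat.add (Nat.land x m) (Nat.shiftRight (Nat.land x m') (nat_lit 4))
def ex6 (r x : Nat) : Nat := ex5 a (Nat.land x (mFF a r))
def red9 (r x : Nat) : Nat := ex5 a (q16 (m0F a r) (mF0 a r) x)
def rdA (r x : Nat) : Nat := ex5 a (q16 (n0F a r) (nF0 a r) x)
def redF (x : Nat) : Nat := ex5 a (q16 (f0F a) (fF0 a) x)
def redG (x : Nat) : Nat := redF a (q16 (f0F a) (fF0 a) x)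

/-- sums of terms -/
inductive EX : Type
  | leaf : Nat → Nat → Nat → Nat → Nat → Nat → Nat → Nat → Nat → Nat → Nat → EX
  | add : EX → EX → EX
  | dbl : EX → EX
  | shr : Nat → Nat → EX → EX
  | mk2 : EX → EX
  | rd : EX → EX
  | rd2 : EX → EX

/-- the value of a sum -/
def ev (r : Nat) (f : Nat → Nat) (s : Nat) (e : EX) : Nat :=
  EX.rec (motive := fun _ => Nat)
    (fun dl _ _ _ _ _ _ _ _ _ _ => force (Nat.add s dl) f)
    (fun _ _ x y => Nat.add x y)
    (fun _ x => Nat.shiftLeft x (nat_lit 1))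
    (fun u v _ x => Nat.shiftRight x (sh a (Nat.add u (Nat.mul (nat_lit 4) v))))
    (fun _ x => Nat.land x (mA2 a))
    (fun _ x => red9 a r x)
    (fun _ x => rdA a r x) e

/-- the number of rows which are needed -/
def rr (K s : Nat) : Nat := Nat.sub K (Nat.land s (nat_lit 255))
/-- one more level -/
def mk (L : (Nat → Nat) → Nat → Nat) (X : Fm) : Fm :=
  Fm.rec (motive := fun _ => Fm) (fun f => ⟨L f⟩) X
def itT (L : (Nat → Nat) → Nat → Nat) (X : Fm) (g : Nat) : Fm :=
  Nat.rec (motive := fun _ => Fm) X (fun _ ih => mk L ih) g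
def mkK (L : Nat → (Nat → Nat) → Nat → Nat) (X : Fm) (K : Nat) : Fm := mk (L K) X
def itD (L : Nat → (Nat → Nat) → Nat → Nat) (X : Fm) (u k g : Nat) : Fm :=
  Nat.rec (motive := fun _ => Fm) X
    (fun i ih => force (Nat.sub (kT a) (Nat.add u (Nat.mul k (Nat.succ i)))) (mkK L ih)) g

/-! the upper functionals -/

def bD (w k : Nat) : DLL := D3.get (D4.get a.up w) k
def bZ2 (w j m k : Nat) : Nat := dN (bD a w k) m j
def bZ1 (w k j : Nat) : Nat :=
  force (Nat.land k (nat_lit 63)) fun m => force (Nat.shiftRight k (nat_lit 6)) (bZ2 a w j m)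
def base3 (w k e r : Nat) : Nat :=
  Nat.land (Nat.shiftRight (force (Nat.shiftRight e (nat_lit 2)) (bZ1 a w k))
    (Nat.mul (nat_lit 2) (Nat.land e (nat_lit 3)))) (m03 a r)
def base (w s : Nat) : Nat :=
  force (Nat.shiftRight s (nat_lit 13)) fun k =>
    force (Nat.land (Nat.shiftRight s (nat_lit 8)) (nat_lit 31)) fun e =>
      force (rr (kT a) s) (base3 a w k e)

end Vale.Agent.P236JW

end
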