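import Vale.Agent.P236JW.Red
import Vale.Agent.P236JW.Eng2

/-!
# P236JW / Msk : the masks and the reductions of the program
-/

namespace Vale.Agent.P236JW

open Vale.Agent.P236KE
open Vale.Agent.P236JK (ones)

variable {a : Bs} {t r i x B : ℕ}

theorem sh_eq (a : Bs) (k : ℕ) : sh a k = 8 * (a.n * k) := by
  change k * (8 * a.n) = _
  ring

theorem bit_eq (t j : ℕ) : (t >>> j) &&& 1 = if t.testBit j = true then 1 else 0 := by
  rw [Nat.testBit, Nat.and_one_is_mod, Nat.and_comm, Nat.and_one_is_mod]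
  rcases Nat.mod_two_eq_zero_or_one (t >>> j) with h | h <;> simp [h]

theorem dg_pat (t k : ℕ) (hi : i < a.n) (r : ℕ) : dg (pat a t k) (a.n * r + i) =
    if i = 0 ∧ r < k ∧ t.testBit ((k - 1 - r) % 4) = true then 1 else 0 := by
  induction k generalizing r with
  | zero => exact (dg_zero _).trans (if_neg (by omega)).symm
  | succ k ih =>
    change dg ((pat a t k <<< (8 * a.n)) ||| ((t >>> (k &&& 3)) &&& 1)) _ = _
    rw [dg_lor, dg_shl, bit_eq, show k &&& 3 = k % 4 from and_ones k 2,
      dg_small (a := ite _ _ _) (by split_ifs <;> omega)]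
    rcases r with _ | r
    · rw [if_neg (by omega), Nat.zero_or]
      simp only [mul_zero, zero_add, Nat.succ_pos, true_and, Nat.add_sub_cancel, Nat.sub_zero]
      by_cases h : i = 0 <;> simp [h]
    · rw [mul_add_one, if_pos (by omega), if_neg (show ¬ a.n * r + a.n + i = 0 by omega),
        Nat.or_zero, show a.n * r + a.n + i - a.n = a.n * r + i by omega, ih,
        show k + 1 - 1 - (r + 1) = k - 1 - r by omega]
      exact if_congr (by simp) rfl rfl

/-- the lane in the row `r` and the column `i` belongs to the pattern `t` -/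
def On (a : Bs) (t r i : ℕ) : Prop :=
  byte a.dc i + r ≤ a.tt ∧ t.testBit ((a.tt - (byte a.dc i + r)) % 4) = true

instance (a : Bs) (t r i : ℕ) : Decidable (On a t r i) := instDecidableAnd

theorem dg_vm (t : ℕ) (hi : i < a.n) (r : ℕ) :
    dg (vm a t) (a.n * r + i) = if On a t r i then 1 else 0 := by
  have h : ∀ m ≤ a.n, dg (Nat.rec (motive := fun _ => Nat) (nat_lit 0)
      (fun i ih => Nat.lor ih (Nat.shiftLeft (force (Nat.sub (kT a) (byte a.dc i)) (pat a t))
      (Nat.mul (nat_lit 8) i))) m) (a.n * r + i) = if i < m ∧ On a t r i then 1 else 0 := by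
    intro m hm
    induction m with
    | zero => exact (dg_zero _).trans (if_neg (by omega)).symm
    | succ m ih =>
      refine (dg_lor _ (pat a t (a.tt + 1 - byte a.dc m) <<< (8 * m)) _).trans ?_
      rw [ih (by omega), dg_shl]
      rcases lt_trichotomy i m with h | rfl | h
      · have h1 : (if m ≤ a.n * r + i then dg (pat a t (a.tt + 1 - byte a.dc m))
            (a.n * r + i - m) else 0) = 0 := by
          split_ifs with h1
          · obtain ⟨r, rfl⟩ : ∃ s, r = s + 1 := ⟨r - 1, by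
              rcases r with _ | r
              · omega
              · rfl⟩
            rw [mul_add_one, show a.n * r + a.n + i - m = a.n * r + (a.n + i - m) by omega,
              dg_pat _ _ (by omega), if_neg (by omega)]
          · rfl
        rw [h1, Nat.or_zero]
        exact if_congr (and_congr_left' (by omega)) rfl rfl
      · rw [if_neg (by omega), Nat.zero_or, if_pos (by omega), Nat.add_sub_cancel,
          ← add_zero (a.n * r), dg_pat _ _ (by omega),
          show a.tt + 1 - byte a.dc i - 1 - r = a.tt - (byte a.dc i + r) by omega]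
        exact if_congr ⟨fun h => ⟨by omega, by omega, h.2.2⟩,
          fun h => ⟨rfl, by have := h.2.1; omega, h.2.2⟩⟩ rfl rfl
      · rw [if_neg (by omega), Nat.zero_or, if_pos (by omega), if_neg (by omega),
          show a.n * r + i - m = a.n * r + (i - m) by omega, dg_pat _ _ (by omega),
          if_neg (by omega)]
  exact (h a.n le_rfl).trans (if_congr (and_iff_right hi) rfl rfl)

theorem dg_cm (t k : ℕ) (hi : i < a.n) (r : ℕ) :
    dg (cm a t k) (a.n * r + i) = if r < k ∧ On a t r i then 1 else 0 := by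
  change dg (vm a t &&& (1 <<< sh a k - 1)) _ = _
  rw [Nat.one_shiftLeft, and_ones, sh_eq, dg_mod, dg_vm t hi]
  have h : a.n * r + i < a.n * k ↔ r < k :=
    ⟨fun h => Nat.lt_of_mul_lt_mul_left (a := a.n) (by omega), fun h => by
      have := Nat.mul_le_mul_left a.n (show r + 1 ≤ k from h)
      rw [mul_add_one] at this
      omega⟩
  simp only [h, ite_and]

/-- every lane has a row and a column -/
theorem lanes (hn : 0 < a.n) {P : ℕ → Prop} (h : ∀ r, ∀ i < a.n, P (a.n * r + i)) (j : ℕ) : P j :=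
  Nat.div_add_mod j a.n ▸ h _ _ (Nat.mod_lt _ hn)

/-- a multiple of a mask -/
theorem dg_msk (hn : 0 < a.n) {m : ℕ} {c : ℕ → ℕ → Prop} [∀ r i, Decidable (c r i)]
    (h : ∀ r, ∀ i < a.n, dg m (a.n * r + i) = if c r i then 1 else 0) {k : ℕ} (hk : k < 256)
    (r : ℕ) (hi : i < a.n) : dg (Nat.mul m k) (a.n * r + i) = if c r i then k else 0 := by
  have h1 : Bd m 1 := lanes hn fun r i hi => by rw [h r i hi]; split_ifs <;> omega
  change dg (m * k) _ = _
  rw [mul_comm m, h1.dg_mul k (by omega), h r i hi]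
  split_ifs <;> simp

theorem On.seven (h : On a 4 r i) : On a 7 r i := by
  refine ⟨h.1, ?_⟩
  have h1 := h.2
  have h2 := Nat.mod_lt (a.tt - (byte a.dc i + r)) (show 0 < 4 by omega)
  generalize (a.tt - (byte a.dc i + r)) % 4 = z at h1 h2
  revert h1
  revert z
  decide

theorem dg_mE0 (r : ℕ) (hi : i < a.n) : dg (mE0 a) (a.n * r + i) = if On a 7 r i then 224 else 0 :=
  dg_msk (by omega) (fun r _ hi => dg_vm 7 hi r) (by decide) r hi

theorem dg_mA2 (r : ℕ) (hi : i < a.n) : dg (mA2 a) (a.n * r + i) = if On a 4 r i then 255 else 0 :=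
  dg_msk (by omega) (fun r _ hi => dg_vm 4 hi r) (by decide) r hi

theorem dg_vmul (t : ℕ) {k : ℕ} (hk : k < 256) (r : ℕ) (hi : i < a.n) :
    dg (Nat.mul (vm a t) k) (a.n * r + i) = if On a t r i then k else 0 :=
  dg_msk (by omega) (fun r _ hi => dg_vm t hi r) hk r hi

theorem dg_cmul (t m : ℕ) {k : ℕ} (hk : k < 256) (r : ℕ) (hi : i < a.n) :
    dg (Nat.mul (cm a t m) k) (a.n * r + i) = if r < m ∧ On a t r i then k else 0 :=
  dg_msk (c := fun r i => r < m ∧ On a t r i) (by omega) (fun r _ hi => dg_cm t m hi r) hk r hi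

/-- `y` is the reduction of `x` in the lanes with the property `c` and zero in the others -/
def Rd (a : Bs) (c : ℕ → ℕ → Prop) [∀ r i, Decidable (c r i)] (x y : ℕ) : Prop :=
  ∀ r, ∀ i < a.n, dg y (a.n * r + i) = if c r i then dg x (a.n * r + i) % 3 else 0

section

variable {c : ℕ → ℕ → Prop} [∀ r i, Decidable (c r i)] {y : ℕ}

theorem Rd.bd (hn : 0 < a.n) (h : Rd a c x y) : Bd y 2 :=
  lanes hn fun r i hi => by rw [h r i hi]; split_ifs <;> omega

theorem Rd.cl (h : Rd a c x y) (r : ℕ) (hi : i < a.n) :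
    cl y (a.n * r + i) = if c r i then cl x (a.n * r + i) else 0 := cl_of_mod (h r i hi)

theorem rd_q16 (hn : 0 < a.n) (hx : Bd x 143) {m m' : ℕ} (hc : ∀ r i, c r i → On a 7 r i)
    (hm : ∀ r, ∀ i < a.n, dg m (a.n * r + i) = if c r i then 15 else 0)
    (hm' : ∀ r, ∀ i < a.n, dg m' (a.n * r + i) = if c r i then 240 else 0) :
    Rd a c x (ex5 a (q16 m m' x)) := fun r i hi => by
  refine (dg_red9 (m := m) (m' := m') (m₃ := mE0 a) hx (lanes hn fun r i hi => ?_) rfl _).trans ?_
  · rw [hm r i hi, hm' r i hi, dg_mE0 r hi]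
    by_cases h : c r i
    · simp [h, hc r i h]
    · simp [h]
  · rw [hm r i hi]
    by_cases h : c r i <;> simp [h]

end

/-- a number with digits at most `23` which vanishes in the lanes which are not in use -/
theorem dg_ex5' (hn : 0 < a.n) (hx : Bd x 23)
    (hz : ∀ r, ∀ i < a.n, ¬ On a 7 r i → dg x (a.n * r + i) = 0) (j : ℕ) :
    dg (ex5 a x) j = dg x j % 3 :=
  dg_ex5 (m := mE0 a) hx (lanes hn fun r i hi => by
    by_cases h : On a 7 r i
    · exact Or.inl ((dg_mE0 r hi).trans (if_pos h))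
    · exact Or.inr (hz r i hi h)) j

theorem rd_red9 (hn : 0 < a.n) (hx : Bd x 143) (k : ℕ) :
    Rd a (fun r i => r < k ∧ On a 7 r i) x (red9 a k x) :=
  rd_q16 hn hx (fun _ _ h => h.2) (fun r _ hi => dg_cmul 7 k (by decide) r hi)
    fun r _ hi => dg_cmul 7 k (by decide) r hi

theorem rd_rdA (hn : 0 < a.n) (hx : Bd x 143) (k : ℕ) :
    Rd a (fun r i => r < k ∧ On a 4 r i) x (rdA a k x) :=
  rd_q16 hn hx (fun _ _ h => h.2.seven) (fun r _ hi => dg_cmul 4 k (by decide) r hi)
    fun r _ hi => dg_cmul 4 k (by decide) r hi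

theorem rd_redF (hn : 0 < a.n) (hx : Bd x 143) : Rd a (On a 7) x (redF a x) :=
  rd_q16 hn hx (fun _ _ h => h) (fun r _ hi => dg_vmul 7 (by decide) r hi)
    fun r _ hi => dg_vmul 7 (by decide) r hi

theorem rd_redG (hn : 0 < a.n) (x : ℕ) : Rd a (On a 7) x (redG a x) := fun r i hi => by
  have h : ∀ r, ∀ i < a.n, dg (q16 (f0F a) (fF0 a) x) (a.n * r + i) = if On a 7 r i then
      dg x (a.n * r + i) % 16 + dg x (a.n * r + i) / 16 else 0 := fun r i hi => by
    refine (dg_hl (m := f0F a) (m' := fF0 a) (lanes hn fun r i hi => ?_) x _).trans ?_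
    · rw [f0F, fF0, dg_vmul 7 (by decide) r hi, dg_vmul 7 (by decide) r hi]
      by_cases h : On a 7 r i <;> simp [h]
    · rw [f0F, dg_vmul 7 (by decide) r hi]
      by_cases h : On a 7 r i <;> simp [h]
  rw [redG, rd_redF hn (lanes hn fun r i hi => by
    have := dg_lt x (a.n * r + i)
    rw [h r i hi]
    split_ifs <;> omega) r i hi, h r i hi]
  split_ifs <;> omega

theorem rd_ex6 (hn : 0 < a.n) (hx : Bd x 23) (k : ℕ) :
    Rd a (fun r i => r < k ∧ On a 7 r i) x (ex6 a k x) := fun r i hi => by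
  refine (dg_ex6 (m := mFF a k) (m₃ := mE0 a) hx (lanes hn fun r i hi => ?_) rfl _).trans ?_
  · rw [mFF, dg_cmul 7 k (by decide) r hi, dg_mE0 r hi]
    by_cases h : r < k ∧ On a 7 r i <;> simp [h]
  · rw [mFF, dg_cmul 7 k (by decide) r hi]
    by_cases h : r < k ∧ On a 7 r i <;> simp [h]

theorem rd_mFF (hx : Bd x 2) (k : ℕ) :
    Rd a (fun r i => r < k ∧ On a 7 r i) x (Nat.land x (mFF a k)) := fun r i hi => by
  have h1 := dg_cmul (a := a) 7 k (show 255 < 256 by omega) r hi
  split_ifs at h1 ⊢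
  · exact (dg_and_on x h1).trans (Nat.mod_eq_of_lt (Nat.lt_succ_of_le (hx _))).symm
  · exact dg_and_off x h1

theorem on_seven : On a 7 r i ↔
    byte a.dc i + r ≤ a.tt ∧ (a.tt - (byte a.dc i + r)) % 4 ≠ 3 := by
  refine and_congr_right' ?_
  have h2 := Nat.mod_lt (a.tt - (byte a.dc i + r)) (show 0 < 4 by omega)
  generalize (a.tt - (byte a.dc i + r)) % 4 = z at h2
  revert z
  decide

theorem on_four : On a 4 r i ↔
    byte a.dc i + r ≤ a.tt ∧ (a.tt - (byte a.dc i + r)) % 4 = 2 := by
  refine and_congr_right' ?_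
  have h2 := Nat.mod_lt (a.tt - (byte a.dc i + r)) (show 0 < 4 by omega)
  generalize (a.tt - (byte a.dc i + r)) % 4 = z at h2
  revert z
  decide

end Vale.Agent.P236JW
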