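import Vale.Agent.P236JW.Bin
import Vale.Agent.P236JW.Eng3
import Vale.Agent.P236JW.Msk
import Vale.Agent.P236JR.Bit

/-!
# P236JW / Fin : what the final test of the program says
-/

namespace Vale.Agent.P236JW

open Vale.Agent.P236KE Finset
open Vale.Agent.P236JK (ones ite')
open Vale.Agent.P236JR (repN_eq ones_bit spread mul_ones rp_bit')

/-- the check of the table -/
def bTOk : Bool := (List.range 182).all fun i => (List.range 128).all fun k =>
  bT.testBit (128 * i + k) == (Nat.ble k 90 &&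
    Nat.beq ((90 - k).descFactorial (i / 2) / (i / 2).factorial % 3) (i % 2 + 1))

theorem bT_ok : bTOk = true := by decide +kernel

theorem bT_bit {i k : ℕ} (hi : i < 182) (hk : k < 128) : bT.testBit (128 * i + k) =
    decide (k ≤ 90 ∧ (90 - k).choose (i / 2) % 3 = i % 2 + 1) := by
  have h := bT_ok
  simp only [bTOk, List.all_eq_true, List.mem_range, beq_iff_eq] at h
  rw [h i hi k hk, Nat.choose_eq_descFactorial_div_factorial, Bool.eq_iff_iff]
  simp only [Bool.and_eq_true, Nat.ble_eq, Nat.beq_eq, decide_eq_true_eq]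

theorem dg_of_bits {x i : ℕ} {b : Bool} (h : ∀ j < 8, x.testBit (8 * i + j) = b) :
    dg x i = if b = true then 255 else 0 := by
  refine Nat.eq_of_testBit_eq fun j => ?_
  rw [dg, show 256 = 2 ^ 8 by norm_num, Nat.testBit_mod_two_pow, Nat.testBit_div_two_pow]
  by_cases hj : j < 8
  · rw [add_comm, h j hj, decide_eq_true hj]
    cases b
    · simp
    · exact ((Nat.testBit_two_pow_sub_one 8 j).trans (decide_eq_true hj)).symm
  · rw [decide_eq_false hj]
    cases b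
    · simp
    · exact ((Nat.testBit_two_pow_sub_one 8 j).trans (decide_eq_false hj)).symm

variable {a : Bs} {l : Lw} {r j s i : ℕ}

theorem dg_bm0 (hn : 12 ≤ a.n) (hi : i < 182) (hr : r ≤ 90) (hj : j < a.n) :
    dg (bm0 a i) (a.n * r + j) = if (90 - r).choose (i / 2) % 3 = i % 2 + 1 then 255 else 0 := by
  have h1 : ∀ k, ((bT >>> (128 * i)) &&& ones 128).testBit k =
      decide (k ≤ 90 ∧ (90 - k).choose (i / 2) % 3 = i % 2 + 1) := fun k => by
    rw [Nat.testBit_and, ones_bit, Nat.testBit_shiftRight]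
    by_cases hk : k < 128
    · rw [bT_bit hi hk, decide_eq_true hk, Bool.and_true]
    · rw [decide_eq_false hk, Bool.and_false, decide_eq_false (by omega)]
  have h2 : ∀ j < 8 * a.n, (bm0 a i).testBit (j + 8 * a.n * r) =
      decide ((90 - r).choose (i / 2) % 3 = i % 2 + 1) := fun j hj => by
    change (((((bT >>> (128 * i)) &&& ones 128) * repN (8 * a.n - 1) 91) &&& repN (8 * a.n) 91) *
      ones (8 * a.n)).testBit _ = _
    rw [repN_eq (by omega), repN_eq (by omega), mul_ones (fun k hk => by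
      rw [Nat.testBit_and, rp_bit' (by omega)] at hk
      simp only [Bool.and_eq_true, decide_eq_true_eq] at hk
      exact hk.2.2) r hj, ← zero_add (8 * a.n * r), spread (by omega) (fun k hk => by
        rw [h1, decide_eq_true_eq] at hk
        omega) r (by omega), h1]
    simp [hr, Nat.lt_succ_of_le hr]
  rw [dg_of_bits (b := decide ((90 - r).choose (i / 2) % 3 = i % 2 + 1)) fun t ht => by
    rw [← h2 (8 * j + t) (by omega)]
    congr 1
    ring]
  simp only [decide_eq_true_eq]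

theorem dg_bm (hn : 12 ≤ a.n) (hi : i < 182) (hs : s ≤ 90) (hr : r ≤ s) (hj : j < a.n) :
    dg (bm a s i) (a.n * r + j) = if (s - r).choose (i / 2) % 3 = i % 2 + 1 then 255 else 0 := by
  change dg (bm0 a i >>> ((90 - s) * (8 * a.n))) _ = _
  rw [show (90 - s) * (8 * a.n) = 8 * (a.n * (90 - s)) by ring, dg_shr,
    show a.n * r + j + a.n * (90 - s) = a.n * (r + (90 - s)) + j by ring,
    dg_bm0 hn hi (by omega) hj, show 90 - (r + (90 - s)) = s - r by omega]

/-- the code of the monomial `t_1 ^ t` -/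
def cd1 (l : Lw) (t : ℕ) : ℕ := Nat.mul (Nat.add l.dw t) (nat_lit 33554433)

/-- the partial sums -/
def fsn (a : Bs) (l : Lw) (f : ℕ → ℕ) (s c n : ℕ) : ℕ :=
  Nat.rec (motive := fun _ => ℕ) (nat_lit 0) (fun i ih => Nat.add ih
    (force (Nat.add (Nat.mul (nat_lit 2) (Nat.sub s i)) c) fun j =>
      force (Nat.mul (Nat.add l.dw (Nat.sub s i)) (nat_lit 33554433)) (fs1 a f s j))) n

theorem fs_eq (f : ℕ → ℕ) (s c : ℕ) : fs a l f s c = fsn a l f s c (s + 1) := rfl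

theorem fsn_succ (f : ℕ → ℕ) (s c n : ℕ) : fsn a l f s c (n + 1) =
    fsn a l f s c n + (f (cd1 l (s - n)) &&& bm a s (2 * (s - n) + c)) := by
  change Nat.add (fsn a l f s c n) (force (2 * (s - n) + c) fun j =>
    force (cd1 l (s - n)) (fs1 a f s j)) = _
  rw [force_eq, force_eq, fs1]
  rfl

variable {f : ℕ → ℕ} {c : ℕ}

theorem bd_fsn (hf : ∀ t ≤ s, Bd (f (cd1 l t)) 2) {n : ℕ} (hn : n ≤ 91) :
    Bd (fsn a l f s c n) (2 * n) := by
  induction n with
  | zero => exact bd_zero _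
  | succ n ih =>
    rw [fsn_succ]
    exact (ih (by omega)).add ((hf _ (by omega)).and _) (by omega)

theorem cl_fsn (hn : 12 ≤ a.n) (hc : c < 2) (hs : s ≤ 90) (hr : r ≤ s) (hj : j < a.n)
    (hf : ∀ t ≤ s, Bd (f (cd1 l t)) 2) {n : ℕ} (hn' : n ≤ 91) :
    cl (fsn a l f s c n) (a.n * r + j) = ∑ i ∈ range n, if (s - r).choose (s - i) % 3 = c + 1
      then cl (f (cd1 l (s - i))) (a.n * r + j) else 0 := by
  induction n with
  | zero => exact cl_zero _
  | succ n ih =>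
    have h1 := dg_bm (i := 2 * (s - n) + c) hn (by omega) hs hr hj
    rw [show (2 * (s - n) + c) / 2 = s - n by omega, show (2 * (s - n) + c) % 2 = c by omega] at h1
    rw [fsn_succ, (bd_fsn hf (by omega)).cl_add ((hf _ (by omega)).and _) (by omega), ih (by omega),
      sum_range_succ]
    split_ifs at h1 ⊢
    · rw [cl_and_on _ h1]
    · rw [cl_and_off _ h1]

theorem of_fin1 (h : fin1 a l s f = true) (hn : 12 ≤ a.n) (hs : s ≤ 90) (hr : r ≤ s)
    (hj : j < a.n) (hf : ∀ t ≤ s, Bd (f (cd1 l t)) 2)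
    (hR : ∀ x, cl (redG a x) (a.n * r + j) = cl x (a.n * r + j)) :
    ∑ t ∈ range (s + 1), ((s - r).choose t : ZMod 3) *
      cl (f (cd1 l t)) (a.n * r + j) = 0 := by
  have h1 := congrArg (cl · (a.n * r + j)) (Nat.eq_of_beq_eq_true h)
  simp only [hR, fs_eq] at h1
  rw [cl_fsn hn (by norm_num) hs hr hj hf (by omega), cl_fsn hn (by norm_num) hs hr hj hf (by omega),
    ← sub_eq_zero, ← sum_sub_distrib] at h1
  rw [← sum_flip, ← h1]
  refine sum_congr rfl fun t _ => ?_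
  rw [← ZMod.natCast_mod ((s - r).choose (s - t)) 3]
  have h4 := Nat.mod_lt ((s - r).choose (s - t)) (show 0 < 3 by norm_num)
  generalize (s - r).choose (s - t) % 3 = y at h4 ⊢
  generalize cl (f (cd1 l (s - t))) (a.n * r + j) = x
  revert x
  interval_cases y <;> decide

theorem al3_spec {p : ℕ → Bool} (h : al3 p = true) (hi : i < 3) : p i = true := by
  change ite' (p 0) (ite' (p 1) (p 2) false) false = true at h
  cases h0 : p 0 <;> rw [h0] at h
  · exact absurd h Bool.false_ne_true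
  · cases h1 : p 1 <;> rw [h1] at h
    · exact absurd h Bool.false_ne_true
    · interval_cases i
      exacts [h0, h1, h]

variable {val : Q4 → Q4 → Q4 → Q4 → ZMod 3} {V : Q4} {z : Col} {S : Q4 → Prop}

/-- the families after the levels of `t_2` represent the values -/
def XW (a : Bs) (l : Lw) (z : Col) (S : Q4 → Prop) (val : Q4 → Q4 → Q4 → Q4 → ZMod 3) : Prop :=
  ∀ g4 c1 c0 b2 b1 b0, RepW a.n a.tt z S l.dw l.dw (x2 a l g4 c1 c0 b2 b1 b0).f
    (u6 g4 c1 c0 b2 b1 b0) (val (0, 9 * b2 + 3 * b1 + b0, 3 * c1 + c0, g4))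

theorem ite'_true {α : Type} (x y : α) : ite' true x y = x := rfl

theorem fm_rec (p : (ℕ → ℕ) → Bool) (X : Fm) : Fm.rec (motive := fun _ => Bool) p X = p X.f := rfl

theorem nd1_eq (X : Fm) {u : ℕ} (h : u ≤ a.tt) : nd1 a l X u = fin1 a l (a.tt - u) X.f := by
  rw [nd1, Nat.ble_eq_true_of_le h, ite'_true, force_eq, fin0, fm_rec, Nat.sub_eq]

theorem nd_eq (g4 c1 c0 b2 b1 b0 : ℕ) : nd a l g4 c1 c0 b2 b1 b0 =
    nd1 a l (x2 a l g4 c1 c0 b2 b1 b0) (l.dw + u6 g4 c1 c0 b2 b1 b0) := by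
  rw [nd, force_eq]
  rfl

theorem cd1_eq (l : Lw) (e f : ℕ) : coW l.dw l.dw (e, 0, 0, 0) (f, 0, 0, 0) 0 0 = cd1 l f := by
  simp only [coW, loW, mW, hiW, wt4, cd1, Nat.mul_eq, Nat.add_eq]
  omega

theorem of_nd1 {g1 g2 g3 g4 u : ℕ} {X : Fm} (h : nd1 a l X (l.dw + u) = true) (hn : 12 ≤ a.n)
    (hT : a.tt ≤ 90) (h1 : S1 val) (hS : ∀ f, S (f, 0, 0, 0)) (hj : z.i < a.n)
    (hz : z.D = byte a.dc z.i) (hX : RepW a.n a.tt z S l.dw l.dw X.f u (val (0, g2, g3, g4)))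
    (hV : V.1 < 3) (hc : z.c = V.2.2.1) (hd : z.d = V.2.2.2) (hW : z.D + V.1 + 4 * V.2.1 ≤ a.tt)
    (hG : l.dw + u + g1 = z.D + V.1 + 4 * V.2.1) : val (g1, g2, g3, g4) V 0 0 = 0 := by
  obtain ⟨W, hD⟩ : ∃ W, W = z.D + V.1 + 4 * V.2.1 := ⟨_, rfl⟩
  rw [← hD] at hW hG
  rw [nd1_eq X (by omega)] at h
  have h6 : ∀ e f W, W ≤ a.tt → W = l.dw + u + e + f → Bd (X.f (cd1 l f)) 2 ∧
      AtW a.n a.tt z (X.f (cd1 l f)) W (z.ext (fun V =>
        val (0, g2, g3, g4) V (e, 0, 0, 0) (f, 0, 0, 0)) 0 0 W) := fun e f W h7 h8 => by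
    rw [← cd1_eq l e f]
    exact hX (e, 0, 0, 0) (f, 0, 0, 0) 0 0 W (hS f) h7 h8
  have h5 := of_fin1 (r := a.tt - W) h hn (by omega) (by omega) hj
    (fun t ht => (h6 0 t _ (by omega) rfl).1) fun x => by
      rw [(rd_redG (by omega) x).cl _ hj, if_pos (on_seven.2 (by omega))]
  rw [show a.tt - (l.dw + u) - (a.tt - W) = g1 by omega,
    ← sum_subset (range_mono (show g1 + 1 ≤ _ by omega)) fun f _ hf => by
      rw [Nat.choose_eq_zero_of_lt (by simpa using hf), Nat.cast_zero, zero_mul]] at h5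
  refine (val_bin h1 hV g2 _ g4 g1 0 0).trans (Eq.trans (sum_congr rfl fun f hf => ?_) h5)
  have h7 := (h6 (g1 - f) f W hW (by have := mem_range.1 hf; omega)).2
  rw [Col.ext_of V hV hc hd hD] at h7
  rw [zero_add, zero_add, ← h7]

theorem of_okG {g1 g2 g4 c1 c0 : ℕ} (h : okG a l g4 c1 c0 = true) (hn : 12 ≤ a.n) (hT : a.tt ≤ 90)
    (h1 : S1 val) (hS : ∀ f, S (f, 0, 0, 0)) (hj : z.i < a.n) (hz : z.D = byte a.dc z.i)
    (hX : XW a l z S val) (hV : V.1 < 3) (hc : z.c = V.2.2.1) (hd : z.d = V.2.2.2)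
    (hW : z.D + V.1 + 4 * V.2.1 ≤ a.tt)
    (hG : wt4 (g1, g2, 3 * c1 + c0, g4) + l.dw = z.D + V.1 + 4 * V.2.1) :
    val (g1, g2, 3 * c1 + c0, g4) V 0 0 = 0 := by
  change g1 + 4 * g2 + 13 * (3 * c1 + c0) + 40 * g4 + l.dw = _ at hG
  rw [okG] at h
  have h2 := al3_spec h (show g2 / 9 < 3 by omega)
  replace h2 := al3_spec h2 (show g2 / 3 % 3 < 3 by omega)
  replace h2 := al3_spec h2 (show g2 % 3 < 3 by omega)
  have h3 := hX g4 c1 c0 (g2 / 9) (g2 / 3 % 3) (g2 % 3)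
  rw [show 9 * (g2 / 9) + 3 * (g2 / 3 % 3) + g2 % 3 = g2 by omega] at h3
  refine of_nd1 ((nd_eq _ _ _ _ _ _).symm.trans h2) hn hT h1 hS hj hz h3 hV hc hd hW ?_
  simp only [u6, u5, u4, u3, u2, u1, Nat.mul_eq, Nat.add_eq]
  omega

theorem okM1_eq (m g4 g3 : ℕ) (hm : m.testBit (9 * g4 + g3) = true) :
    okM1 a l m g4 (g3 / 3) (g3 % 3) = okG a l g4 (g3 / 3) (g3 % 3) := by
  have h : Nat.land (Nat.shiftRight m (Nat.add (Nat.mul (nat_lit 9) g4)
      (Nat.add (Nat.mul (nat_lit 3) (g3 / 3)) (g3 % 3)))) (nat_lit 1) = 1 := by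
    change (m >>> (9 * g4 + (3 * (g3 / 3) + g3 % 3))) &&& 1 = 1
    rw [Nat.div_add_mod, Nat.and_one_is_mod, Nat.shiftRight_eq_div_pow]
    exact of_decide_eq_true (Nat.testBit_eq_decide_div_mod_eq.symm.trans hm)
  rw [okM1, h]
  rfl

/-- **what the test says** -/
theorem of_okM {m : ℕ} {G : Q4} (h : okM a l m = true)
    (hm : m.testBit (9 * G.2.2.2 + G.2.2.1) = true) (hn : 12 ≤ a.n) (hT : a.tt ≤ 90)
    (h1 : S1 val) (hS : ∀ f, S (f, 0, 0, 0)) (hj : z.i < a.n) (hz : z.D = byte a.dc z.i)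
    (hX : XW a l z S val) (hV : V.1 < 3) (hc : z.c = V.2.2.1) (hd : z.d = V.2.2.2)
    (hW : z.D + V.1 + 4 * V.2.1 ≤ a.tt) (hG : wt4 G + l.dw = z.D + V.1 + 4 * V.2.1) :
    val G V 0 0 = 0 := by
  obtain ⟨g1, g2, g3, g4⟩ := G
  have h2 := hG
  change g1 + 4 * g2 + 13 * g3 + 40 * g4 + l.dw = _ at h2
  rw [okM] at h
  have h3 := al3_spec h (show g4 < 3 by omega)
  replace h3 := al3_spec h3 (show g3 / 3 < 3 by omega)
  replace h3 := al3_spec h3 (show g3 % 3 < 3 by omega)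
  have h4 := of_okG (g1 := g1) (g2 := g2) ((okM1_eq m g4 g3 hm).symm.trans h3) hn hT h1 hS hj hz hX
    hV hc hd hW (by rwa [Nat.div_add_mod])
  rwa [Nat.div_add_mod] at h4

end Vale.Agent.P236JW
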