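import Vale.Agent.P236KE.Dig
import Mathlib.Data.ZMod.Basic

/-!
# P236JW / Lane : digits in base `256` and their classes modulo three
-/

namespace Vale.Agent.P236JW

open Vale.Agent.P236KE

/-- digit `i` of `N` in base `2 ^ 8` -/
def dg (N i : ℕ) : ℕ := N / 2 ^ (8 * i) % 256

theorem dg_lt (N i : ℕ) : dg N i < 256 := Nat.mod_lt _ (by norm_num)

@[simp] theorem dg_zero (i : ℕ) : dg 0 i = 0 := by simp [dg]

theorem dg_at_zero (N : ℕ) : dg N 0 = N % 256 := by simp [dg]

theorem dg_succ (N i : ℕ) : dg N (i + 1) = dg (N / 256) i := by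
  unfold dg
  rw [Nat.div_div_eq_div_mul, show 256 * 2 ^ (8 * i) = 2 ^ (8 * (i + 1)) by ring]

theorem dg_shr (N k i : ℕ) : dg (N >>> (8 * k)) i = dg N (i + k) := by
  unfold dg
  rw [Nat.shiftRight_eq_div_pow, Nat.div_div_eq_div_mul, ← pow_add,
    show 8 * k + 8 * i = 8 * (i + k) by ring]

theorem dg_small {a : ℕ} (h : a < 256) (i : ℕ) : dg a i = if i = 0 then a else 0 := by
  rcases i with _ | i
  · simp [dg_at_zero, Nat.mod_eq_of_lt h]
  · rw [dg_succ, Nat.div_eq_of_lt h]; simp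

theorem dg_shl (N k i : ℕ) : dg (N <<< (8 * k)) i = if k ≤ i then dg N (i - k) else 0 := by
  induction k generalizing i with
  | zero => simp
  | succ k ih =>
    have h : N <<< (8 * (k + 1)) = 256 * (N <<< (8 * k)) := by
      rw [Nat.shiftLeft_eq, Nat.shiftLeft_eq]; ring
    rw [h]
    rcases i with _ | i
    · simp [dg_at_zero]
    · rw [dg_succ, Nat.mul_div_cancel_left _ (by norm_num), ih]
      simp

theorem dg_add {a b : ℕ} (h : ∀ i, dg a i + dg b i < 256) (i : ℕ) :
    dg (a + b) i = dg a i + dg b i := by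
  induction i generalizing a b with
  | zero =>
    have := h 0
    simp only [dg_at_zero] at this ⊢
    omega
  | succ i ih =>
    have h0 := h 0
    simp only [dg_at_zero] at h0
    have h1 : (a + b) / 256 = a / 256 + b / 256 := by omega
    rw [dg_succ, dg_succ, dg_succ, h1]
    exact ih fun j => by rw [← dg_succ, ← dg_succ]; exact h _

theorem dg_mulc {a : ℕ} (c : ℕ) (h : ∀ i, c * dg a i < 256) (i : ℕ) :
    dg (c * a) i = c * dg a i := by
  induction c generalizing i with
  | zero => simp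
  | succ c ih =>
    have h' : ∀ i, c * dg a i < 256 := fun i => by have := h i; nlinarith
    rw [Nat.succ_mul, dg_add (fun j => by rw [ih h']; have := h j; nlinarith), ih h']
    ring

theorem dg_land (a b i : ℕ) : dg (a &&& b) i = dg a i &&& dg b i := by
  unfold dg
  rw [Nat.and_div_two_pow, show 256 = 2 ^ 8 by norm_num, Nat.and_mod_two_pow]

theorem dg_ext {a b : ℕ} (h : ∀ i, dg a i = dg b i) : a = b := by
  induction hn : a + b using Nat.strong_induction_on generalizing a b with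
  | _ n ih =>
    have h0 := h 0
    simp only [dg_at_zero] at h0
    rcases Nat.eq_zero_or_pos n with rfl | ha
    · omega
    · have := ih (a / 256 + b / 256) (by omega) (a := a / 256) (b := b / 256)
        (fun i => by rw [← dg_succ, ← dg_succ, h]) rfl
      omega

/-- concatenation -/
theorem dg_cat {a : ℕ} (b : ℕ) {s : ℕ} (h : ∀ i, s ≤ i → dg a i = 0) (i : ℕ) :
    dg (a + b <<< (8 * s)) i = if i < s then dg a i else dg b (i - s) := by
  rw [dg_add, dg_shl]
  · split_ifs with h1 h2 h2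
    · omega
    · rw [h i h1, zero_add]
    · rfl
    · omega
  · intro j
    rw [dg_shl]
    split_ifs with h1
    · rw [h j h1, zero_add]; exact dg_lt _ _
    · exact dg_lt _ _

/-- outer product: `A` has digits only at multiples of `S`, `B` has at most `S` digits -/
theorem dg_outer {S : ℕ} (hS : 0 < S) {B α β : ℕ} (hB : ∀ i, S ≤ i → dg B i = 0)
    (hβ : ∀ i, dg B i ≤ β) (hαβ : α * β < 256) (r : ℕ) : ∀ {A : ℕ},
    (∀ i, ¬ S ∣ i → dg A i = 0) → (∀ i, dg A i ≤ α) → ∀ s < S,
    dg (A * B) (S * r + s) = dg A (S * r) * dg B s := by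
  have key : ∀ {A : ℕ}, (∀ i, ¬ S ∣ i → dg A i = 0) → (∀ i, dg A i ≤ α) → ∀ i,
      dg (A * B) i = if i < S then dg A 0 * dg B i else dg ((A >>> (8 * S)) * B) (i - S) := by
    intro A hA hα i
    have h1 : A = dg A 0 + (A >>> (8 * S)) <<< (8 * S) := by
      refine dg_ext fun j => ?_
      rw [dg_cat _ (fun k hk => by rw [dg_small (dg_lt _ _), if_neg (by omega)])]
      split_ifs with hj
      · rw [dg_small (dg_lt _ _)]
        split_ifs with h0
        · rw [h0]
        · exact hA j fun hd => by have := Nat.le_of_dvd (by omega) hd; omega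
      · rw [dg_shr, Nat.sub_add_cancel (by omega)]
    have h2 : A * B = dg A 0 * B + ((A >>> (8 * S)) * B) <<< (8 * S) := by
      conv_lhs => rw [h1]
      rw [Nat.shiftLeft_eq, Nat.shiftLeft_eq]; ring
    have h3 : ∀ j, dg A 0 * dg B j < 256 := fun j =>
      lt_of_le_of_lt (Nat.mul_le_mul (hα 0) (hβ j)) hαβ
    rw [h2, dg_cat _ (fun k hk => by rw [dg_mulc _ h3, hB k hk, mul_zero]), dg_mulc _ h3]
  induction r with
  | zero => intro A hA hα s hs; rw [key hA hα, if_pos (by simpa using hs)]; simp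
  | succ r ih =>
    intro A hA hα s hs
    rw [key hA hα, if_neg (by nlinarith), show S * (r + 1) + s - S = S * r + s by
      rw [Nat.mul_succ]; omega, ih _ _ s hs, dg_shr, Nat.mul_succ]
    · intro i hi
      rw [dg_shr]
      exact hA _ fun hd => hi ((Nat.dvd_add_left dvd_rfl).1 hd)
    · intro i
      rw [dg_shr]; exact hα _

theorem dg_outer' {S : ℕ} (hS : 0 < S) {A B α β : ℕ} (hB : ∀ i, S ≤ i → dg B i = 0)
    (hβ : ∀ i, dg B i ≤ β) (hαβ : α * β < 256) (hA : ∀ i, ¬ S ∣ i → dg A i = 0)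
    (hα : ∀ i, dg A i ≤ α) (i : ℕ) : dg (A * B) i = dg A (S * (i / S)) * dg B (i % S) := by
  conv_lhs => rw [← Nat.div_add_mod i S]
  exact dg_outer hS hB hβ hαβ _ hA hα _ (Nat.mod_lt _ hS)

theorem dg_repD {s : ℕ} (hs : 0 < s) (m i : ℕ) :
    dg (repD (8 * s) m) i = if s ∣ i ∧ i < s * 2 ^ m then 1 else 0 := by
  induction m generalizing i with
  | zero =>
    change dg 1 i = _
    rw [dg_small (by norm_num)]
    refine if_congr ⟨fun h => by simp [h, hs], fun h => ?_⟩ rfl rfl
    exact Nat.eq_zero_of_dvd_of_lt h.1 (by simpa using h.2)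
  | succ m ih =>
    have h : repD (8 * s) (m + 1) =
        repD (8 * s) m + repD (8 * s) m <<< (8 * (s * 2 ^ m)) := by
      change repD (8 * s) m + repD (8 * s) m <<< ((8 * s) <<< m) = _
      rw [Nat.shiftLeft_eq (8 * s), mul_assoc]
    rw [h, dg_cat _ (fun k hk => by rw [ih, if_neg (by omega)])]
    have h2 : s * 2 ^ (m + 1) = s * 2 ^ m + s * 2 ^ m := by ring
    split_ifs with h1 h3 h3
    · rw [ih, if_pos ⟨h3.1, h1⟩]
    · rw [ih, if_neg fun h4 => h3 ⟨h4.1, by omega⟩]
    · rw [ih, if_pos ⟨Nat.dvd_sub h3.1 (dvd_mul_right _ _), by omega⟩]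
    · rw [ih, if_neg]
      rintro ⟨h4, h5⟩
      refine h3 ⟨?_, by omega⟩
      rw [← Nat.sub_add_cancel (Nat.le_of_not_lt h1)]
      exact Nat.dvd_add h4 (dvd_mul_right _ _)

theorem dg_repN {s : ℕ} (hs : 0 < s) (n i : ℕ) :
    dg (repN (8 * s) n) i = if s ∣ i ∧ i < s * n then 1 else 0 := by
  have h : repN (8 * s) n = repD (8 * s) (n.log2 + 1) >>> (8 * (s * (2 ^ (n.log2 + 1) - n))) := by
    change repD (8 * s) (n.log2 + 1) >>> (8 * s * (1 <<< (n.log2 + 1) - n)) = _
    rw [Nat.one_shiftLeft, mul_assoc]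
  have h1 : n < 2 ^ (n.log2 + 1) := Nat.lt_log2_self
  obtain ⟨e, he⟩ := Nat.exists_eq_add_of_le h1.le
  rw [h, dg_shr, dg_repD hs, he, Nat.add_sub_cancel_left, mul_add]
  refine if_congr (and_congr (Nat.dvd_add_left (dvd_mul_right _ _)) (by omega)) rfl rfl

theorem dg_rep1 (n i : ℕ) : dg (repN 8 n) i = if i < n then 1 else 0 := by
  have := dg_repN (s := 1) Nat.one_pos n i
  simpa using this

theorem dg_crep {s c : ℕ} (hs : 0 < s) (hc : c < 256) (n i : ℕ) :
    dg (c * repN (8 * s) n) i = if s ∣ i ∧ i < s * n then c else 0 := by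
  rw [dg_mulc _ fun j => by rw [dg_repN hs]; split_ifs <;> omega, dg_repN hs]
  split_ifs <;> simp

theorem dg_crep1 {c : ℕ} (hc : c < 256) (n i : ℕ) :
    dg (c * repN 8 n) i = if i < n then c else 0 := by
  have := dg_crep (s := 1) Nat.one_pos hc n i
  simpa using this

theorem byte_eq (D i : ℕ) : byte D i = dg D i := by
  change (D >>> (8 * i)) &&& 255 = _
  rw [dg, Nat.shiftRight_eq_div_pow]
  exact and_ones _ 8

theorem dg_lor (a b i : ℕ) : dg (a ||| b) i = dg a i ||| dg b i := by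
  unfold dg
  rw [Nat.or_div_two_pow, show 256 = 2 ^ 8 by norm_num, Nat.or_mod_two_pow]

theorem dg_sub {a b : ℕ} (h : ∀ i, dg b i ≤ dg a i) (i : ℕ) : dg (a - b) i = dg a i - dg b i := by
  have hle : ∀ n a b, a ≤ n → (∀ i, dg b i ≤ dg a i) → b ≤ a := fun n => by
    induction n using Nat.strong_induction_on with
    | _ n ih =>
      intro a b ha h
      have h0 := h 0
      simp only [dg_at_zero] at h0
      rcases Nat.eq_zero_or_pos a with rfl | h1
      · exact (dg_ext (b := 0) fun i => by simpa using h i).le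
      · have := ih (a / 256) (by omega) (a / 256) (b / 256) le_rfl
          fun i => by rw [← dg_succ, ← dg_succ]; exact h _
        omega
  induction i generalizing a b with
  | zero =>
    have h0 := h 0
    have := hle a a b le_rfl h
    simp only [dg_at_zero] at h0 ⊢
    omega
  | succ i ih =>
    have h0 := h 0
    have := hle a a b le_rfl h
    simp only [dg_at_zero] at h0
    have h1 : (a - b) / 256 = a / 256 - b / 256 := by omega
    rw [dg_succ, dg_succ, dg_succ, h1]
    exact ih fun j => by rw [← dg_succ, ← dg_succ]; exact h _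

/-- cutting to the first `n` digits -/
theorem dg_mod (x n i : ℕ) : dg (x % 2 ^ (8 * n)) i = if i < n then dg x i else 0 := by
  split_ifs with h
  · obtain ⟨e, rfl⟩ := Nat.exists_eq_add_of_lt h
    unfold dg
    rw [show 8 * (i + e + 1) = 8 * i + 8 * (e + 1) by ring, pow_add, Nat.mod_mul_right_div_self,
      Nat.mod_mod_of_dvd]
    exact ⟨2 ^ (8 * e), by ring⟩
  · unfold dg
    rw [Nat.div_eq_of_lt ((Nat.mod_lt _ (by positivity)).trans_le
      (Nat.pow_le_pow_right (by norm_num) (by omega)))]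

theorem dg_ones (n i : ℕ) : dg (2 ^ (8 * n) - 1) i = if i < n then 255 else 0 := by
  induction n generalizing i with
  | zero => simp
  | succ n ih =>
    have h : 0 < 2 ^ (8 * n) := by positivity
    have h1 : 2 ^ (8 * (n + 1)) = 256 * 2 ^ (8 * n) := by ring
    rcases i with _ | i
    · rw [dg_at_zero, if_pos (by omega)]; omega
    · rw [dg_succ, show (2 ^ (8 * (n + 1)) - 1) / 256 = 2 ^ (8 * n) - 1 by omega, ih]
      exact if_congr (by omega) rfl rfl

theorem and_255 (x i : ℕ) : dg x i &&& 255 = dg x i :=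
  (and_ones _ 8).trans (Nat.mod_eq_of_lt (dg_lt _ _))

theorem dg_shr4 (x i : ℕ) : dg (x >>> 4) i &&& 15 = dg x i / 16 := by
  refine (and_ones _ 4).trans ?_
  unfold dg
  rw [Nat.shiftRight_eq_div_pow, Nat.div_div_eq_div_mul, mul_comm, ← Nat.div_div_eq_div_mul]
  generalize x / 2 ^ (8 * i) = y
  omega

theorem dg_shr2 (x i : ℕ) : dg (x >>> 2) i &&& 63 = dg x i / 4 := by
  refine (and_ones _ 6).trans ?_
  unfold dg
  rw [Nat.shiftRight_eq_div_pow, Nat.div_div_eq_div_mul, mul_comm, ← Nat.div_div_eq_div_mul]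
  generalize x / 2 ^ (8 * i) = y
  omega

/-- all digits are at most `B` -/
def Bd (x B : ℕ) : Prop := ∀ i, dg x i ≤ B

/-- the class of the digit -/
def cl (x i : ℕ) : ZMod 3 := dg x i

variable {x y m B C i : ℕ}

theorem bd_top (x : ℕ) : Bd x 255 := fun i => Nat.le_of_lt_succ (dg_lt x i)
theorem bd_zero (B : ℕ) : Bd 0 B := fun i => by simp
@[simp] theorem cl_zero (i : ℕ) : cl 0 i = 0 := by simp [cl]
theorem Bd.mono (h : Bd x B) (hB : B ≤ C) : Bd x C := fun i => (h i).trans hB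

theorem Bd.dg_add (h : Bd x B) (h' : Bd y C) (hB : B + C < 256) (i : ℕ) :
    dg (x + y) i = dg x i + dg y i :=
  P236JW.dg_add (fun j => by have := h j; have := h' j; omega) i

theorem Bd.add (h : Bd x B) (h' : Bd y C) (hB : B + C < 256) : Bd (x + y) (B + C) := fun i => by
  rw [h.dg_add h' hB]; exact Nat.add_le_add (h i) (h' i)

theorem Bd.cl_add (h : Bd x B) (h' : Bd y C) (hB : B + C < 256) (i : ℕ) :
    cl (x + y) i = cl x i + cl y i := by
  rw [cl, h.dg_add h' hB, Nat.cast_add]; rfl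

theorem Bd.dg_mul (h : Bd x B) (c : ℕ) (hB : c * B < 256) (i : ℕ) : dg (c * x) i = c * dg x i :=
  dg_mulc c (fun j => (Nat.mul_le_mul_left c (h j)).trans_lt hB) i

theorem Bd.mul (h : Bd x B) (c : ℕ) (hB : c * B < 256) : Bd (c * x) (c * B) := fun i => by
  rw [h.dg_mul c hB]; exact Nat.mul_le_mul_left c (h i)

theorem Bd.cl_mul (h : Bd x B) (c : ℕ) (hB : c * B < 256) (i : ℕ) :
    cl (c * x) i = c * cl x i := by
  rw [cl, h.dg_mul c hB, Nat.cast_mul]; rfl

/-- doubling is negation -/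
theorem Bd.dbl (h : Bd x B) (hB : 2 * B < 256) : Bd (x <<< 1) (2 * B) := by
  rw [Nat.shiftLeft_eq, mul_comm]; exact h.mul 2 hB

theorem Bd.cl_dbl (h : Bd x B) (hB : 2 * B < 256) (i : ℕ) : cl (x <<< 1) i = -cl x i := by
  rw [Nat.shiftLeft_eq, mul_comm, pow_one, h.cl_mul 2 hB]
  generalize cl x i = c
  revert c
  decide

theorem Bd.shr (h : Bd x B) (s : ℕ) : Bd (x >>> (8 * s)) B := fun i => by
  rw [dg_shr]; exact h _

theorem cl_shr (x s i : ℕ) : cl (x >>> (8 * s)) i = cl x (i + s) := by rw [cl, dg_shr]; rfl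

theorem Bd.shl (h : Bd x B) (s : ℕ) : Bd (x <<< (8 * s)) B := fun i => by
  rw [dg_shl]
  split_ifs
  exacts [h _, Nat.zero_le _]

theorem cl_shl (x s i : ℕ) : cl (x <<< (8 * s)) i = if s ≤ i then cl x (i - s) else 0 := by
  rw [cl, dg_shl]
  split_ifs
  exacts [rfl, Nat.cast_zero]

theorem Bd.and (h : Bd x B) (m : ℕ) : Bd (x &&& m) B := fun i => by
  rw [dg_land]; exact Nat.and_le_left.trans (h i)

theorem dg_and_on (x : ℕ) (hm : dg m i = 255) : dg (x &&& m) i = dg x i := by
  rw [dg_land, hm, and_255]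

theorem dg_and_off (x : ℕ) (hm : dg m i = 0) : dg (x &&& m) i = 0 := by
  rw [dg_land, hm, Nat.and_zero]

theorem cl_and_on (x : ℕ) (hm : dg m i = 255) : cl (x &&& m) i = cl x i := by
  rw [cl, dg_and_on x hm]; rfl

theorem cl_and_off (x : ℕ) (hm : dg m i = 0) : cl (x &&& m) i = 0 := by
  rw [cl, dg_and_off x hm, Nat.cast_zero]

theorem Bd.mod (h : Bd x B) (n : ℕ) : Bd (x % 2 ^ (8 * n)) B := fun i => by
  rw [dg_mod]
  split_ifs
  exacts [h _, Nat.zero_le _]

theorem cl_mod (x : ℕ) {n : ℕ} (h : i < n) : cl (x % 2 ^ (8 * n)) i = cl x i := by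
  rw [cl, dg_mod, if_pos h]; rfl

/-- first reduction -/
def r16 (m x : ℕ) : ℕ := Nat.add (Nat.land x m) (Nat.land (Nat.shiftRight x (nat_lit 4)) m)

/-- second reduction -/
def r4 (m m' x : ℕ) : ℕ := Nat.add (Nat.land x m) (Nat.land (Nat.shiftRight x (nat_lit 2)) m')

variable {m' : ℕ}

theorem dg_r16 (hm : ∀ i, dg m i = 15 ∨ dg m i = 0) (x i : ℕ) :
    dg (r16 m x) i = if dg m i = 15 then dg x i % 16 + dg x i / 16 else 0 := by
  have h1 : ∀ j, dg (x &&& m) j = if dg m j = 15 then dg x j % 16 else 0 := fun j => by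
    rw [dg_land]
    rcases hm j with h | h <;> rw [h]
    exacts [and_ones _ 4, Nat.and_zero _]
  have h2 : ∀ j, dg ((x >>> 4) &&& m) j = if dg m j = 15 then dg x j / 16 else 0 := fun j => by
    rw [dg_land]
    rcases hm j with h | h <;> rw [h]
    exacts [dg_shr4 _ _, Nat.and_zero _]
  change dg ((x &&& m) + ((x >>> 4) &&& m)) i = _
  rw [dg_add, h1, h2]
  · split_ifs <;> rfl
  · intro j
    have := dg_lt x j
    rw [h1, h2]
    split_ifs <;> omega

theorem dg_r4 (hm : ∀ i, (dg m i = 3 ∧ dg m' i = 63) ∨ (dg m i = 0 ∧ dg m' i = 0)) (x i : ℕ) :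
    dg (r4 m m' x) i = if dg m i = 3 then dg x i % 4 + dg x i / 4 else 0 := by
  have h1 : ∀ j, dg (x &&& m) j = if dg m j = 3 then dg x j % 4 else 0 := fun j => by
    rw [dg_land]
    rcases hm j with h | h <;> rw [h.1]
    exacts [and_ones _ 2, Nat.and_zero _]
  have h2 : ∀ j, dg ((x >>> 2) &&& m') j = if dg m j = 3 then dg x j / 4 else 0 := fun j => by
    rw [dg_land]
    rcases hm j with h | h <;> rw [h.1, h.2]
    exacts [dg_shr2 _ _, Nat.and_zero _]
  change dg ((x &&& m) + ((x >>> 2) &&& m')) i = _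
  rw [dg_add, h1, h2]
  · split_ifs <;> rfl
  · intro j
    have := dg_lt x j
    rw [h1, h2]
    split_ifs <;> omega

theorem bd_r16 (hm : ∀ i, dg m i = 15 ∨ dg m i = 0) (x : ℕ) : Bd (r16 m x) 30 := fun i => by
  have := dg_lt x i
  rw [dg_r16 hm]
  split_ifs <;> omega

theorem cast_eq {a b : ℕ} (h : a % 3 = b % 3) : (a : ZMod 3) = b :=
  (ZMod.natCast_eq_natCast_iff' a b 3).2 h

theorem cl_r16 (hm : ∀ i, dg m i = 15 ∨ dg m i = 0) (x i : ℕ) :
    cl (r16 m x) i = if dg m i = 15 then cl x i else 0 := by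
  rw [cl, dg_r16 hm]
  split_ifs
  exacts [cast_eq (by omega), Nat.cast_zero]

theorem cl_r4 (hm : ∀ i, (dg m i = 3 ∧ dg m' i = 63) ∨ (dg m i = 0 ∧ dg m' i = 0)) (x i : ℕ) :
    cl (r4 m m' x) i = if dg m i = 3 then cl x i else 0 := by
  rw [cl, dg_r4 hm]
  split_ifs
  exacts [cast_eq (by omega), Nat.cast_zero]

/-- the bound after the second reduction: `255 ↦ 66 ↦ 18 ↦ 6 ↦ 3` and `30 ↦ 9 ↦ 4 ↦ 3` -/
def nb4 (B : ℕ) : ℕ := max (B % 4 + B / 4) (min B 3 + (B / 4 - 1))

theorem Bd.r4 (h : Bd x B)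
    (hm : ∀ i, (dg m i = 3 ∧ dg m' i = 63) ∨ (dg m i = 0 ∧ dg m' i = 0)) :
    Bd (r4 m m' x) (nb4 B) := fun i => by
  have := h i
  rw [dg_r4 hm, nb4]
  split_ifs <;> omega

/-- the divisibility test -/
theorem cl_eq_zero {top : ℕ} (htop : ∀ i, dg top i = 192 ∨ dg (x / 3) i = 0)
    (h : x % 3 + ((x / 3) &&& top) = 0) (i : ℕ) : cl x i = 0 := by
  have h1 : x = 3 * (x / 3) := by omega
  have h2 : Bd (x / 3) 63 := fun j => by
    rcases htop j with h2 | h2
    · have h3 : dg (x / 3) j &&& 192 = 0 := by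
        rw [← h2, ← dg_land, show (x / 3) &&& top = 0 by omega, dg_zero]
      have h4 := dg_lt (x / 3) j
      generalize dg (x / 3) j = y at h3 h4
      have h5 := congrArg (· / 2 ^ 6) h3
      simp only [Nat.and_div_two_pow] at h5
      have h6 := and_ones (y / 2 ^ 6) 2
      norm_num at h5 h6
      omega
    · omega
  rw [h1, h2.cl_mul 3 (by norm_num), show ((3 : ℕ) : ZMod 3) = 0 from rfl, zero_mul]

/-- the test in terms of a length -/
theorem cl_eq_zero' {top n : ℕ} (htop : ∀ i < n, dg top i = 192) (hx : x < 2 ^ (8 * n))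
    (h : x % 3 + ((x / 3) &&& top) = 0) (i : ℕ) : cl x i = 0 :=
  cl_eq_zero (fun j => (lt_or_ge j n).imp (htop j) fun hj => by
    have h9 : x / 3 < 2 ^ (8 * j) := lt_of_le_of_lt (Nat.div_le_self _ _)
      (hx.trans_le (Nat.pow_le_pow_right (by norm_num) (by omega)))
    simp [dg, Nat.div_eq_of_lt h9]) h i

end Vale.Agent.P236JW
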