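import Vale.Agent.P236JW.Lev
import Vale.Agent.P236JW.Eng3
import Vale.Agent.P236JK.Frob

/-!
# P236JW / Twr : the towers of levels
-/

noncomputable section

namespace Vale.Agent.P236JW

open Vale.Agent.P236K3 Vale.Agent.P236KE Vale.Agent.P236JF Vale.Agent.P236EL
open Vale.Agent.P236JK (cubL cub TJ_frob valJ_frob els_y m4_k0 m4_k1 m4_k2 m4_k3)

theorem ok_t4 : isE 23 true et4 40 (cubL^[0] (dlsJ 3)) = true := by decide +kernel
theorem ok_t33 : isE 23 false et33 39 (cubL^[1] (dlsJ 2)) = true := by decide +kernel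
theorem ok_t3 : isE 143 false et3 13 (cubL^[0] (dlsJ 2)) = true := by decide +kernel
theorem ok_t29 : isE 23 false et29 36 (cubL^[2] (dlsJ 1)) = true := by decide +kernel
theorem ok_t23 : isE 23 false et23 12 (cubL^[1] (dlsJ 1)) = true := by decide +kernel
theorem ok_t2 : isE 23 false et2 4 (cubL^[0] (dlsJ 1)) = true := by decide +kernel
theorem ok_h4 : isE 143 false eh4 40 (cubL^[0] (elsJ 3)) = true := by decide +kernel
theorem ok_h33 : isE 23 false eh33 39 (cubL^[1] (elsJ 2)) = true := by decide +kernel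
theorem ok_h3 : isE 23 false eh3 13 (cubL^[0] (elsJ 2)) = true := by decide +kernel
theorem ok_h23 : isE 2 true eh23 12 (cubL^[1] (elsJ 1)) = true := by decide +kernel
theorem ok_h2 : isE 23 false eh2 4 (cubL^[0] (elsJ 1)) = true := by decide +kernel
theorem ok_h1 : isE 2 false eh1 1 (cubL^[0] (elsJ 0)) = true := by decide +kernel

theorem cub_y {i : ℕ} (hi : i < 4) (j : ℕ) : ∀ τ ∈ cubL^[j] (elsJ i), τ.y = 0 := by
  induction j with
  | zero => exact els_y i hi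
  | succ j ih =>
    intro τ hτ
    rw [Function.iterate_succ_apply'] at hτ
    obtain ⟨σ, hσ, rfl⟩ := List.mem_map.1 hτ
    change 3 • σ.y = 0
    rw [ih σ (List.mem_of_mem_filter hσ), smul_zero]

theorem h4L_eq (p : Bs) (X : ℕ → ℕ) (s : ℕ) :
    h4L p X s = red9 p (rr (kT p) s) (ev p (rr (kT p) s) X (s - 40) eh4) := by
  rw [h4L, force_eq, force_eq, h4B_eq]
  rfl

theorem h33L_eq (p : Bs) (X : ℕ → ℕ) (s : ℕ) :
    h33L p X s = ex6 p (rr (kT p) s) (ev p (rr (kT p) s) X (s - 39) eh33) := by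
  rw [h33L, force_eq, force_eq, h33B_eq]
  rfl

theorem h3L_eq (p : Bs) (X : ℕ → ℕ) (s : ℕ) :
    h3L p X s = ex6 p (rr (kT p) s) (ev p (rr (kT p) s) X (s - 13) eh3) := by
  rw [h3L, force_eq, force_eq, h3B_eq]
  rfl

theorem h2L_eq (p : Bs) (X : ℕ → ℕ) (s : ℕ) :
    h2L p X s = ex6 p (rr (kT p) s) (ev p (rr (kT p) s) X (s - 4) eh2) := by
  rw [h2L, force_eq, force_eq, h2B_eq]
  rfl

theorem h23L_eq (p : Bs) (X : ℕ → ℕ) (s : ℕ) :
    h23L p X s = ev p (rr (kT p) s) X (s - 12) eh23 := by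
  rw [h23L, force_eq, h23B_eq p X _ (rr (kT p) s)]
  rfl

theorem h1L_eq (p : Bs) (X : ℕ → ℕ) (s : ℕ) :
    h1L p X s = Nat.land (ev p (rr (kT p) s) X (s - 1) eh1) (mFF p (rr (kT p) s)) := by
  rw [h1L, force_eq, force_eq, h1B_eq]
  rfl

theorem t4L_eq (p : Bs) (K : ℕ) (X : ℕ → ℕ) (s : ℕ) :
    t4L p K X s = ex5 p (ev p (rr K s) X s et4) := by
  rw [t4L, force_eq, t4B_eq]

theorem t33L_eq (p : Bs) (K : ℕ) (X : ℕ → ℕ) (s : ℕ) :
    t33L p K X s = ex6 p (rr K s) (ev p (rr K s) X s et33) := by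
  rw [t33L, force_eq, t33B_eq]

theorem t3L_eq (p : Bs) (K : ℕ) (X : ℕ → ℕ) (s : ℕ) :
    t3L p K X s = red9 p (rr K s) (ev p (rr K s) X s et3) := by
  rw [t3L, force_eq, t3B_eq]

theorem t29L_eq (p : Bs) (K : ℕ) (X : ℕ → ℕ) (s : ℕ) :
    t29L p K X s = ex6 p (rr K s) (ev p (rr K s) X s et29) := by
  rw [t29L, force_eq, t29B_eq]

theorem t23L_eq (p : Bs) (K : ℕ) (X : ℕ → ℕ) (s : ℕ) :
    t23L p K X s = ex6 p (rr K s) (ev p (rr K s) X s et23) := by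
  rw [t23L, force_eq, t23B_eq]

theorem t2L_eq (p : Bs) (K : ℕ) (X : ℕ → ℕ) (s : ℕ) :
    t2L p K X s = ex6 p (rr K s) (ev p (rr K s) X s et2) := by
  rw [t2L, force_eq, t2B_eq]

theorem mk_f (L : (ℕ → ℕ) → ℕ → ℕ) (X : Fm) : (mk L X).f = L X.f := by
  cases X
  rfl

theorem itT_succ (L : (ℕ → ℕ) → ℕ → ℕ) (X : Fm) (g : ℕ) :
    (itT L X (g + 1)).f = L (itT L X g).f := mk_f _ _

theorem itD_succ (p : Bs) (L : ℕ → (ℕ → ℕ) → ℕ → ℕ) (X : Fm) (u k g : ℕ) :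
    (itD p L X u k (g + 1)).f = L (kT p - (u + k * (g + 1))) (itD p L X u k g).f := mk_f _ _

/-- the column belongs to the group -/
structure ColOk (p : Bs) (z : Col) : Prop where
  i : z.i < p.n
  D : z.D = byte p.dc z.i
  T : p.tt ≤ 100

variable {p : Bs} {z : Col} {S : Q4 → Prop} {dw : ℕ} [Fact (Nat.Prime 3)]

theorem tw_step (hz : ColOk p z) {fn : ℕ → ℕ → ℕ} {B : ℕ} {o : Bool} (hf : FnOk p fn B o)
    {f : EX} {k i j : ℕ} (hi : i < 4) (he : isE B o f k (cubL^[j] (elsJ i)) = true)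
    {L : (ℕ → ℕ) → ℕ → ℕ}
    (hL : ∀ X s, L X s = fn (rr (kT p) s) (ev p (rr (kT p) s) X (s - k) f))
    {y : (ℕ →₀ ℕ) → AA K} {U : ℕ → Q4}
    (hU : ∀ n, m4 (U (n + 1)) = Finsupp.single i (3 ^ j) + m4 (U n)) {X : Fm}
    (h : Fam p z S 0 dw X.f 0 fun V E _ => TJ y (U 0) V E) (g : ℕ) :
    Fam p z S 0 (dw + k * g) (itT L X g).f 0 fun V E _ => TJ y (U g) V E := by
  induction g with
  | zero => exact h
  | succ g ih =>
    rw [itT_succ, mul_add_one, ← add_assoc]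
    exact ih.lev (k₁ := k) (k₂ := 0) hz.i hz.D hz.T hf he
      (fun τ hτ F hF => by rwa [cub_y hi j τ hτ, add_zero])
      (fun V E F _ hV => TJ_frob y hi j (hU g) hV E) (K₀ := kT p) le_rfl (hL _)

/-- **the twisted functionals** -/
theorem w1_fam (hz : ColOk p z) {y : (ℕ →₀ ℕ) → AA K} {w : ℕ}
    (h : Fam p z S 0 dw (base p w) 0 fun V E _ => TJ y 0 V E) (d c1 c0 b1 b0 u : ℕ) :
    Fam p z S 0 (dw + 40 * d + 39 * c1 + 13 * c0 + 12 * b1 + 4 * b0 + 1 * u)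
      (w1 p w d c1 c0 b1 b0 u).f 0 fun V E _ => TJ y (u, 3 * b1 + b0, 3 * c1 + c0, d) V E := by
  have h0 : 0 < p.n := Nat.zero_lt_of_lt hz.i
  have h4 := tw_step hz (fn_red9 h0) (by omega) ok_h4 (L := h4L p)
    (h4L_eq p) (U := fun n => (0, 0, 0, n)) (m4_k3 1 0 0 0)
    (X := ⟨base p w⟩) h d
  have h33 := tw_step hz (fn_ex6 h0) (by omega) ok_h33 (L := h33L p)
    (h33L_eq p) (U := fun n => (0, 0, 3 * n, d))
    (fun n => m4_k2 3 0 0 (3 * n) d) h4 c1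
  have h3 := tw_step hz (fn_ex6 h0) (by omega) ok_h3 (L := h3L p)
    (h3L_eq p) (U := fun n => (0, 0, 3 * c1 + n, d))
    (fun n => m4_k2 1 0 0 (3 * c1 + n) d) h33 c0
  have h23 := tw_step hz fn_id (by omega) ok_h23 (L := h23L p)
    (h23L_eq p) (U := fun n => (0, 3 * n, 3 * c1 + c0, d))
    (fun n => m4_k1 3 0 (3 * n) _ d) h3 b1
  have h2 := tw_step hz (fn_ex6 h0) (by omega) ok_h2 (L := h2L p)
    (h2L_eq p) (U := fun n => (0, 3 * b1 + n, 3 * c1 + c0, d))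
    (fun n => m4_k1 1 0 (3 * b1 + n) _ d) h23 b0
  exact tw_step hz (fn_mFF h0) (by omega) ok_h1 (L := h1L p)
    (h1L_eq p) (U := fun n => (n, 3 * b1 + b0, 3 * c1 + c0, d))
    (fun n => m4_k0 1 n _ _ d) h2 u

theorem tw3_fam (hz : ColOk p z) {y : (ℕ →₀ ℕ) → AA K} {w : ℕ}
    (h : Fam p z S 0 dw (base p w) 0 fun V E _ => TJ y 0 V E) (d c u b : ℕ) :
    Fam p z S 0 (dw + wt4 (u, b, c, d)) (tw3 p w d c u b).f 0
      fun V E _ => TJ y (u, b, c, d) V E := by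
  have h1 := w1_fam hz h d (c / 3) (c % 3) (b / 3) (b % 3) u
  rw [Nat.div_add_mod, Nat.div_add_mod, show dw + 40 * d + 39 * (c / 3) + 13 * (c % 3) +
    12 * (b / 3) + 4 * (b % 3) + 1 * u = dw + wt4 (u, b, c, d) by simp only [wt4]; omega] at h1
  exact h1

theorem tw3_gd (hn : 0 < p.n) (hT : p.tt ≤ 100) {w : ℕ} (h : ∀ s, Gd p (base p w s))
    (d c u b s : ℕ) : Gd p ((tw3 p w d c u b).f s) :=
  (tw3_fam (z := ⟨0, 0, 0, byte p.dc 0⟩) (S := fun _ => False) (dw := 0) (y := 0) ⟨hn, rfl, hT⟩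
    ⟨h, fun _ _ _ _ _ h => h.elim⟩ d c u b).gd s

variable {n : ℕ} {s' s : Fin n → (ℕ →₀ ℕ) → AA K}

theorem x_step (hz : ColOk p z) {fn : ℕ → ℕ → ℕ} {B : ℕ} {o : Bool} (hf : FnOk p fn B o)
    {f : EX} {k i j u : ℕ} (hi : i < 4) (he : isE B o f k (cubL^[j] (dlsJ i)) = true)
    {L : ℕ → (ℕ → ℕ) → ℕ → ℕ} (hL : ∀ K X c, L K X c = fn (rr K c) (ev p (rr K c) X c f))
    {G : ℕ → Q4} (hG : ∀ n, m4 (G (n + 1)) = Finsupp.single i (3 ^ j) + m4 (G n)) {X : Fm}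
    (h : Fam p z (fun _ => True) dw dw X.f u (valJ s' s (G 0))) (g : ℕ) :
    Fam p z (fun _ => True) dw dw (itD p L X u k g).f (u + k * g) (valJ s' s (G g)) := by
  induction g with
  | zero => exact h
  | succ g ih =>
    rw [itD_succ, show u + k * (g + 1) = u + k * g + k from (add_assoc _ _ _).symm]
    exact ih.lev (k₁ := 0) (k₂ := k) hz.i hz.D hz.T hf (by rwa [zero_add])
      (fun _ _ _ _ => trivial) (fun V E F _ hV => valJ_frob s' s hi j (hG g) hV E F)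
      (K₀ := kT p - (u + k * g + k)) le_rfl (hL _ _)

/-- **the monomials without the first generator** -/
theorem x2_fam (hz : ColOk p z) {l : Lw}
    (h : Fam p z (fun _ => True) dw dw (init p l) 0 (valJ s' s 0)) (g4 c1 c0 b2 b1 b0 : ℕ) :
    Fam p z (fun _ => True) dw dw (x2 p l g4 c1 c0 b2 b1 b0).f (u6 g4 c1 c0 b2 b1 b0)
      (valJ s' s (0, 9 * b2 + 3 * b1 + b0, 3 * c1 + c0, g4)) := by
  have h0 : 0 < p.n := Nat.zero_lt_of_lt hz.i
  have h4 := x_step hz (fn_ex5 h0) (by omega) ok_t4 (L := t4L p) (t4L_eq p)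
    (G := fun n => (0, 0, 0, n)) (m4_k3 1 0 0 0) (X := ⟨init p l⟩) h g4
  rw [zero_add] at h4
  have h33 := x_step hz (fn_ex6 h0) (by omega) ok_t33 (L := t33L p) (t33L_eq p)
    (G := fun n => (0, 0, 3 * n, g4)) (fun n => m4_k2 3 0 0 (3 * n) g4) h4 c1
  have h3 := x_step hz (fn_red9 h0) (by omega) ok_t3 (L := t3L p) (t3L_eq p)
    (G := fun n => (0, 0, 3 * c1 + n, g4)) (fun n => m4_k2 1 0 0 (3 * c1 + n) g4) h33 c0
  have h29 := x_step hz (fn_ex6 h0) (by omega) ok_t29 (L := t29L p) (t29L_eq p)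
    (G := fun n => (0, 9 * n, 3 * c1 + c0, g4)) (fun n => m4_k1 9 0 (9 * n) _ g4) h3 b2
  have h23 := x_step hz (fn_ex6 h0) (by omega) ok_t23 (L := t23L p) (t23L_eq p)
    (G := fun n => (0, 9 * b2 + 3 * n, 3 * c1 + c0, g4))
    (fun n => m4_k1 3 0 (9 * b2 + 3 * n) _ g4) h29 b1
  exact x_step hz (fn_ex6 h0) (by omega) ok_t2 (L := t2L p) (t2L_eq p)
    (G := fun n => (0, 9 * b2 + 3 * b1 + n, 3 * c1 + c0, g4))
    (fun n => m4_k1 1 0 (9 * b2 + 3 * b1 + n) _ g4) h23 b0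

end Vale.Agent.P236JW

end
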