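import Vale.Agent.P236JI.Rw
import Mathlib.Data.Nat.Choose.Sum

/-!
# P236JW / Bin : the first generator through binomial masks, and the final test
-/

namespace Vale.Agent.P236JW

open Vale.Agent.P236KE Finset

/-- the table of the binomial coefficients modulo three -/
def bt : ℕ := nat_lit
  1332629622273071789610845224493772942493484047178536921755427070396984235760025335589926598858485167046484400120067982582164947678974535505465790989823892978507626868597684623231593567968711677079159779455883669325901948738542834793152241150685693511163628618860004662692487805576340808823054305039213694278914268224207661770971550581433148731857598867349802389923736486625554558496041204141898747531477985982078719536902818252949413738404945797130575967116439821590231318073042129123319091923525987312099467406253868589480892258092070234019163938292507731580152553139107647981362070245853282877869179989434499091934852087595903053514084044871276834303126928331940314590433092190708686996176925662610351846471324758359098718163709519129268919441602006990975910533287766742457266138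31449583575161923004548864032452750434230175576754525412728029368757468781400980525654817777641120367737562806918392591639179986504813814315120053339959051693351372224108406103981409464020478943400146552550604647182488540455053806426940870334288465568270822925774770337940676802660462082160840892908119887795561094272013235583542701541313654281729500984268127271323324057046225724238576550809774570813849107666920513909603088602991960372526927878494006305306184755156053704302145707754756954259097006917452262112028483067646851181410040063700090488030421745588287779982685298615433809325283078859494942832375157986813654659561656424268978952623938963594913759286033821030156355744507604991890084161230065502185032895357762377198584864265101838835025005826754861992250267112559363387175789006247246907594504577115987736056902284189036726377848119716076186065842582714641687199823914163949927658634115735426862780877500659681468469273884995272789616004149861130277114159560763050825347529801199660946646537946023618512594381037421450326206803331632061344165178541446587510945630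81012826855916396738530691672514835873415808010764579053062384217339825576005394948432636584895709703747261482055125748406771214770133076400825314270465793149463021059125861114285984120933511700483829131652626465814896572110840571359970760130583969931320560374366375414303680039962549498904914212984386641927628753586782674533085437371408458546525031445454802502850431339525858988790822763875481161986989819321547775266674850012650875019768426729191843983333921523435601121388937210779487910331712150478974389529163084472075166028136897119222037186239715680473778738288157765439573961144578861676737498170333194265228351202930193561613484080493995432098312819893572618239413627335908002051567964324517984022971717712312390830233225997248302449688364084681826387587720804789937066473217647796017493448946758045936677019425775739338724212260874986838486021697384014411185460466393052078430294653290655755556051638144575185843863551132646592202046836008015067915250172793122629399670987943360557721317965657332749540672615621913069693710594002796539836498973066223110760341015502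51800868645050611978725809749492348921136784355856730584263424670257764883464203696603723301359135158671044884501127595297183643527963407112489489445018835396585729074220231883679139305376181051653328126231420165452920299578099506442722722730625490664294964834381226740111718014072554663158724892909449569606388434897114486960152231932691830105770308595874959408095901628198450412214313153015706050751374356924895197584479451235973567703493068085288178127490353371434599396150253171584571977439885777681649685711685202121481143073903109533015347761369385621033397412636098723675644851748571150222697781498197317033326395135237600850915943955681232312566784476880936853151598564849013490253100305451265694555826213130371706388031149742986374418789707135419216612725153757519704618133304350471513530430422263615215094665094268469701832507015296189843403365170830393331336309477498469246944429993584364970207641596287848134638735973870519991998583492058036177931318210763878263923969642452491378602340710485668683574145394060367260923594919624970342855271654859765674443351728810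33003243012264550838551771248526217570663730456007020124211982520925430967327713995234943766257006981820905704185765430679414072364957001199445679811389461286899717690550943827160386318246139932806270378289857377159457722311783159615021619323755939698357370924943958470390353323726248473134130687389710937295423868811899577811905122430314511311047092347119086726253725269838202823769190494582714106009691973414497616455737350872115272321560937207753801407951759753169469950164979058376508701378862011328022408425844481254270445223340913557122611004343456560798545434385839477975882379572080324256917550426902434835012391761326756662854719800351137635490917247604028567633714941591398655664887411141869474458328824285548526415928959883965588684323449130105505177760514692057604483453886186409648814480691411314282978561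

/-- rows `ρ ≤ 90` of `N` lanes, filled when bit `t` of the table is set -/
def bmk (N t : ℕ) : ℕ :=
  Nat.mul (Nat.land (Nat.shiftRight (Nat.mul (repN (Nat.mul (nat_lit 8) (Nat.pred N)) (nat_lit 91))
      (Nat.mod (Nat.shiftRight bt (Nat.mul (nat_lit 8) (Nat.mul (nat_lit 91)
        (Nat.div t (nat_lit 8))))) (Nat.pow (nat_lit 2) (Nat.mul (nat_lit 8) (nat_lit 91))))) (Nat.mod t (nat_lit 8)))
    (repN (Nat.mul (nat_lit 8) N) (nat_lit 91)))
    (Nat.pred (Nat.pow (nat_lit 2) (Nat.mul (nat_lit 8) N)))

/-- the rows where the binomial coefficient is not zero -/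
def bA (N f : ℕ) : ℕ := bmk N (Nat.mul (nat_lit 2) f)

/-- the rows where the binomial coefficient is two -/
def bB (N f : ℕ) : ℕ := bmk N (Nat.succ (Nat.mul (nat_lit 2) f))

/-- the digit `15` in all lanes -/
def m15 (N : ℕ) : ℕ := Nat.mul (nat_lit 15) (repN (nat_lit 8) (Nat.mul (nat_lit 91) N))

/-- the digit `192` in all lanes -/
def tp (N : ℕ) : ℕ := Nat.mul (nat_lit 192) (repN (nat_lit 8) (Nat.mul (nat_lit 91) N))

/-- the sum with binomial coefficients -/
def fin (N s : ℕ) (X : ℕ → ℕ) (n : ℕ) : ℕ :=
  Nat.rec (motive := fun _ => ℕ) (nat_lit 0) (fun f ih => Nat.add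
    (Bool.rec (motive := fun _ => ℕ) ih (r16 (m15 N) ih) (Nat.beq f (nat_lit 45)))
    (Nat.add (Nat.land (X f) (Nat.shiftRight (bA N f) s))
      (Nat.land (X f) (Nat.shiftRight (bB N f) s)))) n

/-- the test that all digits are divisible by three -/
def zt (N x : ℕ) : ℕ :=
  Nat.add (Nat.shiftRight x (Nat.mul (nat_lit 8) (Nat.mul (nat_lit 91) N)))
    (Nat.add (Nat.mod x (nat_lit 3)) (Nat.land (Nat.div x (nat_lit 3)) (tp N)))

/-- a finite sum -/
def sumR (f : ℕ → ℕ) (n : ℕ) : ℕ :=
  Nat.rec (motive := fun _ => ℕ) (nat_lit 0) (fun i ih => Nat.add ih (f i)) n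

/-- the check of one monomial without `t_1`; `k` is its weight plus the lower degree -/
def ck0 (N T : ℕ) (X : ℕ → ℕ) (k : ℕ) : ℕ :=
  force (Nat.mul (nat_lit 8) (Nat.mul N (Nat.add k (Nat.sub (nat_lit 90) T)))) fun s =>
    zt N (r16 (m15 N) (fin N s X (Nat.sub (Nat.succ T) k)))

/-- the check of all monomials with given exponents of `t_4` and `t_3` -/
def ck1 (N T dw : ℕ) (X : ℕ → ℕ → ℕ) (g4 g3 : ℕ) : ℕ :=
  force (Nat.add dw (Nat.add (Nat.mul (nat_lit 40) g4) (Nat.mul (nat_lit 13) g3))) fun k0 =>
    sumR (fun g2 => force (Nat.add k0 (Nat.mul (nat_lit 4) g2)) (ck0 N T (X g2)))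
      (Nat.div (Nat.sub (Nat.add T (nat_lit 4)) k0) (nat_lit 4))

/-- the check of all monomials; `X g4 g3 g2 f` is the array of the code `t_1 ^ f` -/
def ckW (N T dw : ℕ) (X : ℕ → ℕ → ℕ → ℕ → ℕ) : ℕ :=
  sumR (fun g4 => sumR (fun g3 => ck1 N T dw (X g4 g3) g4 g3) (nat_lit 7)) (nat_lit 3)

/-- the check of the table -/
def btOk : Bool := (List.range 182).all fun t => (List.range 91).all fun r =>
  Nat.beq (byte bt (91 * (t / 8) + r) / 2 ^ (t % 8) % 2)
    (cond (Nat.blt (t % 2) ((90 - r).descFactorial (t / 2) / (t / 2).factorial % 3)) 1 0)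

theorem bt_ok : btOk = true := by decide +kernel

theorem bt_bit {t r : ℕ} (ht : t < 182) (hr : r < 91) :
    dg bt (91 * (t / 8) + r) / 2 ^ (t % 8) % 2 =
      if t % 2 < (90 - r).choose (t / 2) % 3 then 1 else 0 := by
  have h := bt_ok
  simp only [btOk, List.all_eq_true, List.mem_range, Nat.beq_eq] at h
  rw [← byte_eq, h t ht r hr, Nat.choose_eq_descFactorial_div_factorial, Bool.cond_eq_ite]
  simp only [Nat.blt_eq]

theorem dg_shr_bit (x i : ℕ) {j : ℕ} (hj : j < 8) :
    dg (x >>> j) i &&& 1 = dg x i / 2 ^ j % 2 := by
  refine (and_ones _ 1).trans ?_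
  unfold dg
  rw [Nat.shiftRight_eq_div_pow, Nat.div_div_eq_div_mul, mul_comm, ← Nat.div_div_eq_div_mul]
  generalize x / 2 ^ (8 * i) = y
  interval_cases j <;> omega

set_option exponentiation.threshold 800 in
theorem bmk_eq (N t : ℕ) : bmk N t = (((repN (8 * (N - 1)) 91 * ((bt >>> (8 * (91 * (t / 8)))) %
    2 ^ (8 * 91))) >>> (t % 8)) &&& repN (8 * N) 91) * (2 ^ (8 * N) - 1) := rfl

theorem dg_bmk {N t r j : ℕ} (hN : 92 ≤ N) (ht : t < 182) (hr : r < 91) (hj : j < N) :
    dg (bmk N t) (N * r + j) = if t % 2 < (90 - r).choose (t / 2) % 3 then 255 else 0 := by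
  obtain ⟨S, rfl⟩ := Nat.exists_eq_add_one_of_ne_zero (show N ≠ 0 by omega)
  rw [bmk_eq, Nat.add_sub_cancel, dg_outer (α := 1) (β := 255) (by omega) (fun i hi => by rw [dg_ones, if_neg (by omega)])
    (bd_top _) (by norm_num) r
    (fun i hi => by rw [dg_land, dg_repN (by omega), if_neg fun h => hi h.1, Nat.and_zero])
    (fun i => by
      rw [dg_land, dg_repN (by omega)]
      refine Nat.and_le_right.trans ?_
      split_ifs <;> omega) j hj,
    dg_ones, if_pos hj, dg_land, dg_repN (by omega),
    if_pos ⟨dvd_mul_right _ _, Nat.mul_lt_mul_of_pos_left hr (by omega)⟩,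
    dg_shr_bit _ _ (Nat.mod_lt _ (by norm_num)), show (S + 1) * r = S * r + r by ring,
    dg_outer (α := 1) (β := 255) (by omega) (fun i hi => by rw [dg_mod, if_neg (by omega)])
    (bd_top _) (by norm_num) r
    (fun i hi => by rw [dg_repN (by omega), if_neg fun h => hi h.1])
    (fun i => by rw [dg_repN (by omega)]; split_ifs <;> omega) r (by omega),
    dg_repN (by omega), if_pos ⟨dvd_mul_right _ _, Nat.mul_lt_mul_of_pos_left hr (by omega)⟩,
    one_mul, dg_mod, if_pos hr, dg_shr, add_comm, bt_bit ht hr]
  split_ifs <;> rfl

variable {N T k r j n : ℕ} {X : ℕ → ℕ}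

theorem dg_m15 (N i : ℕ) : dg (m15 N) i = if i < 91 * N then 15 else 0 :=
  dg_crep1 (by norm_num) _ i

theorem m15_or (N i : ℕ) : dg (m15 N) i = 15 ∨ dg (m15 N) i = 0 := by
  rw [dg_m15]
  split_ifs
  exacts [Or.inl rfl, Or.inr rfl]

theorem cl_m15 (x : ℕ) (hj : j < N) (hr : r ≤ 90) :
    cl (r16 (m15 N) x) (N * r + j) = cl x (N * r + j) := by
  rw [cl_r16 (m15_or N), if_pos ((dg_m15 N _).trans (if_pos (by nlinarith)))]

theorem fin_succ (N s : ℕ) (X : ℕ → ℕ) (n : ℕ) : fin N s X (n + 1) =
    (if n = 45 then r16 (m15 N) (fin N s X n) else fin N s X n) +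
      ((X n &&& (bmk N (2 * n) >>> s)) + (X n &&& (bmk N (2 * n + 1) >>> s))) := by
  change Nat.add (Bool.rec (motive := fun _ => ℕ) _ _ (Nat.beq n 45)) _ = _
  by_cases h : n = 45
  · rw [if_pos h, Nat.beq_eq.mpr h]; rfl
  · rw [if_neg h, Bool.eq_false_iff.2 fun h' => h (Nat.eq_of_beq_eq_true h')]; rfl

theorem bd_fin (hX : ∀ f < n, Bd (X f) 2) (hn : n ≤ 91) (s : ℕ) :
    Bd (fin N s X n) (if n ≤ 45 then 4 * n else 4 * n - 150) := by
  induction n with
  | zero => exact bd_zero _
  | succ n ih =>
    have h1 := ((hX n (by omega)).and (bmk N (2 * n) >>> s)).add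
      ((hX n (by omega)).and (bmk N (2 * n + 1) >>> s)) (by norm_num)
    have h2 := ih (fun f hf => hX f (by omega)) (by omega)
    rw [fin_succ]
    by_cases h : n = 45
    · rw [if_pos h]
      exact ((bd_r16 (m15_or N) _).add h1 (by norm_num)).mono (by rw [h]; norm_num)
    · rw [if_neg h]
      exact (h2.add h1 (by split_ifs <;> omega)).mono (by split_ifs <;> omega)

theorem cl_fin (hN : 92 ≤ N) (hX : ∀ f < n, Bd (X f) 2) (hj : j < N) (hr : r + k ≤ 90)
    (hn : n ≤ 91) : cl (fin N (8 * (N * k)) X n) (N * r + j) =
      ∑ f ∈ range n, ((90 - (r + k)).choose f : ZMod 3) * cl (X f) (N * r + j) := by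
  induction n with
  | zero => exact cl_zero _
  | succ n ih =>
    have h1 : ∀ t < 182, dg (bmk N t >>> (8 * (N * k))) (N * r + j) =
        if t % 2 < (90 - (r + k)).choose (t / 2) % 3 then 255 else 0 := fun t ht => by
      rw [dg_shr, show N * r + j + N * k = N * (r + k) + j by ring, dg_bmk hN ht (by omega) hj]
    have h2 := h1 (2 * n) (by omega)
    have h3 := h1 (2 * n + 1) (by omega)
    have h5 := hX n (by omega)
    have h6 := bd_fin (N := N) (fun f (hf : f < n) => hX f (by omega)) (by omega) (8 * (N * k))
    have h7 : Bd (if n = 45 then r16 (m15 N) (fin N (8 * (N * k)) X n)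
        else fin N (8 * (N * k)) X n) 240 := by
      split_ifs
      exacts [(bd_r16 (m15_or N) _).mono (by norm_num), h6.mono (by split_ifs <;> omega)]
    have h8 : cl (if n = 45 then r16 (m15 N) (fin N (8 * (N * k)) X n)
        else fin N (8 * (N * k)) X n) (N * r + j) = cl (fin N (8 * (N * k)) X n) (N * r + j) := by
      split_ifs
      exacts [cl_m15 _ hj (by omega), rfl]
    rw [show 2 * n % 2 = 0 by omega, show 2 * n / 2 = n by omega] at h2
    rw [show (2 * n + 1) % 2 = 1 by omega, show (2 * n + 1) / 2 = n by omega] at h3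
    rw [fin_succ, h7.cl_add ((h5.and _).add (h5.and _) (by norm_num)) (by norm_num),
      (h5.and _).cl_add (h5.and _) (by norm_num), h8,
      ih (fun f hf => hX f (by omega)) (by omega), sum_range_succ,
      ← ZMod.natCast_mod ((90 - (r + k)).choose n) 3]
    have h4 := Nat.mod_lt ((90 - (r + k)).choose n) (show 0 < 3 by norm_num)
    generalize (90 - (r + k)).choose n % 3 = c at h2 h3 h4
    interval_cases c
    · rw [cl_and_off _ h2, cl_and_off _ h3]; simp
    · rw [cl_and_on _ h2, cl_and_off _ h3]; simp
    · rw [cl_and_on _ h2, cl_and_on _ h3]; ring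

theorem of_zt {x : ℕ} (h : zt N x = 0) (i : ℕ) : cl x i = 0 := by
  obtain ⟨h1, h2⟩ := Nat.add_eq_zero_iff.1 h
  refine cl_eq_zero' (top := tp N) (n := 91 * N)
    (fun i hi => (dg_crep1 (by norm_num) _ i).trans (if_pos hi)) ?_ h2 i
  change x >>> (8 * (91 * N)) = 0 at h1
  rw [Nat.shiftRight_eq_div_pow, Nat.div_eq_zero_iff] at h1
  exact h1.resolve_left (by positivity)

theorem sumR_zero {f : ℕ → ℕ} {n i : ℕ} (h : sumR f n = 0) (hi : i < n) : f i = 0 := by
  induction hi with
  | refl => exact (Nat.add_eq_zero_iff.1 h).2
  | step _ ih => exact ih (Nat.add_eq_zero_iff.1 h).1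

/-- the recurrence for the first generator -/
def S1 (val : Q4 → Q4 → Q4 → Q4 → ZMod 3) : Prop :=
  ∀ g1 g2 g3 g4 V e f, V.1 < 3 → val (g1 + 1, g2, g3, g4) V (e, 0, 0, 0) (f, 0, 0, 0) =
    val (g1, g2, g3, g4) V (e + 1, 0, 0, 0) (f, 0, 0, 0) +
      val (g1, g2, g3, g4) V (e, 0, 0, 0) (f + 1, 0, 0, 0)

variable {val : Q4 → Q4 → Q4 → Q4 → ZMod 3} {V : Q4}

theorem val_bin (h : S1 val) (hV : V.1 < 3) (g2 g3 g4 g e f : ℕ) :
    val (g, g2, g3, g4) V (e, 0, 0, 0) (f, 0, 0, 0) = ∑ i ∈ range (g + 1), (g.choose i : ZMod 3) *
      val (0, g2, g3, g4) V (e + (g - i), 0, 0, 0) (f + i, 0, 0, 0) := by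
  induction g generalizing e f with
  | zero => simp
  | succ g ih =>
    rw [h _ _ _ _ _ _ _ hV, ih, ih, sum_choose_succ_mul fun i j =>
      val (0, g2, g3, g4) V (e + j, 0, 0, 0) (f + i, 0, 0, 0)]
    congr 1 <;> refine sum_congr rfl fun i hi => ?_
    · rw [show e + 1 + (g - i) = e + (g + 1 - i) by have := mem_range.1 hi; omega]
    · rw [show f + 1 + i = f + (i + 1) by omega]

variable {dw : ℕ} {z : Col} {S : Q4 → Prop}

/-- the arrays `X g2 f` of the monomials without `t_1` represent the values -/
def X2 (N T : ℕ) (z : Col) (S : Q4 → Prop) (dw : ℕ) (val : Q4 → Q4 → Q4 → Q4 → ZMod 3)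
    (g4 g3 : ℕ) (X : ℕ → ℕ → ℕ) : Prop :=
  ∀ g2, ∃ Y, RepA N T z S dw Y (40 * g4 + 13 * g3 + 4 * g2) (val (0, g2, g3, g4)) ∧
    ∀ e f, Y (e, 0, 0, 0) (f, 0, 0, 0) 0 0 = X g2 f

theorem of_ck1 {Y : ℕ → ℕ → ℕ} {g1 g2 g3 g4 : ℕ} (h : ck1 N T dw Y g4 g3 = 0) (hN : 92 ≤ N)
    (hT : T ≤ 90) (h1 : S1 val) (hS : ∀ f, S (f, 0, 0, 0)) (hj : z.i < N)
    (hY : X2 N T z S dw val g4 g3 Y) (hV : V.1 < 3) (hc : z.c = V.2.2.1) (hd : z.d = V.2.2.2)
    (hW : z.D + V.1 + 4 * V.2.1 ≤ T) (hG : wt4 (g1, g2, g3, g4) + dw = z.D + V.1 + 4 * V.2.1) :
    val (g1, g2, g3, g4) V 0 0 = 0 := by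
  obtain ⟨W, hD⟩ : ∃ W, W = z.D + V.1 + 4 * V.2.1 := ⟨_, rfl⟩
  obtain ⟨Z, h3, h4⟩ := hY g2
  rw [← hD] at hW hG
  change g1 + 4 * g2 + 13 * g3 + 40 * g4 + dw = W at hG
  change sumR (fun g2 => zt N (r16 (m15 N) (fin N
    (8 * (N * (dw + (40 * g4 + 13 * g3) + 4 * g2 + (90 - T)))) (Y g2)
    (T + 1 - (dw + (40 * g4 + 13 * g3) + 4 * g2))))) ((T + 4 - (dw + (40 * g4 + 13 * g3))) / 4) = 0
    at h
  have h5 : g2 < (T + 4 - (dw + (40 * g4 + 13 * g3))) / 4 := by omega
  have h9 := sumR_zero h h5
  have h2 := of_zt h9 (N * (T - W) + z.i)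
  have h6 : ∀ e f W, W ≤ T → W = dw + (40 * g4 + 13 * g3 + 4 * g2) + e + f → Bd (Y g2 f) 2 ∧
      AtW N T z (Y g2 f) W (z.ext (fun V => val (0, g2, g3, g4) V (e, 0, 0, 0) (f, 0, 0, 0))
        0 0 W) := fun e f W h7 h8 => h4 e f ▸ h3 _ _ 0 0 W (hS f) h7 h8
  rw [cl_m15 _ hj (by omega), cl_fin hN (fun f hf => (h6 0 f _ (by omega) rfl).1) hj (by omega) (by omega),
    show 90 - (T - W + (dw + (40 * g4 + 13 * g3) + 4 * g2 + (90 - T))) = g1 by omega,
    ← sum_subset (range_mono (show g1 + 1 ≤ _ by omega)) fun f _ hf => by
      rw [Nat.choose_eq_zero_of_lt (by simpa using hf), Nat.cast_zero, zero_mul]] at h2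
  refine (val_bin h1 hV g2 g3 g4 g1 0 0).trans (Eq.trans (sum_congr rfl fun f hf => ?_) h2)
  have h7 := (h6 (g1 - f) f W hW (by have := mem_range.1 hf; omega)).2
  rw [Col.ext_of V hV hc hd hD] at h7
  rw [zero_add, zero_add, ← h7]

/-- **what the check says** -/
theorem of_ckW {Y : ℕ → ℕ → ℕ → ℕ → ℕ} {G : Q4} (h : ckW N T dw Y = 0) (hN : 92 ≤ N)
    (hT : T ≤ 90) (h1 : S1 val) (hS : ∀ f, S (f, 0, 0, 0)) (hj : z.i < N)
    (hY : ∀ g4 g3, X2 N T z S dw val g4 g3 (Y g4 g3)) (hV : V.1 < 3) (hc : z.c = V.2.2.1)
    (hd : z.d = V.2.2.2) (hW : z.D + V.1 + 4 * V.2.1 ≤ T)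
    (hG : wt4 G + dw = z.D + V.1 + 4 * V.2.1) : val G V 0 0 = 0 := by
  obtain ⟨g1, g2, g3, g4⟩ := G
  have h2 := hG
  change g1 + 4 * g2 + 13 * g3 + 40 * g4 + dw = _ at h2
  change sumR (fun g4 => sumR (fun g3 => ck1 N T dw (Y g4 g3) g4 g3) 7) 3 = 0 at h
  have h3 := sumR_zero h (show g4 < 3 by omega)
  have h4 := sumR_zero h3 (show g3 < 7 by omega)
  exact of_ck1 h4 hN hT h1 hS hj (hY g4 g3) hV hc hd hW hG

end Vale.Agent.P236JW
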