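import Vale.Agent.P236JW.Eng2

/-!
# P236JW / Cf2 : the levels of the program (generated)

Every level is given as a tree `e..` and as a plain definition `..B`, `..L`.
-/

set_option maxRecDepth 100000

noncomputable section

namespace Vale.Agent.P236JW

open Vale.Agent.P236KE

def et4 : EX := (EX.add (EX.add (EX.add (EX.add (EX.rd (EX.add (EX.add (EX.add (EX.shr (nat_lit 1) (nat_lit 0) (EX.add (EX.add (EX.add (EX.add (EX.leaf (nat_lit 275616112935)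
    (nat_lit 0) (nat_lit 1) (nat_lit 1) (nat_lit 0) (nat_lit 9) (nat_lit 0) (nat_lit 1) (nat_lit 0) (nat_lit 0) (nat_lit 0))
  (EX.leaf (nat_lit 301486579750)
    (nat_lit 1) (nat_lit 0) (nat_lit 1) (nat_lit 0) (nat_lit 0) (nat_lit 3) (nat_lit 1) (nat_lit 0) (nat_lit 0) (nat_lit 0)))
  (EX.leaf (nat_lit 301788561702)
    (nat_lit 1) (nat_lit 1) (nat_lit 0) (nat_lit 0) (nat_lit 9) (nat_lit 3) (nat_lit 1) (nat_lit 0) (nat_lit 0) (nat_lit 0)))
  (EX.leaf (nat_lit 26474455334)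
    (nat_lit 1) (nat_lit 1) (nat_lit 1) (nat_lit 0) (nat_lit 9) (nat_lit 3) (nat_lit 0) (nat_lit 0) (nat_lit 0) (nat_lit 0)))
  (EX.dbl (EX.add (EX.add (EX.add (EX.add (EX.add (EX.add (EX.add (EX.add (EX.add (EX.add (EX.add (EX.leaf (nat_lit 550628237351)
    (nat_lit 0) (nat_lit 0) (nat_lit 1) (nat_lit 0) (nat_lit 0) (nat_lit 0) (nat_lit 2) (nat_lit 0) (nat_lit 0) (nat_lit 0))
  (EX.leaf (nat_lit 275314130983)
    (nat_lit 0) (nat_lit 0) (nat_lit 2) (nat_lit 0) (nat_lit 0) (nat_lit 0) (nat_lit 1) (nat_lit 0) (nat_lit 0) (nat_lit 0)))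
  (EX.leaf (nat_lit 550930219303)
    (nat_lit 0) (nat_lit 1) (nat_lit 0) (nat_lit 0) (nat_lit 9) (nat_lit 0) (nat_lit 2) (nat_lit 0) (nat_lit 0) (nat_lit 0)))
  (EX.leaf (nat_lit 302006567)
    (nat_lit 0) (nat_lit 1) (nat_lit 2) (nat_lit 0) (nat_lit 9) (nat_lit 0) (nat_lit 0) (nat_lit 0) (nat_lit 0) (nat_lit 0)))
  (EX.leaf (nat_lit 275918094887)
    (nat_lit 0) (nat_lit 2) (nat_lit 0) (nat_lit 0) (nat_lit 18) (nat_lit 0) (nat_lit 1) (nat_lit 0) (nat_lit 0) (nat_lit 0)))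
  (EX.leaf (nat_lit 603988519)
    (nat_lit 0) (nat_lit 2) (nat_lit 1) (nat_lit 0) (nat_lit 18) (nat_lit 0) (nat_lit 0) (nat_lit 0) (nat_lit 0) (nat_lit 0)))
  (EX.leaf (nat_lit 576800686118)
    (nat_lit 1) (nat_lit 0) (nat_lit 0) (nat_lit 0) (nat_lit 0) (nat_lit 3) (nat_lit 2) (nat_lit 0) (nat_lit 0) (nat_lit 0)))
  (EX.leaf (nat_lit 26172473382)
    (nat_lit 1) (nat_lit 0) (nat_lit 2) (nat_lit 0) (nat_lit 0) (nat_lit 3) (nat_lit 0) (nat_lit 0) (nat_lit 0) (nat_lit 0)))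
  (EX.leaf (nat_lit 26776437286)
    (nat_lit 1) (nat_lit 2) (nat_lit 0) (nat_lit 0) (nat_lit 18) (nat_lit 3) (nat_lit 0) (nat_lit 0) (nat_lit 0) (nat_lit 0)))
  (EX.leaf (nat_lit 327659028517)
    (nat_lit 2) (nat_lit 0) (nat_lit 0) (nat_lit 0) (nat_lit 0) (nat_lit 6) (nat_lit 1) (nat_lit 0) (nat_lit 0) (nat_lit 0)))
  (EX.leaf (nat_lit 52344922149)
    (nat_lit 2) (nat_lit 0) (nat_lit 1) (nat_lit 0) (nat_lit 0) (nat_lit 6) (nat_lit 0) (nat_lit 0) (nat_lit 0) (nat_lit 0)))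
  (EX.leaf (nat_lit 52646904101)
    (nat_lit 2) (nat_lit 1) (nat_lit 0) (nat_lit 0) (nat_lit 9) (nat_lit 6) (nat_lit 0) (nat_lit 0) (nat_lit 0) (nat_lit 0))))))
  (EX.shr (nat_lit 0) (nat_lit 1) (EX.add (EX.leaf (nat_lit 26474447649)
    (nat_lit 3) (nat_lit 3) (nat_lit 0) (nat_lit 0) (nat_lit 9) (nat_lit 3) (nat_lit 0) (nat_lit 0) (nat_lit 0) (nat_lit 0))
  (EX.dbl (EX.add (EX.add (EX.add (EX.add (EX.add (EX.leaf (nat_lit 52344914724)
    (nat_lit 0) (nat_lit 3) (nat_lit 0) (nat_lit 0) (nat_lit 0) (nat_lit 6) (nat_lit 0) (nat_lit 0) (nat_lit 0) (nat_lit 0))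
  (EX.leaf (nat_lit 26172458532)
    (nat_lit 0) (nat_lit 6) (nat_lit 0) (nat_lit 0) (nat_lit 0) (nat_lit 3) (nat_lit 0) (nat_lit 0) (nat_lit 0) (nat_lit 0)))
  (EX.leaf (nat_lit 52646903841)
    (nat_lit 3) (nat_lit 0) (nat_lit 0) (nat_lit 0) (nat_lit 9) (nat_lit 6) (nat_lit 0) (nat_lit 0) (nat_lit 0) (nat_lit 0)))
  (EX.leaf (nat_lit 301991457)
    (nat_lit 3) (nat_lit 6) (nat_lit 0) (nat_lit 0) (nat_lit 9) (nat_lit 0) (nat_lit 0) (nat_lit 0) (nat_lit 0) (nat_lit 0)))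
  (EX.leaf (nat_lit 26776436766)
    (nat_lit 6) (nat_lit 0) (nat_lit 0) (nat_lit 0) (nat_lit 18) (nat_lit 3) (nat_lit 0) (nat_lit 0) (nat_lit 0) (nat_lit 0)))
  (EX.leaf (nat_lit 603980574)
    (nat_lit 6) (nat_lit 3) (nat_lit 0) (nat_lit 0) (nat_lit 18) (nat_lit 0) (nat_lit 0) (nat_lit 0) (nat_lit 0) (nat_lit 0)))))))
  (EX.shr (nat_lit 1) (nat_lit 1) (EX.add (EX.add (EX.add (EX.add (EX.add (EX.add (EX.leaf (nat_lit 550829555744)
    (nat_lit 3) (nat_lit 0) (nat_lit 0) (nat_lit 0) (nat_lit 6) (nat_lit 0) (nat_lit 2) (nat_lit 0) (nat_lit 0) (nat_lit 0))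
  (EX.leaf (nat_lit 201343008)
    (nat_lit 3) (nat_lit 0) (nat_lit 2) (nat_lit 0) (nat_lit 6) (nat_lit 0) (nat_lit 0) (nat_lit 0) (nat_lit 0) (nat_lit 0)))
  (EX.leaf (nat_lit 805306912)
    (nat_lit 3) (nat_lit 2) (nat_lit 0) (nat_lit 0) (nat_lit 24) (nat_lit 0) (nat_lit 0) (nat_lit 0) (nat_lit 0) (nat_lit 0)))
  (EX.leaf (nat_lit 52546240542)
    (nat_lit 5) (nat_lit 0) (nat_lit 0) (nat_lit 0) (nat_lit 6) (nat_lit 6) (nat_lit 0) (nat_lit 0) (nat_lit 0) (nat_lit 0)))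
  (EX.leaf (nat_lit 550728892445)
    (nat_lit 6) (nat_lit 0) (nat_lit 0) (nat_lit 0) (nat_lit 3) (nat_lit 0) (nat_lit 2) (nat_lit 0) (nat_lit 0) (nat_lit 0)))
  (EX.leaf (nat_lit 100679709)
    (nat_lit 6) (nat_lit 0) (nat_lit 2) (nat_lit 0) (nat_lit 3) (nat_lit 0) (nat_lit 0) (nat_lit 0) (nat_lit 0) (nat_lit 0)))
  (EX.dbl (EX.add (EX.add (EX.add (EX.add (EX.add (EX.add (EX.leaf (nat_lit 275515449376)
    (nat_lit 3) (nat_lit 0) (nat_lit 1) (nat_lit 0) (nat_lit 6) (nat_lit 0) (nat_lit 1) (nat_lit 0) (nat_lit 0) (nat_lit 0))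
  (EX.leaf (nat_lit 275817431328)
    (nat_lit 3) (nat_lit 1) (nat_lit 0) (nat_lit 0) (nat_lit 15) (nat_lit 0) (nat_lit 1) (nat_lit 0) (nat_lit 0) (nat_lit 0)))
  (EX.leaf (nat_lit 503324960)
    (nat_lit 3) (nat_lit 1) (nat_lit 1) (nat_lit 0) (nat_lit 15) (nat_lit 0) (nat_lit 0) (nat_lit 0) (nat_lit 0) (nat_lit 0)))
  (EX.leaf (nat_lit 301687898143)
    (nat_lit 4) (nat_lit 0) (nat_lit 0) (nat_lit 0) (nat_lit 6) (nat_lit 3) (nat_lit 1) (nat_lit 0) (nat_lit 0) (nat_lit 0)))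
  (EX.leaf (nat_lit 26373791775)
    (nat_lit 4) (nat_lit 0) (nat_lit 1) (nat_lit 0) (nat_lit 6) (nat_lit 3) (nat_lit 0) (nat_lit 0) (nat_lit 0) (nat_lit 0)))
  (EX.leaf (nat_lit 26675773727)
    (nat_lit 4) (nat_lit 1) (nat_lit 0) (nat_lit 0) (nat_lit 15) (nat_lit 3) (nat_lit 0) (nat_lit 0) (nat_lit 0) (nat_lit 0)))
  (EX.leaf (nat_lit 275414786077)
    (nat_lit 6) (nat_lit 0) (nat_lit 1) (nat_lit 0) (nat_lit 3) (nat_lit 0) (nat_lit 1) (nat_lit 0) (nat_lit 0) (nat_lit 0)))))))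
  (EX.add (EX.add (EX.add (EX.add (EX.add (EX.leaf (nat_lit 4399388688424)
    (nat_lit 0) (nat_lit 0) (nat_lit 0) (nat_lit 0) (nat_lit 0) (nat_lit 0) (nat_lit 0) (nat_lit 1) (nat_lit 0) (nat_lit 0))
  (EX.leaf (nat_lit 131112)
    (nat_lit 0) (nat_lit 0) (nat_lit 0) (nat_lit 1) (nat_lit 0) (nat_lit 0) (nat_lit 0) (nat_lit 0) (nat_lit 0) (nat_lit 0)))
  (EX.leaf (nat_lit 905977896)
    (nat_lit 0) (nat_lit 0) (nat_lit 1) (nat_lit 0) (nat_lit 27) (nat_lit 0) (nat_lit 0) (nat_lit 0) (nat_lit 0) (nat_lit 0)))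
  (EX.leaf (nat_lit 78517371176)
    (nat_lit 0) (nat_lit 1) (nat_lit 0) (nat_lit 0) (nat_lit 0) (nat_lit 9) (nat_lit 0) (nat_lit 0) (nat_lit 0) (nat_lit 0)))
  (EX.leaf (nat_lit 825942343719)
    (nat_lit 1) (nat_lit 0) (nat_lit 0) (nat_lit 0) (nat_lit 0) (nat_lit 0) (nat_lit 3) (nat_lit 0) (nat_lit 0) (nat_lit 0)))
  (EX.dbl (EX.add (EX.leaf (nat_lit 604504095)
    (nat_lit 9) (nat_lit 0) (nat_lit 0) (nat_lit 0) (nat_lit 18) (nat_lit 0) (nat_lit 0) (nat_lit 0) (nat_lit 1) (nat_lit 0))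
  (EX.leaf (nat_lit 302514198)
    (nat_lit 18) (nat_lit 0) (nat_lit 0) (nat_lit 0) (nat_lit 9) (nat_lit 0) (nat_lit 0) (nat_lit 0) (nat_lit 1) (nat_lit 0)))))))
  (EX.rd (EX.add (EX.add (EX.shr (nat_lit 1) (nat_lit 1) (EX.add (EX.dbl (EX.add (EX.add (EX.add (EX.add (EX.leaf (nat_lit 275716768029)
    (nat_lit 6) (nat_lit 1) (nat_lit 0) (nat_lit 0) (nat_lit 12) (nat_lit 0) (nat_lit 1) (nat_lit 0) (nat_lit 0) (nat_lit 0))
  (EX.leaf (nat_lit 402661661)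
    (nat_lit 6) (nat_lit 1) (nat_lit 1) (nat_lit 0) (nat_lit 12) (nat_lit 0) (nat_lit 0) (nat_lit 0) (nat_lit 0) (nat_lit 0)))
  (EX.leaf (nat_lit 301587234844)
    (nat_lit 7) (nat_lit 0) (nat_lit 0) (nat_lit 0) (nat_lit 3) (nat_lit 3) (nat_lit 1) (nat_lit 0) (nat_lit 0) (nat_lit 0)))
  (EX.leaf (nat_lit 26273128476)
    (nat_lit 7) (nat_lit 0) (nat_lit 1) (nat_lit 0) (nat_lit 3) (nat_lit 3) (nat_lit 0) (nat_lit 0) (nat_lit 0) (nat_lit 0)))
  (EX.leaf (nat_lit 26575110428)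
    (nat_lit 7) (nat_lit 1) (nat_lit 0) (nat_lit 0) (nat_lit 12) (nat_lit 3) (nat_lit 0) (nat_lit 0) (nat_lit 0) (nat_lit 0))))
  (EX.add (EX.leaf (nat_lit 704643613)
    (nat_lit 6) (nat_lit 2) (nat_lit 0) (nat_lit 0) (nat_lit 21) (nat_lit 0) (nat_lit 0) (nat_lit 0) (nat_lit 0) (nat_lit 0))
  (EX.leaf (nat_lit 52445577243)
    (nat_lit 8) (nat_lit 0) (nat_lit 0) (nat_lit 0) (nat_lit 3) (nat_lit 6) (nat_lit 0) (nat_lit 0) (nat_lit 0) (nat_lit 0)))))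
  (EX.shr (nat_lit 1) (nat_lit 2) (EX.add (EX.add (EX.add (EX.add (EX.leaf (nat_lit 275616104470)
    (nat_lit 9) (nat_lit 0) (nat_lit 0) (nat_lit 0) (nat_lit 9) (nat_lit 0) (nat_lit 1) (nat_lit 0) (nat_lit 0) (nat_lit 0))
  (EX.leaf (nat_lit 301998102)
    (nat_lit 9) (nat_lit 0) (nat_lit 1) (nat_lit 0) (nat_lit 9) (nat_lit 0) (nat_lit 0) (nat_lit 0) (nat_lit 0) (nat_lit 0)))
  (EX.leaf (nat_lit 603980054)
    (nat_lit 9) (nat_lit 1) (nat_lit 0) (nat_lit 0) (nat_lit 18) (nat_lit 0) (nat_lit 0) (nat_lit 0) (nat_lit 0) (nat_lit 0)))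
  (EX.leaf (nat_lit 26474446869)
    (nat_lit 10) (nat_lit 0) (nat_lit 0) (nat_lit 0) (nat_lit 9) (nat_lit 3) (nat_lit 0) (nat_lit 0) (nat_lit 0) (nat_lit 0)))
  (EX.dbl (EX.add (EX.add (EX.add (EX.add (EX.add (EX.add (EX.add (EX.leaf (nat_lit 275716767769)
    (nat_lit 6) (nat_lit 0) (nat_lit 0) (nat_lit 0) (nat_lit 12) (nat_lit 0) (nat_lit 1) (nat_lit 0) (nat_lit 0) (nat_lit 0))
  (EX.leaf (nat_lit 402661401)
    (nat_lit 6) (nat_lit 0) (nat_lit 1) (nat_lit 0) (nat_lit 12) (nat_lit 0) (nat_lit 0) (nat_lit 0) (nat_lit 0) (nat_lit 0)))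
  (EX.leaf (nat_lit 704643353)
    (nat_lit 6) (nat_lit 1) (nat_lit 0) (nat_lit 0) (nat_lit 21) (nat_lit 0) (nat_lit 0) (nat_lit 0) (nat_lit 0) (nat_lit 0)))
  (EX.leaf (nat_lit 26575110168)
    (nat_lit 7) (nat_lit 0) (nat_lit 0) (nat_lit 0) (nat_lit 12) (nat_lit 3) (nat_lit 0) (nat_lit 0) (nat_lit 0) (nat_lit 0)))
  (EX.leaf (nat_lit 275515441171)
    (nat_lit 12) (nat_lit 0) (nat_lit 0) (nat_lit 0) (nat_lit 6) (nat_lit 0) (nat_lit 1) (nat_lit 0) (nat_lit 0) (nat_lit 0)))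
  (EX.leaf (nat_lit 201334803)
    (nat_lit 12) (nat_lit 0) (nat_lit 1) (nat_lit 0) (nat_lit 6) (nat_lit 0) (nat_lit 0) (nat_lit 0) (nat_lit 0) (nat_lit 0)))
  (EX.leaf (nat_lit 503316755)
    (nat_lit 12) (nat_lit 1) (nat_lit 0) (nat_lit 0) (nat_lit 15) (nat_lit 0) (nat_lit 0) (nat_lit 0) (nat_lit 0) (nat_lit 0)))
  (EX.leaf (nat_lit 26373783570)
    (nat_lit 13) (nat_lit 0) (nat_lit 0) (nat_lit 0) (nat_lit 6) (nat_lit 3) (nat_lit 0) (nat_lit 0) (nat_lit 0) (nat_lit 0)))))))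
  (EX.shr (nat_lit 1) (nat_lit 3) (EX.dbl (EX.add (EX.add (EX.add (EX.add (EX.add (EX.leaf (nat_lit 805306392)
    (nat_lit 3) (nat_lit 0) (nat_lit 0) (nat_lit 0) (nat_lit 24) (nat_lit 0) (nat_lit 0) (nat_lit 0) (nat_lit 0) (nat_lit 0))
  (EX.leaf (nat_lit 704643093)
    (nat_lit 6) (nat_lit 0) (nat_lit 0) (nat_lit 0) (nat_lit 21) (nat_lit 0) (nat_lit 0) (nat_lit 0) (nat_lit 0) (nat_lit 0)))
  (EX.leaf (nat_lit 503316495)
    (nat_lit 12) (nat_lit 0) (nat_lit 0) (nat_lit 0) (nat_lit 15) (nat_lit 0) (nat_lit 0) (nat_lit 0) (nat_lit 0) (nat_lit 0)))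
  (EX.leaf (nat_lit 402653196)
    (nat_lit 15) (nat_lit 0) (nat_lit 0) (nat_lit 0) (nat_lit 12) (nat_lit 0) (nat_lit 0) (nat_lit 0) (nat_lit 0) (nat_lit 0)))
  (EX.leaf (nat_lit 201326598)
    (nat_lit 21) (nat_lit 0) (nat_lit 0) (nat_lit 0) (nat_lit 6) (nat_lit 0) (nat_lit 0) (nat_lit 0) (nat_lit 0) (nat_lit 0)))
  (EX.leaf (nat_lit 100663299)
    (nat_lit 24) (nat_lit 0) (nat_lit 0) (nat_lit 0) (nat_lit 3) (nat_lit 0) (nat_lit 0) (nat_lit 0) (nat_lit 0) (nat_lit 0))))))))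
  (EX.rd2 (EX.shr (nat_lit 2) (nat_lit 0) (EX.add (EX.add (EX.add (EX.add (EX.add (EX.add (EX.add (EX.add (EX.add (EX.add (EX.add (EX.add (EX.add (EX.add (EX.add (EX.add (EX.add (EX.add (EX.add (EX.add (EX.leaf (nat_lit 568076534054)
    (nat_lit 0) (nat_lit 1) (nat_lit 0) (nat_lit 0) (nat_lit 0) (nat_lit 2) (nat_lit 2) (nat_lit 0) (nat_lit 0) (nat_lit 0))
  (EX.leaf (nat_lit 17448321318)
    (nat_lit 0) (nat_lit 1) (nat_lit 2) (nat_lit 0) (nat_lit 0) (nat_lit 2) (nat_lit 0) (nat_lit 0) (nat_lit 0) (nat_lit 0)))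
  (EX.leaf (nat_lit 559352381990)
    (nat_lit 0) (nat_lit 2) (nat_lit 0) (nat_lit 0) (nat_lit 0) (nat_lit 1) (nat_lit 2) (nat_lit 0) (nat_lit 0) (nat_lit 0)))
  (EX.leaf (nat_lit 8724169254)
    (nat_lit 0) (nat_lit 2) (nat_lit 2) (nat_lit 0) (nat_lit 0) (nat_lit 1) (nat_lit 0) (nat_lit 0) (nat_lit 0) (nat_lit 0)))
  (EX.leaf (nat_lit 18052285222)
    (nat_lit 0) (nat_lit 3) (nat_lit 0) (nat_lit 0) (nat_lit 18) (nat_lit 2) (nat_lit 0) (nat_lit 0) (nat_lit 0) (nat_lit 0)))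
  (EX.leaf (nat_lit 9328133158)
    (nat_lit 0) (nat_lit 4) (nat_lit 0) (nat_lit 0) (nat_lit 18) (nat_lit 1) (nat_lit 0) (nat_lit 0) (nat_lit 0) (nat_lit 0)))
  (EX.leaf (nat_lit 568177197093)
    (nat_lit 1) (nat_lit 0) (nat_lit 0) (nat_lit 0) (nat_lit 3) (nat_lit 2) (nat_lit 2) (nat_lit 0) (nat_lit 0) (nat_lit 0)))
  (EX.leaf (nat_lit 17548984357)
    (nat_lit 1) (nat_lit 0) (nat_lit 2) (nat_lit 0) (nat_lit 3) (nat_lit 2) (nat_lit 0) (nat_lit 0) (nat_lit 0) (nat_lit 0)))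
  (EX.leaf (nat_lit 284138938661)
    (nat_lit 1) (nat_lit 1) (nat_lit 1) (nat_lit 0) (nat_lit 3) (nat_lit 1) (nat_lit 1) (nat_lit 0) (nat_lit 0) (nat_lit 0)))
  (EX.leaf (nat_lit 550728892965)
    (nat_lit 1) (nat_lit 2) (nat_lit 0) (nat_lit 0) (nat_lit 3) (nat_lit 0) (nat_lit 2) (nat_lit 0) (nat_lit 0) (nat_lit 0)))
  (EX.leaf (nat_lit 284440920613)
    (nat_lit 1) (nat_lit 2) (nat_lit 0) (nat_lit 0) (nat_lit 12) (nat_lit 1) (nat_lit 1) (nat_lit 0) (nat_lit 0) (nat_lit 0)))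
  (EX.leaf (nat_lit 18152948261)
    (nat_lit 1) (nat_lit 2) (nat_lit 0) (nat_lit 0) (nat_lit 21) (nat_lit 2) (nat_lit 0) (nat_lit 0) (nat_lit 0) (nat_lit 0)))
  (EX.leaf (nat_lit 9126814245)
    (nat_lit 1) (nat_lit 2) (nat_lit 1) (nat_lit 0) (nat_lit 12) (nat_lit 1) (nat_lit 0) (nat_lit 0) (nat_lit 0) (nat_lit 0)))
  (EX.leaf (nat_lit 100680229)
    (nat_lit 1) (nat_lit 2) (nat_lit 2) (nat_lit 0) (nat_lit 3) (nat_lit 0) (nat_lit 0) (nat_lit 0) (nat_lit 0) (nat_lit 0)))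
  (EX.leaf (nat_lit 704644133)
    (nat_lit 1) (nat_lit 4) (nat_lit 0) (nat_lit 0) (nat_lit 21) (nat_lit 0) (nat_lit 0) (nat_lit 0) (nat_lit 0) (nat_lit 0)))
  (EX.leaf (nat_lit 559553708068)
    (nat_lit 2) (nat_lit 0) (nat_lit 0) (nat_lit 0) (nat_lit 6) (nat_lit 1) (nat_lit 2) (nat_lit 0) (nat_lit 0) (nat_lit 0)))
  (EX.leaf (nat_lit 8925495332)
    (nat_lit 2) (nat_lit 0) (nat_lit 2) (nat_lit 0) (nat_lit 6) (nat_lit 1) (nat_lit 0) (nat_lit 0) (nat_lit 0) (nat_lit 0)))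
  (EX.leaf (nat_lit 69793218852)
    (nat_lit 2) (nat_lit 1) (nat_lit 0) (nat_lit 0) (nat_lit 0) (nat_lit 8) (nat_lit 0) (nat_lit 0) (nat_lit 0) (nat_lit 0)))
  (EX.leaf (nat_lit 310311387428)
    (nat_lit 2) (nat_lit 1) (nat_lit 0) (nat_lit 0) (nat_lit 3) (nat_lit 4) (nat_lit 1) (nat_lit 0) (nat_lit 0) (nat_lit 0)))
  (EX.leaf (nat_lit 550829556004)
    (nat_lit 2) (nat_lit 1) (nat_lit 0) (nat_lit 0) (nat_lit 6) (nat_lit 0) (nat_lit 2) (nat_lit 0) (nat_lit 0) (nat_lit 0)))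
  (EX.dbl (EX.add (EX.add (EX.add (EX.add (EX.add (EX.add (EX.add (EX.add (EX.add (EX.add (EX.add (EX.add (EX.add (EX.add (EX.add (EX.add (EX.add (EX.add (EX.add (EX.add (EX.add (EX.add (EX.add (EX.add (EX.leaf (nat_lit 292762427686)
    (nat_lit 0) (nat_lit 1) (nat_lit 1) (nat_lit 0) (nat_lit 0) (nat_lit 2) (nat_lit 1) (nat_lit 0) (nat_lit 0) (nat_lit 0))
  (EX.leaf (nat_lit 293064409638)
    (nat_lit 0) (nat_lit 2) (nat_lit 0) (nat_lit 0) (nat_lit 9) (nat_lit 2) (nat_lit 1) (nat_lit 0) (nat_lit 0) (nat_lit 0)))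
  (EX.leaf (nat_lit 284038275622)
    (nat_lit 0) (nat_lit 2) (nat_lit 1) (nat_lit 0) (nat_lit 0) (nat_lit 1) (nat_lit 1) (nat_lit 0) (nat_lit 0) (nat_lit 0)))
  (EX.leaf (nat_lit 17750303270)
    (nat_lit 0) (nat_lit 2) (nat_lit 1) (nat_lit 0) (nat_lit 9) (nat_lit 2) (nat_lit 0) (nat_lit 0) (nat_lit 0) (nat_lit 0)))
  (EX.leaf (nat_lit 284340257574)
    (nat_lit 0) (nat_lit 3) (nat_lit 0) (nat_lit 0) (nat_lit 9) (nat_lit 1) (nat_lit 1) (nat_lit 0) (nat_lit 0) (nat_lit 0)))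
  (EX.leaf (nat_lit 9026151206)
    (nat_lit 0) (nat_lit 3) (nat_lit 1) (nat_lit 0) (nat_lit 9) (nat_lit 1) (nat_lit 0) (nat_lit 0) (nat_lit 0) (nat_lit 0)))
  (EX.leaf (nat_lit 292863090725)
    (nat_lit 1) (nat_lit 0) (nat_lit 1) (nat_lit 0) (nat_lit 3) (nat_lit 2) (nat_lit 1) (nat_lit 0) (nat_lit 0) (nat_lit 0)))
  (EX.leaf (nat_lit 318934876453)
    (nat_lit 1) (nat_lit 1) (nat_lit 0) (nat_lit 0) (nat_lit 0) (nat_lit 5) (nat_lit 1) (nat_lit 0) (nat_lit 0) (nat_lit 0)))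
  (EX.leaf (nat_lit 559453045029)
    (nat_lit 1) (nat_lit 1) (nat_lit 0) (nat_lit 0) (nat_lit 3) (nat_lit 1) (nat_lit 2) (nat_lit 0) (nat_lit 0) (nat_lit 0)))
  (EX.leaf (nat_lit 293165072677)
    (nat_lit 1) (nat_lit 1) (nat_lit 0) (nat_lit 0) (nat_lit 12) (nat_lit 2) (nat_lit 1) (nat_lit 0) (nat_lit 0) (nat_lit 0)))
  (EX.leaf (nat_lit 43620770085)
    (nat_lit 1) (nat_lit 1) (nat_lit 1) (nat_lit 0) (nat_lit 0) (nat_lit 5) (nat_lit 0) (nat_lit 0) (nat_lit 0) (nat_lit 0)))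
  (EX.leaf (nat_lit 17850966309)
    (nat_lit 1) (nat_lit 1) (nat_lit 1) (nat_lit 0) (nat_lit 12) (nat_lit 2) (nat_lit 0) (nat_lit 0) (nat_lit 0) (nat_lit 0)))
  (EX.leaf (nat_lit 8824832293)
    (nat_lit 1) (nat_lit 1) (nat_lit 2) (nat_lit 0) (nat_lit 3) (nat_lit 1) (nat_lit 0) (nat_lit 0) (nat_lit 0) (nat_lit 0)))
  (EX.leaf (nat_lit 310210724389)
    (nat_lit 1) (nat_lit 2) (nat_lit 0) (nat_lit 0) (nat_lit 0) (nat_lit 4) (nat_lit 1) (nat_lit 0) (nat_lit 0) (nat_lit 0)))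
  (EX.leaf (nat_lit 43922752037)
    (nat_lit 1) (nat_lit 2) (nat_lit 0) (nat_lit 0) (nat_lit 9) (nat_lit 5) (nat_lit 0) (nat_lit 0) (nat_lit 0) (nat_lit 0)))
  (EX.leaf (nat_lit 34896618021)
    (nat_lit 1) (nat_lit 2) (nat_lit 1) (nat_lit 0) (nat_lit 0) (nat_lit 4) (nat_lit 0) (nat_lit 0) (nat_lit 0) (nat_lit 0)))
  (EX.leaf (nat_lit 275414786597)
    (nat_lit 1) (nat_lit 2) (nat_lit 1) (nat_lit 0) (nat_lit 3) (nat_lit 0) (nat_lit 1) (nat_lit 0) (nat_lit 0) (nat_lit 0)))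
  (EX.leaf (nat_lit 35198599973)
    (nat_lit 1) (nat_lit 3) (nat_lit 0) (nat_lit 0) (nat_lit 9) (nat_lit 4) (nat_lit 0) (nat_lit 0) (nat_lit 0) (nat_lit 0)))
  (EX.leaf (nat_lit 275716768549)
    (nat_lit 1) (nat_lit 3) (nat_lit 0) (nat_lit 0) (nat_lit 12) (nat_lit 0) (nat_lit 1) (nat_lit 0) (nat_lit 0) (nat_lit 0)))
  (EX.leaf (nat_lit 9428796197)
    (nat_lit 1) (nat_lit 3) (nat_lit 0) (nat_lit 0) (nat_lit 21) (nat_lit 1) (nat_lit 0) (nat_lit 0) (nat_lit 0) (nat_lit 0)))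
  (EX.leaf (nat_lit 402662181)
    (nat_lit 1) (nat_lit 3) (nat_lit 1) (nat_lit 0) (nat_lit 12) (nat_lit 0) (nat_lit 0) (nat_lit 0) (nat_lit 0) (nat_lit 0)))
  (EX.leaf (nat_lit 319035539492)
    (nat_lit 2) (nat_lit 0) (nat_lit 0) (nat_lit 0) (nat_lit 3) (nat_lit 5) (nat_lit 1) (nat_lit 0) (nat_lit 0) (nat_lit 0)))
  (EX.leaf (nat_lit 43721433124)
    (nat_lit 2) (nat_lit 0) (nat_lit 1) (nat_lit 0) (nat_lit 3) (nat_lit 5) (nat_lit 0) (nat_lit 0) (nat_lit 0) (nat_lit 0)))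
  (EX.leaf (nat_lit 284239601700)
    (nat_lit 2) (nat_lit 0) (nat_lit 1) (nat_lit 0) (nat_lit 6) (nat_lit 1) (nat_lit 1) (nat_lit 0) (nat_lit 0) (nat_lit 0)))
  (EX.leaf (nat_lit 44023415076)
    (nat_lit 2) (nat_lit 1) (nat_lit 0) (nat_lit 0) (nat_lit 12) (nat_lit 5) (nat_lit 0) (nat_lit 0) (nat_lit 0) (nat_lit 0))))))))
  (EX.rd2 (EX.add (EX.shr (nat_lit 2) (nat_lit 0) (EX.add (EX.dbl (EX.add (EX.add (EX.add (EX.add (EX.add (EX.add (EX.add (EX.add (EX.add (EX.add (EX.add (EX.add (EX.add (EX.add (EX.leaf (nat_lit 284541583652)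
    (nat_lit 2) (nat_lit 1) (nat_lit 0) (nat_lit 0) (nat_lit 15) (nat_lit 1) (nat_lit 1) (nat_lit 0) (nat_lit 0) (nat_lit 0))
  (EX.leaf (nat_lit 275515449636)
    (nat_lit 2) (nat_lit 1) (nat_lit 1) (nat_lit 0) (nat_lit 6) (nat_lit 0) (nat_lit 1) (nat_lit 0) (nat_lit 0) (nat_lit 0)))
  (EX.leaf (nat_lit 9227477284)
    (nat_lit 2) (nat_lit 1) (nat_lit 1) (nat_lit 0) (nat_lit 15) (nat_lit 1) (nat_lit 0) (nat_lit 0) (nat_lit 0) (nat_lit 0)))
  (EX.leaf (nat_lit 301587235364)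
    (nat_lit 2) (nat_lit 2) (nat_lit 0) (nat_lit 0) (nat_lit 3) (nat_lit 3) (nat_lit 1) (nat_lit 0) (nat_lit 0) (nat_lit 0)))
  (EX.leaf (nat_lit 275817431588)
    (nat_lit 2) (nat_lit 2) (nat_lit 0) (nat_lit 0) (nat_lit 15) (nat_lit 0) (nat_lit 1) (nat_lit 0) (nat_lit 0) (nat_lit 0)))
  (EX.leaf (nat_lit 26273128996)
    (nat_lit 2) (nat_lit 2) (nat_lit 1) (nat_lit 0) (nat_lit 3) (nat_lit 3) (nat_lit 0) (nat_lit 0) (nat_lit 0) (nat_lit 0)))
  (EX.leaf (nat_lit 503325220)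
    (nat_lit 2) (nat_lit 2) (nat_lit 1) (nat_lit 0) (nat_lit 15) (nat_lit 0) (nat_lit 0) (nat_lit 0) (nat_lit 0) (nat_lit 0)))
  (EX.leaf (nat_lit 26575110948)
    (nat_lit 2) (nat_lit 3) (nat_lit 0) (nat_lit 0) (nat_lit 12) (nat_lit 3) (nat_lit 0) (nat_lit 0) (nat_lit 0) (nat_lit 0)))
  (EX.leaf (nat_lit 310412050467)
    (nat_lit 3) (nat_lit 0) (nat_lit 0) (nat_lit 0) (nat_lit 6) (nat_lit 4) (nat_lit 1) (nat_lit 0) (nat_lit 0) (nat_lit 0)))
  (EX.leaf (nat_lit 35097944099)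
    (nat_lit 3) (nat_lit 0) (nat_lit 1) (nat_lit 0) (nat_lit 6) (nat_lit 4) (nat_lit 0) (nat_lit 0) (nat_lit 0) (nat_lit 0)))
  (EX.leaf (nat_lit 61169729827)
    (nat_lit 3) (nat_lit 1) (nat_lit 0) (nat_lit 0) (nat_lit 3) (nat_lit 7) (nat_lit 0) (nat_lit 0) (nat_lit 0) (nat_lit 0)))
  (EX.leaf (nat_lit 301687898403)
    (nat_lit 3) (nat_lit 1) (nat_lit 0) (nat_lit 0) (nat_lit 6) (nat_lit 3) (nat_lit 1) (nat_lit 0) (nat_lit 0) (nat_lit 0)))
  (EX.leaf (nat_lit 35399926051)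
    (nat_lit 3) (nat_lit 1) (nat_lit 0) (nat_lit 0) (nat_lit 15) (nat_lit 4) (nat_lit 0) (nat_lit 0) (nat_lit 0) (nat_lit 0)))
  (EX.leaf (nat_lit 26373792035)
    (nat_lit 3) (nat_lit 1) (nat_lit 1) (nat_lit 0) (nat_lit 6) (nat_lit 3) (nat_lit 0) (nat_lit 0) (nat_lit 0) (nat_lit 0)))
  (EX.leaf (nat_lit 26675773987)
    (nat_lit 3) (nat_lit 2) (nat_lit 0) (nat_lit 0) (nat_lit 15) (nat_lit 3) (nat_lit 0) (nat_lit 0) (nat_lit 0) (nat_lit 0))))
  (EX.add (EX.add (EX.add (EX.add (EX.add (EX.add (EX.add (EX.add (EX.add (EX.leaf (nat_lit 34997281060)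
    (nat_lit 2) (nat_lit 1) (nat_lit 1) (nat_lit 0) (nat_lit 3) (nat_lit 4) (nat_lit 0) (nat_lit 0) (nat_lit 0) (nat_lit 0))
  (EX.leaf (nat_lit 201343268)
    (nat_lit 2) (nat_lit 1) (nat_lit 2) (nat_lit 0) (nat_lit 6) (nat_lit 0) (nat_lit 0) (nat_lit 0) (nat_lit 0) (nat_lit 0)))
  (EX.leaf (nat_lit 61069066788)
    (nat_lit 2) (nat_lit 2) (nat_lit 0) (nat_lit 0) (nat_lit 0) (nat_lit 7) (nat_lit 0) (nat_lit 0) (nat_lit 0) (nat_lit 0)))
  (EX.leaf (nat_lit 35299263012)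
    (nat_lit 2) (nat_lit 2) (nat_lit 0) (nat_lit 0) (nat_lit 12) (nat_lit 4) (nat_lit 0) (nat_lit 0) (nat_lit 0) (nat_lit 0)))
  (EX.leaf (nat_lit 9529459236)
    (nat_lit 2) (nat_lit 2) (nat_lit 0) (nat_lit 0) (nat_lit 24) (nat_lit 1) (nat_lit 0) (nat_lit 0) (nat_lit 0) (nat_lit 0)))
  (EX.leaf (nat_lit 805307172)
    (nat_lit 2) (nat_lit 3) (nat_lit 0) (nat_lit 0) (nat_lit 24) (nat_lit 0) (nat_lit 0) (nat_lit 0) (nat_lit 0) (nat_lit 0)))
  (EX.leaf (nat_lit 69893881891)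
    (nat_lit 3) (nat_lit 0) (nat_lit 0) (nat_lit 0) (nat_lit 3) (nat_lit 8) (nat_lit 0) (nat_lit 0) (nat_lit 0) (nat_lit 0)))
  (EX.leaf (nat_lit 52445577763)
    (nat_lit 3) (nat_lit 2) (nat_lit 0) (nat_lit 0) (nat_lit 3) (nat_lit 6) (nat_lit 0) (nat_lit 0) (nat_lit 0) (nat_lit 0)))
  (EX.leaf (nat_lit 61270392866)
    (nat_lit 4) (nat_lit 0) (nat_lit 0) (nat_lit 0) (nat_lit 6) (nat_lit 7) (nat_lit 0) (nat_lit 0) (nat_lit 0) (nat_lit 0)))
  (EX.leaf (nat_lit 52546240802)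
    (nat_lit 4) (nat_lit 1) (nat_lit 0) (nat_lit 0) (nat_lit 6) (nat_lit 6) (nat_lit 0) (nat_lit 0) (nat_lit 0) (nat_lit 0)))))
  (EX.shr (nat_lit 2) (nat_lit 1) (EX.add (EX.dbl (EX.add (EX.add (EX.add (EX.leaf (nat_lit 284340257054)
    (nat_lit 4) (nat_lit 1) (nat_lit 0) (nat_lit 0) (nat_lit 9) (nat_lit 1) (nat_lit 1) (nat_lit 0) (nat_lit 0) (nat_lit 0))
  (EX.leaf (nat_lit 9026150686)
    (nat_lit 4) (nat_lit 1) (nat_lit 1) (nat_lit 0) (nat_lit 9) (nat_lit 1) (nat_lit 0) (nat_lit 0) (nat_lit 0) (nat_lit 0)))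
  (EX.leaf (nat_lit 9328132638)
    (nat_lit 4) (nat_lit 2) (nat_lit 0) (nat_lit 0) (nat_lit 18) (nat_lit 1) (nat_lit 0) (nat_lit 0) (nat_lit 0) (nat_lit 0)))
  (EX.leaf (nat_lit 35198599453)
    (nat_lit 5) (nat_lit 1) (nat_lit 0) (nat_lit 0) (nat_lit 9) (nat_lit 4) (nat_lit 0) (nat_lit 0) (nat_lit 0) (nat_lit 0))))
  (EX.add (EX.add (EX.add (EX.add (EX.add (EX.add (EX.add (EX.add (EX.add (EX.add (EX.add (EX.add (EX.add (EX.add (EX.add (EX.add (EX.add (EX.add (EX.add (EX.add (EX.add (EX.add (EX.leaf (nat_lit 292963746079)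
    (nat_lit 3) (nat_lit 1) (nat_lit 0) (nat_lit 0) (nat_lit 6) (nat_lit 2) (nat_lit 1) (nat_lit 0) (nat_lit 0) (nat_lit 0))
  (EX.leaf (nat_lit 17649639711)
    (nat_lit 3) (nat_lit 1) (nat_lit 1) (nat_lit 0) (nat_lit 6) (nat_lit 2) (nat_lit 0) (nat_lit 0) (nat_lit 0) (nat_lit 0)))
  (EX.leaf (nat_lit 284239594015)
    (nat_lit 3) (nat_lit 2) (nat_lit 0) (nat_lit 0) (nat_lit 6) (nat_lit 1) (nat_lit 1) (nat_lit 0) (nat_lit 0) (nat_lit 0)))
  (EX.leaf (nat_lit 17951621663)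
    (nat_lit 3) (nat_lit 2) (nat_lit 0) (nat_lit 0) (nat_lit 15) (nat_lit 2) (nat_lit 0) (nat_lit 0) (nat_lit 0) (nat_lit 0)))
  (EX.leaf (nat_lit 8925487647)
    (nat_lit 3) (nat_lit 2) (nat_lit 1) (nat_lit 0) (nat_lit 6) (nat_lit 1) (nat_lit 0) (nat_lit 0) (nat_lit 0) (nat_lit 0)))
  (EX.leaf (nat_lit 9227469599)
    (nat_lit 3) (nat_lit 3) (nat_lit 0) (nat_lit 0) (nat_lit 15) (nat_lit 1) (nat_lit 0) (nat_lit 0) (nat_lit 0) (nat_lit 0)))
  (EX.leaf (nat_lit 293064409118)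
    (nat_lit 4) (nat_lit 0) (nat_lit 0) (nat_lit 0) (nat_lit 9) (nat_lit 2) (nat_lit 1) (nat_lit 0) (nat_lit 0) (nat_lit 0)))
  (EX.leaf (nat_lit 17750302750)
    (nat_lit 4) (nat_lit 0) (nat_lit 1) (nat_lit 0) (nat_lit 9) (nat_lit 2) (nat_lit 0) (nat_lit 0) (nat_lit 0) (nat_lit 0)))
  (EX.leaf (nat_lit 43822088478)
    (nat_lit 4) (nat_lit 1) (nat_lit 0) (nat_lit 0) (nat_lit 6) (nat_lit 5) (nat_lit 0) (nat_lit 0) (nat_lit 0) (nat_lit 0)))
  (EX.leaf (nat_lit 18052284702)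
    (nat_lit 4) (nat_lit 1) (nat_lit 0) (nat_lit 0) (nat_lit 18) (nat_lit 2) (nat_lit 0) (nat_lit 0) (nat_lit 0) (nat_lit 0)))
  (EX.leaf (nat_lit 35097936414)
    (nat_lit 4) (nat_lit 2) (nat_lit 0) (nat_lit 0) (nat_lit 6) (nat_lit 4) (nat_lit 0) (nat_lit 0) (nat_lit 0) (nat_lit 0)))
  (EX.leaf (nat_lit 275616104990)
    (nat_lit 4) (nat_lit 2) (nat_lit 0) (nat_lit 0) (nat_lit 9) (nat_lit 0) (nat_lit 1) (nat_lit 0) (nat_lit 0) (nat_lit 0)))
  (EX.leaf (nat_lit 301998622)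
    (nat_lit 4) (nat_lit 2) (nat_lit 1) (nat_lit 0) (nat_lit 9) (nat_lit 0) (nat_lit 0) (nat_lit 0) (nat_lit 0) (nat_lit 0)))
  (EX.leaf (nat_lit 603980574)
    (nat_lit 4) (nat_lit 3) (nat_lit 0) (nat_lit 0) (nat_lit 18) (nat_lit 0) (nat_lit 0) (nat_lit 0) (nat_lit 0) (nat_lit 0)))
  (EX.leaf (nat_lit 43922751517)
    (nat_lit 5) (nat_lit 0) (nat_lit 0) (nat_lit 0) (nat_lit 9) (nat_lit 5) (nat_lit 0) (nat_lit 0) (nat_lit 0) (nat_lit 0)))
  (EX.leaf (nat_lit 284440920093)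
    (nat_lit 5) (nat_lit 0) (nat_lit 0) (nat_lit 0) (nat_lit 12) (nat_lit 1) (nat_lit 1) (nat_lit 0) (nat_lit 0) (nat_lit 0)))
  (EX.leaf (nat_lit 9126813725)
    (nat_lit 5) (nat_lit 0) (nat_lit 1) (nat_lit 0) (nat_lit 12) (nat_lit 1) (nat_lit 0) (nat_lit 0) (nat_lit 0) (nat_lit 0)))
  (EX.leaf (nat_lit 275716768029)
    (nat_lit 5) (nat_lit 1) (nat_lit 0) (nat_lit 0) (nat_lit 12) (nat_lit 0) (nat_lit 1) (nat_lit 0) (nat_lit 0) (nat_lit 0)))
  (EX.leaf (nat_lit 9428795677)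
    (nat_lit 5) (nat_lit 1) (nat_lit 0) (nat_lit 0) (nat_lit 21) (nat_lit 1) (nat_lit 0) (nat_lit 0) (nat_lit 0) (nat_lit 0)))
  (EX.leaf (nat_lit 402661661)
    (nat_lit 5) (nat_lit 1) (nat_lit 1) (nat_lit 0) (nat_lit 12) (nat_lit 0) (nat_lit 0) (nat_lit 0) (nat_lit 0) (nat_lit 0)))
  (EX.leaf (nat_lit 26474447389)
    (nat_lit 5) (nat_lit 2) (nat_lit 0) (nat_lit 0) (nat_lit 9) (nat_lit 3) (nat_lit 0) (nat_lit 0) (nat_lit 0) (nat_lit 0)))
  (EX.leaf (nat_lit 704643613)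
    (nat_lit 5) (nat_lit 2) (nat_lit 0) (nat_lit 0) (nat_lit 21) (nat_lit 0) (nat_lit 0) (nat_lit 0) (nat_lit 0) (nat_lit 0)))
  (EX.leaf (nat_lit 35299262492)
    (nat_lit 6) (nat_lit 0) (nat_lit 0) (nat_lit 0) (nat_lit 12) (nat_lit 4) (nat_lit 0) (nat_lit 0) (nat_lit 0) (nat_lit 0))))))))
  (EX.rd2 (EX.add (EX.shr (nat_lit 2) (nat_lit 1) (EX.add (EX.dbl (EX.add (EX.add (EX.add (EX.leaf (nat_lit 284239593755)
    (nat_lit 7) (nat_lit 1) (nat_lit 0) (nat_lit 0) (nat_lit 6) (nat_lit 1) (nat_lit 1) (nat_lit 0) (nat_lit 0) (nat_lit 0))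
  (EX.leaf (nat_lit 8925487387)
    (nat_lit 7) (nat_lit 1) (nat_lit 1) (nat_lit 0) (nat_lit 6) (nat_lit 1) (nat_lit 0) (nat_lit 0) (nat_lit 0) (nat_lit 0)))
  (EX.leaf (nat_lit 9227469339)
    (nat_lit 7) (nat_lit 2) (nat_lit 0) (nat_lit 0) (nat_lit 15) (nat_lit 1) (nat_lit 0) (nat_lit 0) (nat_lit 0) (nat_lit 0)))
  (EX.leaf (nat_lit 35097936154)
    (nat_lit 8) (nat_lit 1) (nat_lit 0) (nat_lit 0) (nat_lit 6) (nat_lit 4) (nat_lit 0) (nat_lit 0) (nat_lit 0) (nat_lit 0))))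
  (EX.add (EX.add (EX.add (EX.add (EX.add (EX.add (EX.add (EX.add (EX.add (EX.add (EX.add (EX.add (EX.add (EX.add (EX.add (EX.add (EX.add (EX.add (EX.add (EX.add (EX.add (EX.add (EX.add (EX.add (EX.leaf (nat_lit 292863082780)
    (nat_lit 6) (nat_lit 1) (nat_lit 0) (nat_lit 0) (nat_lit 3) (nat_lit 2) (nat_lit 1) (nat_lit 0) (nat_lit 0) (nat_lit 0))
  (EX.leaf (nat_lit 26575110428)
    (nat_lit 6) (nat_lit 1) (nat_lit 0) (nat_lit 0) (nat_lit 12) (nat_lit 3) (nat_lit 0) (nat_lit 0) (nat_lit 0) (nat_lit 0)))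
  (EX.leaf (nat_lit 17548976412)
    (nat_lit 6) (nat_lit 1) (nat_lit 1) (nat_lit 0) (nat_lit 3) (nat_lit 2) (nat_lit 0) (nat_lit 0) (nat_lit 0) (nat_lit 0)))
  (EX.leaf (nat_lit 284138930716)
    (nat_lit 6) (nat_lit 2) (nat_lit 0) (nat_lit 0) (nat_lit 3) (nat_lit 1) (nat_lit 1) (nat_lit 0) (nat_lit 0) (nat_lit 0)))
  (EX.leaf (nat_lit 17850958364)
    (nat_lit 6) (nat_lit 2) (nat_lit 0) (nat_lit 0) (nat_lit 12) (nat_lit 2) (nat_lit 0) (nat_lit 0) (nat_lit 0) (nat_lit 0)))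
  (EX.leaf (nat_lit 8824824348)
    (nat_lit 6) (nat_lit 2) (nat_lit 1) (nat_lit 0) (nat_lit 3) (nat_lit 1) (nat_lit 0) (nat_lit 0) (nat_lit 0) (nat_lit 0)))
  (EX.leaf (nat_lit 9126806300)
    (nat_lit 6) (nat_lit 3) (nat_lit 0) (nat_lit 0) (nat_lit 12) (nat_lit 1) (nat_lit 0) (nat_lit 0) (nat_lit 0) (nat_lit 0)))
  (EX.leaf (nat_lit 292963745819)
    (nat_lit 7) (nat_lit 0) (nat_lit 0) (nat_lit 0) (nat_lit 6) (nat_lit 2) (nat_lit 1) (nat_lit 0) (nat_lit 0) (nat_lit 0)))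
  (EX.leaf (nat_lit 17649639451)
    (nat_lit 7) (nat_lit 0) (nat_lit 1) (nat_lit 0) (nat_lit 6) (nat_lit 2) (nat_lit 0) (nat_lit 0) (nat_lit 0) (nat_lit 0)))
  (EX.leaf (nat_lit 43721425179)
    (nat_lit 7) (nat_lit 1) (nat_lit 0) (nat_lit 0) (nat_lit 3) (nat_lit 5) (nat_lit 0) (nat_lit 0) (nat_lit 0) (nat_lit 0)))
  (EX.leaf (nat_lit 17951621403)
    (nat_lit 7) (nat_lit 1) (nat_lit 0) (nat_lit 0) (nat_lit 15) (nat_lit 2) (nat_lit 0) (nat_lit 0) (nat_lit 0) (nat_lit 0)))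
  (EX.leaf (nat_lit 34997273115)
    (nat_lit 7) (nat_lit 2) (nat_lit 0) (nat_lit 0) (nat_lit 3) (nat_lit 4) (nat_lit 0) (nat_lit 0) (nat_lit 0) (nat_lit 0)))
  (EX.leaf (nat_lit 275515441691)
    (nat_lit 7) (nat_lit 2) (nat_lit 0) (nat_lit 0) (nat_lit 6) (nat_lit 0) (nat_lit 1) (nat_lit 0) (nat_lit 0) (nat_lit 0)))
  (EX.leaf (nat_lit 201335323)
    (nat_lit 7) (nat_lit 2) (nat_lit 1) (nat_lit 0) (nat_lit 6) (nat_lit 0) (nat_lit 0) (nat_lit 0) (nat_lit 0) (nat_lit 0)))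
  (EX.leaf (nat_lit 503317275)
    (nat_lit 7) (nat_lit 3) (nat_lit 0) (nat_lit 0) (nat_lit 15) (nat_lit 0) (nat_lit 0) (nat_lit 0) (nat_lit 0) (nat_lit 0)))
  (EX.leaf (nat_lit 43822088218)
    (nat_lit 8) (nat_lit 0) (nat_lit 0) (nat_lit 0) (nat_lit 6) (nat_lit 5) (nat_lit 0) (nat_lit 0) (nat_lit 0) (nat_lit 0)))
  (EX.leaf (nat_lit 284340256794)
    (nat_lit 8) (nat_lit 0) (nat_lit 0) (nat_lit 0) (nat_lit 9) (nat_lit 1) (nat_lit 1) (nat_lit 0) (nat_lit 0) (nat_lit 0)))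
  (EX.leaf (nat_lit 9026150426)
    (nat_lit 8) (nat_lit 0) (nat_lit 1) (nat_lit 0) (nat_lit 9) (nat_lit 1) (nat_lit 0) (nat_lit 0) (nat_lit 0) (nat_lit 0)))
  (EX.leaf (nat_lit 275616104730)
    (nat_lit 8) (nat_lit 1) (nat_lit 0) (nat_lit 0) (nat_lit 9) (nat_lit 0) (nat_lit 1) (nat_lit 0) (nat_lit 0) (nat_lit 0)))
  (EX.leaf (nat_lit 9328132378)
    (nat_lit 8) (nat_lit 1) (nat_lit 0) (nat_lit 0) (nat_lit 18) (nat_lit 1) (nat_lit 0) (nat_lit 0) (nat_lit 0) (nat_lit 0)))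
  (EX.leaf (nat_lit 301998362)
    (nat_lit 8) (nat_lit 1) (nat_lit 1) (nat_lit 0) (nat_lit 9) (nat_lit 0) (nat_lit 0) (nat_lit 0) (nat_lit 0) (nat_lit 0)))
  (EX.leaf (nat_lit 26373784090)
    (nat_lit 8) (nat_lit 2) (nat_lit 0) (nat_lit 0) (nat_lit 6) (nat_lit 3) (nat_lit 0) (nat_lit 0) (nat_lit 0) (nat_lit 0)))
  (EX.leaf (nat_lit 603980314)
    (nat_lit 8) (nat_lit 2) (nat_lit 0) (nat_lit 0) (nat_lit 18) (nat_lit 0) (nat_lit 0) (nat_lit 0) (nat_lit 0) (nat_lit 0)))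
  (EX.leaf (nat_lit 35198599193)
    (nat_lit 9) (nat_lit 0) (nat_lit 0) (nat_lit 0) (nat_lit 9) (nat_lit 4) (nat_lit 0) (nat_lit 0) (nat_lit 0) (nat_lit 0)))
  (EX.leaf (nat_lit 26474447129)
    (nat_lit 9) (nat_lit 1) (nat_lit 0) (nat_lit 0) (nat_lit 9) (nat_lit 3) (nat_lit 0) (nat_lit 0) (nat_lit 0) (nat_lit 0)))))
  (EX.shr (nat_lit 2) (nat_lit 2) (EX.add (EX.dbl (EX.add (EX.add (EX.add (EX.add (EX.add (EX.add (EX.add (EX.leaf (nat_lit 9227469079)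
    (nat_lit 7) (nat_lit 1) (nat_lit 0) (nat_lit 0) (nat_lit 15) (nat_lit 1) (nat_lit 0) (nat_lit 0) (nat_lit 0) (nat_lit 0))
  (EX.leaf (nat_lit 17750294805)
    (nat_lit 9) (nat_lit 1) (nat_lit 0) (nat_lit 0) (nat_lit 9) (nat_lit 2) (nat_lit 0) (nat_lit 0) (nat_lit 0) (nat_lit 0)))
  (EX.leaf (nat_lit 9026142741)
    (nat_lit 9) (nat_lit 2) (nat_lit 0) (nat_lit 0) (nat_lit 9) (nat_lit 1) (nat_lit 0) (nat_lit 0) (nat_lit 0) (nat_lit 0)))
  (EX.leaf (nat_lit 17850957844)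
    (nat_lit 10) (nat_lit 0) (nat_lit 0) (nat_lit 0) (nat_lit 12) (nat_lit 2) (nat_lit 0) (nat_lit 0) (nat_lit 0) (nat_lit 0)))
  (EX.leaf (nat_lit 402653716)
    (nat_lit 10) (nat_lit 2) (nat_lit 0) (nat_lit 0) (nat_lit 12) (nat_lit 0) (nat_lit 0) (nat_lit 0) (nat_lit 0) (nat_lit 0)))
  (EX.leaf (nat_lit 9227468819)
    (nat_lit 11) (nat_lit 0) (nat_lit 0) (nat_lit 0) (nat_lit 15) (nat_lit 1) (nat_lit 0) (nat_lit 0) (nat_lit 0) (nat_lit 0)))
  (EX.leaf (nat_lit 503316755)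
    (nat_lit 11) (nat_lit 1) (nat_lit 0) (nat_lit 0) (nat_lit 15) (nat_lit 0) (nat_lit 0) (nat_lit 0) (nat_lit 0) (nat_lit 0)))
  (EX.leaf (nat_lit 9026142481)
    (nat_lit 13) (nat_lit 1) (nat_lit 0) (nat_lit 0) (nat_lit 9) (nat_lit 1) (nat_lit 0) (nat_lit 0) (nat_lit 0) (nat_lit 0))))
  (EX.add (EX.add (EX.add (EX.add (EX.add (EX.add (EX.add (EX.add (EX.add (EX.add (EX.add (EX.add (EX.leaf (nat_lit 17850958104)
    (nat_lit 6) (nat_lit 1) (nat_lit 0) (nat_lit 0) (nat_lit 12) (nat_lit 2) (nat_lit 0) (nat_lit 0) (nat_lit 0) (nat_lit 0))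
  (EX.leaf (nat_lit 9126806040)
    (nat_lit 6) (nat_lit 2) (nat_lit 0) (nat_lit 0) (nat_lit 12) (nat_lit 1) (nat_lit 0) (nat_lit 0) (nat_lit 0) (nat_lit 0)))
  (EX.leaf (nat_lit 17951621143)
    (nat_lit 7) (nat_lit 0) (nat_lit 0) (nat_lit 0) (nat_lit 15) (nat_lit 2) (nat_lit 0) (nat_lit 0) (nat_lit 0) (nat_lit 0)))
  (EX.leaf (nat_lit 503317015)
    (nat_lit 7) (nat_lit 2) (nat_lit 0) (nat_lit 0) (nat_lit 15) (nat_lit 0) (nat_lit 0) (nat_lit 0) (nat_lit 0) (nat_lit 0)))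
  (EX.leaf (nat_lit 9328132118)
    (nat_lit 8) (nat_lit 0) (nat_lit 0) (nat_lit 0) (nat_lit 18) (nat_lit 1) (nat_lit 0) (nat_lit 0) (nat_lit 0) (nat_lit 0)))
  (EX.leaf (nat_lit 603980054)
    (nat_lit 8) (nat_lit 1) (nat_lit 0) (nat_lit 0) (nat_lit 18) (nat_lit 0) (nat_lit 0) (nat_lit 0) (nat_lit 0) (nat_lit 0)))
  (EX.leaf (nat_lit 9126805780)
    (nat_lit 10) (nat_lit 1) (nat_lit 0) (nat_lit 0) (nat_lit 12) (nat_lit 1) (nat_lit 0) (nat_lit 0) (nat_lit 0) (nat_lit 0)))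
  (EX.leaf (nat_lit 17649631506)
    (nat_lit 12) (nat_lit 1) (nat_lit 0) (nat_lit 0) (nat_lit 6) (nat_lit 2) (nat_lit 0) (nat_lit 0) (nat_lit 0) (nat_lit 0)))
  (EX.leaf (nat_lit 8925479442)
    (nat_lit 12) (nat_lit 2) (nat_lit 0) (nat_lit 0) (nat_lit 6) (nat_lit 1) (nat_lit 0) (nat_lit 0) (nat_lit 0) (nat_lit 0)))
  (EX.leaf (nat_lit 17750294545)
    (nat_lit 13) (nat_lit 0) (nat_lit 0) (nat_lit 0) (nat_lit 9) (nat_lit 2) (nat_lit 0) (nat_lit 0) (nat_lit 0) (nat_lit 0)))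
  (EX.leaf (nat_lit 301990417)
    (nat_lit 13) (nat_lit 2) (nat_lit 0) (nat_lit 0) (nat_lit 9) (nat_lit 0) (nat_lit 0) (nat_lit 0) (nat_lit 0) (nat_lit 0)))
  (EX.leaf (nat_lit 9126805520)
    (nat_lit 14) (nat_lit 0) (nat_lit 0) (nat_lit 0) (nat_lit 12) (nat_lit 1) (nat_lit 0) (nat_lit 0) (nat_lit 0) (nat_lit 0)))
  (EX.leaf (nat_lit 402653456)
    (nat_lit 14) (nat_lit 1) (nat_lit 0) (nat_lit 0) (nat_lit 12) (nat_lit 0) (nat_lit 0) (nat_lit 0) (nat_lit 0) (nat_lit 0))))))))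

def t4G (a : Bs) (f : Nat → Nat) (s r : Nat) (
    d1 d2 d3 d4 d5 d6 d7 d8 d9 d10 d11 d12 d13 d14 d15 d16 d17 d18 d19 d20 d21 d22 d23 d24 d25 
    d26 d27 d28 d29 d30 d31 d32 d33 d34 d35 d36 d37 d38 d39 d40 d41 d42 d43 d44 d45 d46 d47 d48 
    d49 d50 d51 d52 d53 d54 d55 d56 d57 d58 d59 d60 d61 d62 d63 d64 d65 d66 d67 d68 d69 d70 d71 
    d72 d73 d74 d75 d76 d77 d78 d79 d80 d81 d82 d83 d84 d85 d86 d87 d88 d89 d90 d91 d92 d93 d94 
    d95 d96 d97 d98 d99 d100 d101 d102 d103 d104 d105 d106 d107 d108 d109 d110 d111 d112 d113 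
    d114 d115 d116 d117 d118 d119 d120 d121 d122 d123 d124 d125 d126 d127 d128 d129 d130 d131 
    d132 d133 d134 d135 d136 d137 d138 d139 d140 d141 d142 d143 d144 d145 d146 d147 d148 d149 
    d150 d151 d152 d153 d154 d155 d156 d157 d158 d159 d160 d161 d162 d163 d164 d165 d166 d167 
    d168 d169 d170 d171 d172 d173 d174 d175 d176 d177 d178 d179 d180 d181 d182 d183 d184 d185 
    d186 d187 d188 d189 d190 d191 d192 d193 d194 d195 d196 d197 d198 d199 d200 d201 d202 d203 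
    d204 d205 d206 d207 d208 d209 d210 d211 d212 d213 d214 d215 : Nat) : Nat :=
  (ex5 a (Nat.add (Nat.add (Nat.add (Nat.add (red9 a r (Nat.add (Nat.add (Nat.add (Nat.shiftRight (Nat.add 
  (Nat.rec (motive := fun _ => Nat) (nat_lit 0) (fun m _ => (Nat.add 
  (Nat.rec (motive := fun _ => Nat) (nat_lit 0) (fun m _ => (Nat.add 
  (Nat.rec (motive := fun _ => Nat) (nat_lit 0) (fun m _ => 
  (Nat.rec (motive := fun _ => Nat) (nat_lit 0) (fun k _ => (Nat.add (f m) (f k))) (Nat.succ (Nat.add s d2)))) (Nat.succ (Nat.add s d1))) (f m))) (Nat.succ (Nat.add s d3))) (f m))) (Nat.succ (Nat.add s d4))) (Nat.shiftLeft 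
  (Nat.rec (motive := fun _ => Nat) (nat_lit 0) (fun m _ => (Nat.add 
  (Nat.rec (motive := fun _ => Nat) (nat_lit 0) (fun m _ => (Nat.add 
  (Nat.rec (motive := fun _ => Nat) (nat_lit 0) (fun m _ => (Nat.add 
  (Nat.rec (motive := fun _ => Nat) (nat_lit 0) (fun m _ => (Nat.add 
  (Nat.rec (motive := fun _ => Nat) (nat_lit 0) (fun m _ => (Nat.add 
  (Nat.rec (motive := fun _ => Nat) (nat_lit 0) (fun m _ => (Nat.add 
  (Nat.rec (motive := fun _ => Nat) (nat_lit 0) (fun m _ => (Nat.add 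
  (Nat.rec (motive := fun _ => Nat) (nat_lit 0) (fun m _ => (Nat.add 
  (Nat.rec (motive := fun _ => Nat) (nat_lit 0) (fun m _ => (Nat.add 
  (Nat.rec (motive := fun _ => Nat) (nat_lit 0) (fun m _ => (Nat.add 
  (Nat.rec (motive := fun _ => Nat) (nat_lit 0) (fun m _ => 
  (Nat.rec (motive := fun _ => Nat) (nat_lit 0) (fun k _ => (Nat.add (f m) (f k))) (Nat.succ (Nat.add s d6)))) (Nat.succ (Nat.add s d5))) (f m))) (Nat.succ (Nat.add s d7))) (f m))) (Nat.succ (Nat.add s d8))) (f m))) (Nat.succ (Nat.add s d9))) (f m))) (Nat.succ (Nat.add s d10))) (f m))) (Nat.succ (Nat.add s d11))) (f m))) (Nat.succ (Nat.add s d12))) (f m))) (Nat.succ (Nat.add s d13))) (f m))) (Nat.succ (Nat.add s d14))) (f m))) (Nat.succ (Nat.add s d15))) (f m))) (Nat.succ (Nat.add s d16))) (nat_lit 1))) (sh a (nat_lit 1))) (Nat.shiftRight 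
  (Nat.rec (motive := fun _ => Nat) (nat_lit 0) (fun m _ => (Nat.add (f m) (Nat.shiftLeft 
  (Nat.rec (motive := fun _ => Nat) (nat_lit 0) (fun m _ => (Nat.add 
  (Nat.rec (motive := fun _ => Nat) (nat_lit 0) (fun m _ => (Nat.add 
  (Nat.rec (motive := fun _ => Nat) (nat_lit 0) (fun m _ => (Nat.add 
  (Nat.rec (motive := fun _ => Nat) (nat_lit 0) (fun m _ => (Nat.add 
  (Nat.rec (motive := fun _ => Nat) (nat_lit 0) (fun m _ => 
  (Nat.rec (motive := fun _ => Nat) (nat_lit 0) (fun k _ => (Nat.add (f m) (f k))) (Nat.succ (Nat.add s d19)))) (Nat.succ (Nat.add s d18))) (f m))) (Nat.succ (Nat.add s d20))) (f m))) (Nat.succ (Nat.add s d21))) (f m))) (Nat.succ (Nat.add s d22))) (f m))) (Nat.succ (Nat.add s d23))) (nat_lit 1)))) (Nat.succ (Nat.add s d17))) (sh a (nat_lit 4)))) (Nat.shiftRight (Nat.add 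
  (Nat.rec (motive := fun _ => Nat) (nat_lit 0) (fun m _ => (Nat.add 
  (Nat.rec (motive := fun _ => Nat) (nat_lit 0) (fun m _ => (Nat.add 
  (Nat.rec (motive := fun _ => Nat) (nat_lit 0) (fun m _ => (Nat.add 
  (Nat.rec (motive := fun _ => Nat) (nat_lit 0) (fun m _ => (Nat.add 
  (Nat.rec (motive := fun _ => Nat) (nat_lit 0) (fun m _ => 
  (Nat.rec (motive := fun _ => Nat) (nat_lit 0) (fun k _ => (Nat.add (f m) (f k))) (Nat.succ (Nat.add s d25)))) (Nat.succ (Nat.add s d24))) (f m))) (Nat.succ (Nat.add s d26))) (f m))) (Nat.succ (Nat.add s d27))) (f m))) (Nat.succ (Nat.add s d28))) (f m))) (Nat.succ (Nat.add s d29))) (Nat.shiftLeft 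
  (Nat.rec (motive := fun _ => Nat) (nat_lit 0) (fun m _ => (Nat.add 
  (Nat.rec (motive := fun _ => Nat) (nat_lit 0) (fun m _ => (Nat.add 
  (Nat.rec (motive := fun _ => Nat) (nat_lit 0) (fun m _ => (Nat.add 
  (Nat.rec (motive := fun _ => Nat) (nat_lit 0) (fun m _ => (Nat.add 
  (Nat.rec (motive := fun _ => Nat) (nat_lit 0) (fun m _ => (Nat.add 
  (Nat.rec (motive := fun _ => Nat) (nat_lit 0) (fun m _ => 
  (Nat.rec (motive := fun _ => Nat) (nat_lit 0) (fun k _ => (Nat.add (f m) (f k))) (Nat.succ (Nat.add s d31)))) (Nat.succ (Nat.add s d30))) (f m))) (Nat.succ (Nat.add s d32))) (f m))) (Nat.succ (Nat.add s d33))) (f m))) (Nat.succ (Nat.add s d34))) (f m))) (Nat.succ (Nat.add s d35))) (f m))) (Nat.succ (Nat.add s d36))) (nat_lit 1))) (sh a (nat_lit 5)))) (Nat.add 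
  (Nat.rec (motive := fun _ => Nat) (nat_lit 0) (fun m _ => (Nat.add 
  (Nat.rec (motive := fun _ => Nat) (nat_lit 0) (fun m _ => (Nat.add 
  (Nat.rec (motive := fun _ => Nat) (nat_lit 0) (fun m _ => (Nat.add 
  (Nat.rec (motive := fun _ => Nat) (nat_lit 0) (fun m _ => 
  (Nat.rec (motive := fun _ => Nat) (nat_lit 0) (fun k _ => (Nat.add (f m) (f k))) (Nat.succ (Nat.add s d38)))) (Nat.succ (Nat.add s d37))) (f m))) (Nat.succ (Nat.add s d39))) (f m))) (Nat.succ (Nat.add s d40))) (f m))) (Nat.succ (Nat.add s d41))) (Nat.shiftLeft 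
  (Nat.rec (motive := fun _ => Nat) (nat_lit 0) (fun m _ => 
  (Nat.rec (motive := fun _ => Nat) (nat_lit 0) (fun k _ => (Nat.add (f m) (f k))) (Nat.succ (Nat.add s d43)))) (Nat.succ (Nat.add s d42))) (nat_lit 1))))) (red9 a r (Nat.add (Nat.add (Nat.shiftRight (Nat.add (Nat.shiftLeft 
  (Nat.rec (motive := fun _ => Nat) (nat_lit 0) (fun m _ => (Nat.add 
  (Nat.rec (motive := fun _ => Nat) (nat_lit 0) (fun m _ => (Nat.add 
  (Nat.rec (motive := fun _ => Nat) (nat_lit 0) (fun m _ => (Nat.add 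
  (Nat.rec (motive := fun _ => Nat) (nat_lit 0) (fun m _ => 
  (Nat.rec (motive := fun _ => Nat) (nat_lit 0) (fun k _ => (Nat.add (f m) (f k))) (Nat.succ (Nat.add s d45)))) (Nat.succ (Nat.add s d44))) (f m))) (Nat.succ (Nat.add s d46))) (f m))) (Nat.succ (Nat.add s d47))) (f m))) (Nat.succ (Nat.add s d48))) (nat_lit 1)) 
  (Nat.rec (motive := fun _ => Nat) (nat_lit 0) (fun m _ => 
  (Nat.rec (motive := fun _ => Nat) (nat_lit 0) (fun k _ => (Nat.add (f m) (f k))) (Nat.succ (Nat.add s d50)))) (Nat.succ (Nat.add s d49)))) (sh a (nat_lit 5))) (Nat.shiftRight (Nat.add 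
  (Nat.rec (motive := fun _ => Nat) (nat_lit 0) (fun m _ => (Nat.add 
  (Nat.rec (motive := fun _ => Nat) (nat_lit 0) (fun m _ => (Nat.add 
  (Nat.rec (motive := fun _ => Nat) (nat_lit 0) (fun m _ => 
  (Nat.rec (motive := fun _ => Nat) (nat_lit 0) (fun k _ => (Nat.add (f m) (f k))) (Nat.succ (Nat.add s d52)))) (Nat.succ (Nat.add s d51))) (f m))) (Nat.succ (Nat.add s d53))) (f m))) (Nat.succ (Nat.add s d54))) (Nat.shiftLeft 
  (Nat.rec (motive := fun _ => Nat) (nat_lit 0) (fun m _ => (Nat.add 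
  (Nat.rec (motive := fun _ => Nat) (nat_lit 0) (fun m _ => (Nat.add 
  (Nat.rec (motive := fun _ => Nat) (nat_lit 0) (fun m _ => (Nat.add 
  (Nat.rec (motive := fun _ => Nat) (nat_lit 0) (fun m _ => (Nat.add 
  (Nat.rec (motive := fun _ => Nat) (nat_lit 0) (fun m _ => (Nat.add 
  (Nat.rec (motive := fun _ => Nat) (nat_lit 0) (fun m _ => (Nat.add 
  (Nat.rec (motive := fun _ => Nat) (nat_lit 0) (fun m _ => 
  (Nat.rec (motive := fun _ => Nat) (nat_lit 0) (fun k _ => (Nat.add (f m) (f k))) (Nat.succ (Nat.add s d56)))) (Nat.succ (Nat.add s d55))) (f m))) (Nat.succ (Nat.add s d57))) (f m))) (Nat.succ (Nat.add s d58))) (f m))) (Nat.succ (Nat.add s d59))) (f m))) (Nat.succ (Nat.add s d60))) (f m))) (Nat.succ (Nat.add s d61))) (f m))) (Nat.succ (Nat.add s d62))) (nat_lit 1))) (sh a (nat_lit 9)))) (Nat.shiftRight (Nat.shiftLeft 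
  (Nat.rec (motive := fun _ => Nat) (nat_lit 0) (fun m _ => (Nat.add 
  (Nat.rec (motive := fun _ => Nat) (nat_lit 0) (fun m _ => (Nat.add 
  (Nat.rec (motive := fun _ => Nat) (nat_lit 0) (fun m _ => (Nat.add 
  (Nat.rec (motive := fun _ => Nat) (nat_lit 0) (fun m _ => (Nat.add 
  (Nat.rec (motive := fun _ => Nat) (nat_lit 0) (fun m _ => 
  (Nat.rec (motive := fun _ => Nat) (nat_lit 0) (fun k _ => (Nat.add (f m) (f k))) (Nat.succ (Nat.add s d64)))) (Nat.succ (Nat.add s d63))) (f m))) (Nat.succ (Nat.add s d65))) (f m))) (Nat.succ (Nat.add s d66))) (f m))) (Nat.succ (Nat.add s d67))) (f m))) (Nat.succ (Nat.add s d68))) (nat_lit 1)) (sh a (nat_lit 13)))))) (rdA a r (Nat.shiftRight (Nat.add 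
  (Nat.rec (motive := fun _ => Nat) (nat_lit 0) (fun m _ => (Nat.add 
  (Nat.rec (motive := fun _ => Nat) (nat_lit 0) (fun m _ => (Nat.add 
  (Nat.rec (motive := fun _ => Nat) (nat_lit 0) (fun m _ => (Nat.add 
  (Nat.rec (motive := fun _ => Nat) (nat_lit 0) (fun m _ => (Nat.add 
  (Nat.rec (motive := fun _ => Nat) (nat_lit 0) (fun m _ => (Nat.add 
  (Nat.rec (motive := fun _ => Nat) (nat_lit 0) (fun m _ => (Nat.add 
  (Nat.rec (motive := fun _ => Nat) (nat_lit 0) (fun m _ => (Nat.add 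
  (Nat.rec (motive := fun _ => Nat) (nat_lit 0) (fun m _ => (Nat.add 
  (Nat.rec (motive := fun _ => Nat) (nat_lit 0) (fun m _ => (Nat.add 
  (Nat.rec (motive := fun _ => Nat) (nat_lit 0) (fun m _ => (Nat.add 
  (Nat.rec (motive := fun _ => Nat) (nat_lit 0) (fun m _ => (Nat.add 
  (Nat.rec (motive := fun _ => Nat) (nat_lit 0) (fun m _ => (Nat.add 
  (Nat.rec (motive := fun _ => Nat) (nat_lit 0) (fun m _ => (Nat.add 
  (Nat.rec (motive := fun _ => Nat) (nat_lit 0) (fun m _ => (Nat.add 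
  (Nat.rec (motive := fun _ => Nat) (nat_lit 0) (fun m _ => (Nat.add 
  (Nat.rec (motive := fun _ => Nat) (nat_lit 0) (fun m _ => (Nat.add 
  (Nat.rec (motive := fun _ => Nat) (nat_lit 0) (fun m _ => (Nat.add 
  (Nat.rec (motive := fun _ => Nat) (nat_lit 0) (fun m _ => (Nat.add 
  (Nat.rec (motive := fun _ => Nat) (nat_lit 0) (fun m _ => 
  (Nat.rec (motive := fun _ => Nat) (nat_lit 0) (fun k _ => (Nat.add (f m) (f k))) (Nat.succ (Nat.add s d70)))) (Nat.succ (Nat.add s d69))) (f m))) (Nat.succ (Nat.add s d71))) (f m))) (Nat.succ (Nat.add s d72))) (f m))) (Nat.succ (Nat.add s d73))) (f m))) (Nat.succ (Nat.add s d74))) (f m))) (Nat.succ (Nat.add s d75))) (f m))) (Nat.succ (Nat.add s d76))) (f m))) (Nat.succ (Nat.add s d77))) (f m))) (Nat.succ (Nat.add s d78))) (f m))) (Nat.succ (Nat.add s d79))) (f m))) (Nat.succ (Nat.add s d80))) (f m))) (Nat.succ (Nat.add s d81))) (f m))) (Nat.succ (Nat.add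 s d82))) (f m))) (Nat.succ (Nat.add s d83))) (f m))) (Nat.succ (Nat.add s d84))) (f m))) (Nat.succ (Nat.add s d85))) (f m))) (Nat.succ (Nat.add s d86))) (f m))) (Nat.succ (Nat.add s d87))) (f m))) (Nat.succ (Nat.add s d88))) (Nat.shiftLeft 
  (Nat.rec (motive := fun _ => Nat) (nat_lit 0) (fun m _ => (Nat.add 
  (Nat.rec (motive := fun _ => Nat) (nat_lit 0) (fun m _ => (Nat.add 
  (Nat.rec (motive := fun _ => Nat) (nat_lit 0) (fun m _ => (Nat.add 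
  (Nat.rec (motive := fun _ => Nat) (nat_lit 0) (fun m _ => (Nat.add 
  (Nat.rec (motive := fun _ => Nat) (nat_lit 0) (fun m _ => (Nat.add 
  (Nat.rec (motive := fun _ => Nat) (nat_lit 0) (fun m _ => (Nat.add 
  (Nat.rec (motive := fun _ => Nat) (nat_lit 0) (fun m _ => (Nat.add 
  (Nat.rec (motive := fun _ => Nat) (nat_lit 0) (fun m _ => (Nat.add 
  (Nat.rec (motive := fun _ => Nat) (nat_lit 0) (fun m _ => (Nat.add 
  (Nat.rec (motive := fun _ => Nat) (nat_lit 0) (fun m _ => (Nat.add 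
  (Nat.rec (motive := fun _ => Nat) (nat_lit 0) (fun m _ => (Nat.add 
  (Nat.rec (motive := fun _ => Nat) (nat_lit 0) (fun m _ => (Nat.add 
  (Nat.rec (motive := fun _ => Nat) (nat_lit 0) (fun m _ => (Nat.add 
  (Nat.rec (motive := fun _ => Nat) (nat_lit 0) (fun m _ => (Nat.add 
  (Nat.rec (motive := fun _ => Nat) (nat_lit 0) (fun m _ => (Nat.add 
  (Nat.rec (motive := fun _ => Nat) (nat_lit 0) (fun m _ => (Nat.add 
  (Nat.rec (motive := fun _ => Nat) (nat_lit 0) (fun m _ => (Nat.add 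
  (Nat.rec (motive := fun _ => Nat) (nat_lit 0) (fun m _ => (Nat.add 
  (Nat.rec (motive := fun _ => Nat) (nat_lit 0) (fun m _ => (Nat.add 
  (Nat.rec (motive := fun _ => Nat) (nat_lit 0) (fun m _ => (Nat.add 
  (Nat.rec (motive := fun _ => Nat) (nat_lit 0) (fun m _ => (Nat.add 
  (Nat.rec (motive := fun _ => Nat) (nat_lit 0) (fun m _ => (Nat.add 
  (Nat.rec (motive := fun _ => Nat) (nat_lit 0) (fun m _ => (Nat.add 
  (Nat.rec (motive := fun _ => Nat) (nat_lit 0) (fun m _ => 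
  (Nat.rec (motive := fun _ => Nat) (nat_lit 0) (fun k _ => (Nat.add (f m) (f k))) (Nat.succ (Nat.add s d90)))) (Nat.succ (Nat.add s d89))) (f m))) (Nat.succ (Nat.add s d91))) (f m))) (Nat.succ (Nat.add s d92))) (f m))) (Nat.succ (Nat.add s d93))) (f m))) (Nat.succ (Nat.add s d94))) (f m))) (Nat.succ (Nat.add s d95))) (f m))) (Nat.succ (Nat.add s d96))) (f m))) (Nat.succ (Nat.add s d97))) (f m))) (Nat.succ (Nat.add s d98))) (f m))) (Nat.succ (Nat.add s d99))) (f m))) (Nat.succ (Nat.add s d100))) (f m))) (Nat.succ (Nat.add s d101))) (f m))) (Nat.succ (Nat.add s d102))) (f m))) (Nat.succ (Nat.add s d103))) (f m))) (Nat.succ (Nat.add s d104))) (f m))) (Nat.succ (Nat.add s d105))) (f m))) (Nat.succ (Nat.add s d106))) (f m))) (Nat.succ (Nat.add s d107))) (f m))) (Nat.succ (Nat.add s d108))) (f m))) (Nat.succ (Nat.add s d109))) (f m))) (Nat.succ (Nat.add s d110))) (f m))) (Nat.succ (Nat.add s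 d111))) (f m))) (Nat.succ (Nat.add s d112))) (f m))) (Nat.succ (Nat.add s d113))) (nat_lit 1))) (sh a (nat_lit 2))))) (rdA a r (Nat.add (Nat.shiftRight (Nat.add (Nat.shiftLeft 
  (Nat.rec (motive := fun _ => Nat) (nat_lit 0) (fun m _ => (Nat.add 
  (Nat.rec (motive := fun _ => Nat) (nat_lit 0) (fun m _ => (Nat.add 
  (Nat.rec (motive := fun _ => Nat) (nat_lit 0) (fun m _ => (Nat.add 
  (Nat.rec (motive := fun _ => Nat) (nat_lit 0) (fun m _ => (Nat.add 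
  (Nat.rec (motive := fun _ => Nat) (nat_lit 0) (fun m _ => (Nat.add 
  (Nat.rec (motive := fun _ => Nat) (nat_lit 0) (fun m _ => (Nat.add 
  (Nat.rec (motive := fun _ => Nat) (nat_lit 0) (fun m _ => (Nat.add 
  (Nat.rec (motive := fun _ => Nat) (nat_lit 0) (fun m _ => (Nat.add 
  (Nat.rec (motive := fun _ => Nat) (nat_lit 0) (fun m _ => (Nat.add 
  (Nat.rec (motive := fun _ => Nat) (nat_lit 0) (fun m _ => (Nat.add 
  (Nat.rec (motive := fun _ => Nat) (nat_lit 0) (fun m _ => (Nat.add 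
  (Nat.rec (motive := fun _ => Nat) (nat_lit 0) (fun m _ => (Nat.add 
  (Nat.rec (motive := fun _ => Nat) (nat_lit 0) (fun m _ => (Nat.add 
  (Nat.rec (motive := fun _ => Nat) (nat_lit 0) (fun m _ => 
  (Nat.rec (motive := fun _ => Nat) (nat_lit 0) (fun k _ => (Nat.add (f m) (f k))) (Nat.succ (Nat.add s d115)))) (Nat.succ (Nat.add s d114))) (f m))) (Nat.succ (Nat.add s d116))) (f m))) (Nat.succ (Nat.add s d117))) (f m))) (Nat.succ (Nat.add s d118))) (f m))) (Nat.succ (Nat.add s d119))) (f m))) (Nat.succ (Nat.add s d120))) (f m))) (Nat.succ (Nat.add s d121))) (f m))) (Nat.succ (Nat.add s d122))) (f m))) (Nat.succ (Nat.add s d123))) (f m))) (Nat.succ (Nat.add s d124))) (f m))) (Nat.succ (Nat.add s d125))) (f m))) (Nat.succ (Nat.add s d126))) (f m))) (Nat.succ (Nat.add s d127))) (f m))) (Nat.succ (Nat.add s d128))) (nat_lit 1)) 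
  (Nat.rec (motive := fun _ => Nat) (nat_lit 0) (fun m _ => (Nat.add 
  (Nat.rec (motive := fun _ => Nat) (nat_lit 0) (fun m _ => (Nat.add 
  (Nat.rec (motive := fun _ => Nat) (nat_lit 0) (fun m _ => (Nat.add 
  (Nat.rec (motive := fun _ => Nat) (nat_lit 0) (fun m _ => (Nat.add 
  (Nat.rec (motive := fun _ => Nat) (nat_lit 0) (fun m _ => (Nat.add 
  (Nat.rec (motive := fun _ => Nat) (nat_lit 0) (fun m _ => (Nat.add 
  (Nat.rec (motive := fun _ => Nat) (nat_lit 0) (fun m _ => (Nat.add 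
  (Nat.rec (motive := fun _ => Nat) (nat_lit 0) (fun m _ => (Nat.add 
  (Nat.rec (motive := fun _ => Nat) (nat_lit 0) (fun m _ => 
  (Nat.rec (motive := fun _ => Nat) (nat_lit 0) (fun k _ => (Nat.add (f m) (f k))) (Nat.succ (Nat.add s d130)))) (Nat.succ (Nat.add s d129))) (f m))) (Nat.succ (Nat.add s d131))) (f m))) (Nat.succ (Nat.add s d132))) (f m))) (Nat.succ (Nat.add s d133))) (f m))) (Nat.succ (Nat.add s d134))) (f m))) (Nat.succ (Nat.add s d135))) (f m))) (Nat.succ (Nat.add s d136))) (f m))) (Nat.succ (Nat.add s d137))) (f m))) (Nat.succ (Nat.add s d138)))) (sh a (nat_lit 2))) (Nat.shiftRight (Nat.add (Nat.shiftLeft 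
  (Nat.rec (motive := fun _ => Nat) (nat_lit 0) (fun m _ => (Nat.add 
  (Nat.rec (motive := fun _ => Nat) (nat_lit 0) (fun m _ => (Nat.add 
  (Nat.rec (motive := fun _ => Nat) (nat_lit 0) (fun m _ => 
  (Nat.rec (motive := fun _ => Nat) (nat_lit 0) (fun k _ => (Nat.add (f m) (f k))) (Nat.succ (Nat.add s d140)))) (Nat.succ (Nat.add s d139))) (f m))) (Nat.succ (Nat.add s d141))) (f m))) (Nat.succ (Nat.add s d142))) (nat_lit 1)) 
  (Nat.rec (motive := fun _ => Nat) (nat_lit 0) (fun m _ => (Nat.add 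
  (Nat.rec (motive := fun _ => Nat) (nat_lit 0) (fun m _ => (Nat.add 
  (Nat.rec (motive := fun _ => Nat) (nat_lit 0) (fun m _ => (Nat.add 
  (Nat.rec (motive := fun _ => Nat) (nat_lit 0) (fun m _ => (Nat.add 
  (Nat.rec (motive := fun _ => Nat) (nat_lit 0) (fun m _ => (Nat.add 
  (Nat.rec (motive := fun _ => Nat) (nat_lit 0) (fun m _ => (Nat.add 
  (Nat.rec (motive := fun _ => Nat) (nat_lit 0) (fun m _ => (Nat.add 
  (Nat.rec (motive := fun _ => Nat) (nat_lit 0) (fun m _ => (Nat.add 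
  (Nat.rec (motive := fun _ => Nat) (nat_lit 0) (fun m _ => (Nat.add 
  (Nat.rec (motive := fun _ => Nat) (nat_lit 0) (fun m _ => (Nat.add 
  (Nat.rec (motive := fun _ => Nat) (nat_lit 0) (fun m _ => (Nat.add 
  (Nat.rec (motive := fun _ => Nat) (nat_lit 0) (fun m _ => (Nat.add 
  (Nat.rec (motive := fun _ => Nat) (nat_lit 0) (fun m _ => (Nat.add 
  (Nat.rec (motive := fun _ => Nat) (nat_lit 0) (fun m _ => (Nat.add 
  (Nat.rec (motive := fun _ => Nat) (nat_lit 0) (fun m _ => (Nat.add 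
  (Nat.rec (motive := fun _ => Nat) (nat_lit 0) (fun m _ => (Nat.add 
  (Nat.rec (motive := fun _ => Nat) (nat_lit 0) (fun m _ => (Nat.add 
  (Nat.rec (motive := fun _ => Nat) (nat_lit 0) (fun m _ => (Nat.add 
  (Nat.rec (motive := fun _ => Nat) (nat_lit 0) (fun m _ => (Nat.add 
  (Nat.rec (motive := fun _ => Nat) (nat_lit 0) (fun m _ => (Nat.add 
  (Nat.rec (motive := fun _ => Nat) (nat_lit 0) (fun m _ => (Nat.add 
  (Nat.rec (motive := fun _ => Nat) (nat_lit 0) (fun m _ => 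
  (Nat.rec (motive := fun _ => Nat) (nat_lit 0) (fun k _ => (Nat.add (f m) (f k))) (Nat.succ (Nat.add s d144)))) (Nat.succ (Nat.add s d143))) (f m))) (Nat.succ (Nat.add s d145))) (f m))) (Nat.succ (Nat.add s d146))) (f m))) (Nat.succ (Nat.add s d147))) (f m))) (Nat.succ (Nat.add s d148))) (f m))) (Nat.succ (Nat.add s d149))) (f m))) (Nat.succ (Nat.add s d150))) (f m))) (Nat.succ (Nat.add s d151))) (f m))) (Nat.succ (Nat.add s d152))) (f m))) (Nat.succ (Nat.add s d153))) (f m))) (Nat.succ (Nat.add s d154))) (f m))) (Nat.succ (Nat.add s d155))) (f m))) (Nat.succ (Nat.add s d156))) (f m))) (Nat.succ (Nat.add s d157))) (f m))) (Nat.succ (Nat.add s d158))) (f m))) (Nat.succ (Nat.add s d159))) (f m))) (Nat.succ (Nat.add s d160))) (f m))) (Nat.succ (Nat.add s d161))) (f m))) (Nat.succ (Nat.add s d162))) (f m))) (Nat.succ (Nat.add s d163))) (f m))) (Nat.succ (Nat.add s d164))) (f m))) (Nat.succ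 (Nat.add s d165)))) (sh a (nat_lit 6)))))) (rdA a r (Nat.add (Nat.shiftRight (Nat.add (Nat.shiftLeft 
  (Nat.rec (motive := fun _ => Nat) (nat_lit 0) (fun m _ => (Nat.add 
  (Nat.rec (motive := fun _ => Nat) (nat_lit 0) (fun m _ => (Nat.add 
  (Nat.rec (motive := fun _ => Nat) (nat_lit 0) (fun m _ => 
  (Nat.rec (motive := fun _ => Nat) (nat_lit 0) (fun k _ => (Nat.add (f m) (f k))) (Nat.succ (Nat.add s d167)))) (Nat.succ (Nat.add s d166))) (f m))) (Nat.succ (Nat.add s d168))) (f m))) (Nat.succ (Nat.add s d169))) (nat_lit 1)) 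
  (Nat.rec (motive := fun _ => Nat) (nat_lit 0) (fun m _ => (Nat.add 
  (Nat.rec (motive := fun _ => Nat) (nat_lit 0) (fun m _ => (Nat.add 
  (Nat.rec (motive := fun _ => Nat) (nat_lit 0) (fun m _ => (Nat.add 
  (Nat.rec (motive := fun _ => Nat) (nat_lit 0) (fun m _ => (Nat.add 
  (Nat.rec (motive := fun _ => Nat) (nat_lit 0) (fun m _ => (Nat.add 
  (Nat.rec (motive := fun _ => Nat) (nat_lit 0) (fun m _ => (Nat.add 
  (Nat.rec (motive := fun _ => Nat) (nat_lit 0) (fun m _ => (Nat.add 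
  (Nat.rec (motive := fun _ => Nat) (nat_lit 0) (fun m _ => (Nat.add 
  (Nat.rec (motive := fun _ => Nat) (nat_lit 0) (fun m _ => (Nat.add 
  (Nat.rec (motive := fun _ => Nat) (nat_lit 0) (fun m _ => (Nat.add 
  (Nat.rec (motive := fun _ => Nat) (nat_lit 0) (fun m _ => (Nat.add 
  (Nat.rec (motive := fun _ => Nat) (nat_lit 0) (fun m _ => (Nat.add 
  (Nat.rec (motive := fun _ => Nat) (nat_lit 0) (fun m _ => (Nat.add 
  (Nat.rec (motive := fun _ => Nat) (nat_lit 0) (fun m _ => (Nat.add 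
  (Nat.rec (motive := fun _ => Nat) (nat_lit 0) (fun m _ => (Nat.add 
  (Nat.rec (motive := fun _ => Nat) (nat_lit 0) (fun m _ => (Nat.add 
  (Nat.rec (motive := fun _ => Nat) (nat_lit 0) (fun m _ => (Nat.add 
  (Nat.rec (motive := fun _ => Nat) (nat_lit 0) (fun m _ => (Nat.add 
  (Nat.rec (motive := fun _ => Nat) (nat_lit 0) (fun m _ => (Nat.add 
  (Nat.rec (motive := fun _ => Nat) (nat_lit 0) (fun m _ => (Nat.add 
  (Nat.rec (motive := fun _ => Nat) (nat_lit 0) (fun m _ => (Nat.add 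
  (Nat.rec (motive := fun _ => Nat) (nat_lit 0) (fun m _ => (Nat.add 
  (Nat.rec (motive := fun _ => Nat) (nat_lit 0) (fun m _ => (Nat.add 
  (Nat.rec (motive := fun _ => Nat) (nat_lit 0) (fun m _ => 
  (Nat.rec (motive := fun _ => Nat) (nat_lit 0) (fun k _ => (Nat.add (f m) (f k))) (Nat.succ (Nat.add s d171)))) (Nat.succ (Nat.add s d170))) (f m))) (Nat.succ (Nat.add s d172))) (f m))) (Nat.succ (Nat.add s d173))) (f m))) (Nat.succ (Nat.add s d174))) (f m))) (Nat.succ (Nat.add s d175))) (f m))) (Nat.succ (Nat.add s d176))) (f m))) (Nat.succ (Nat.add s d177))) (f m))) (Nat.succ (Nat.add s d178))) (f m))) (Nat.succ (Nat.add s d179))) (f m))) (Nat.succ (Nat.add s d180))) (f m))) (Nat.succ (Nat.add s d181))) (f m))) (Nat.succ (Nat.add s d182))) (f m))) (Nat.succ (Nat.add s d183))) (f m))) (Nat.succ (Nat.add s d184))) (f m))) (Nat.succ (Nat.add s d185))) (f m))) (Nat.succ (Nat.add s d186))) (f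 m))) (Nat.succ (Nat.add s d187))) (f m))) (Nat.succ (Nat.add s d188))) (f m))) (Nat.succ (Nat.add s d189))) (f m))) (Nat.succ (Nat.add s d190))) (f m))) (Nat.succ (Nat.add s d191))) (f m))) (Nat.succ (Nat.add s d192))) (f m))) (Nat.succ (Nat.add s d193))) (f m))) (Nat.succ (Nat.add s d194)))) (sh a (nat_lit 6))) (Nat.shiftRight (Nat.add (Nat.shiftLeft 
  (Nat.rec (motive := fun _ => Nat) (nat_lit 0) (fun m _ => (Nat.add 
  (Nat.rec (motive := fun _ => Nat) (nat_lit 0) (fun m _ => (Nat.add 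
  (Nat.rec (motive := fun _ => Nat) (nat_lit 0) (fun m _ => (Nat.add 
  (Nat.rec (motive := fun _ => Nat) (nat_lit 0) (fun m _ => (Nat.add 
  (Nat.rec (motive := fun _ => Nat) (nat_lit 0) (fun m _ => (Nat.add 
  (Nat.rec (motive := fun _ => Nat) (nat_lit 0) (fun m _ => (Nat.add 
  (Nat.rec (motive := fun _ => Nat) (nat_lit 0) (fun m _ => 
  (Nat.rec (motive := fun _ => Nat) (nat_lit 0) (fun k _ => (Nat.add (f m) (f k))) (Nat.succ (Nat.add s d196)))) (Nat.succ (Nat.add s d195))) (f m))) (Nat.succ (Nat.add s d197))) (f m))) (Nat.succ (Nat.add s d198))) (f m))) (Nat.succ (Nat.add s d199))) (f m))) (Nat.succ (Nat.add s d200))) (f m))) (Nat.succ (Nat.add s d201))) (f m))) (Nat.succ (Nat.add s d202))) (nat_lit 1)) 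
  (Nat.rec (motive := fun _ => Nat) (nat_lit 0) (fun m _ => (Nat.add 
  (Nat.rec (motive := fun _ => Nat) (nat_lit 0) (fun m _ => (Nat.add 
  (Nat.rec (motive := fun _ => Nat) (nat_lit 0) (fun m _ => (Nat.add 
  (Nat.rec (motive := fun _ => Nat) (nat_lit 0) (fun m _ => (Nat.add 
  (Nat.rec (motive := fun _ => Nat) (nat_lit 0) (fun m _ => (Nat.add 
  (Nat.rec (motive := fun _ => Nat) (nat_lit 0) (fun m _ => (Nat.add 
  (Nat.rec (motive := fun _ => Nat) (nat_lit 0) (fun m _ => (Nat.add 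
  (Nat.rec (motive := fun _ => Nat) (nat_lit 0) (fun m _ => (Nat.add 
  (Nat.rec (motive := fun _ => Nat) (nat_lit 0) (fun m _ => (Nat.add 
  (Nat.rec (motive := fun _ => Nat) (nat_lit 0) (fun m _ => (Nat.add 
  (Nat.rec (motive := fun _ => Nat) (nat_lit 0) (fun m _ => (Nat.add 
  (Nat.rec (motive := fun _ => Nat) (nat_lit 0) (fun m _ => 
  (Nat.rec (motive := fun _ => Nat) (nat_lit 0) (fun k _ => (Nat.add (f m) (f k))) (Nat.succ (Nat.add s d204)))) (Nat.succ (Nat.add s d203))) (f m))) (Nat.succ (Nat.add s d205))) (f m))) (Nat.succ (Nat.add s d206))) (f m))) (Nat.succ (Nat.add s d207))) (f m))) (Nat.succ (Nat.add s d208))) (f m))) (Nat.succ (Nat.add s d209))) (f m))) (Nat.succ (Nat.add s d210))) (f m))) (Nat.succ (Nat.add s d211))) (f m))) (Nat.succ (Nat.add s d212))) (f m))) (Nat.succ (Nat.add s d213))) (f m))) (Nat.succ (Nat.add s d214))) (f m))) (Nat.succ (Nat.add s d215)))) (sh a (nat_lit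 10)))))))

theorem t4G_eq (a : Bs) (f : Nat → Nat) (s r : Nat) (
    d1 d2 d3 d4 d5 d6 d7 d8 d9 d10 d11 d12 d13 d14 d15 d16 d17 d18 d19 d20 d21 d22 d23 d24 d25 
    d26 d27 d28 d29 d30 d31 d32 d33 d34 d35 d36 d37 d38 d39 d40 d41 d42 d43 d44 d45 d46 d47 d48 
    d49 d50 d51 d52 d53 d54 d55 d56 d57 d58 d59 d60 d61 d62 d63 d64 d65 d66 d67 d68 d69 d70 d71 
    d72 d73 d74 d75 d76 d77 d78 d79 d80 d81 d82 d83 d84 d85 d86 d87 d88 d89 d90 d91 d92 d93 d94 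
    d95 d96 d97 d98 d99 d100 d101 d102 d103 d104 d105 d106 d107 d108 d109 d110 d111 d112 d113 
    d114 d115 d116 d117 d118 d119 d120 d121 d122 d123 d124 d125 d126 d127 d128 d129 d130 d131 
    d132 d133 d134 d135 d136 d137 d138 d139 d140 d141 d142 d143 d144 d145 d146 d147 d148 d149 
    d150 d151 d152 d153 d154 d155 d156 d157 d158 d159 d160 d161 d162 d163 d164 d165 d166 d167 
    d168 d169 d170 d171 d172 d173 d174 d175 d176 d177 d178 d179 d180 d181 d182 d183 d184 d185 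
    d186 d187 d188 d189 d190 d191 d192 d193 d194 d195 d196 d197 d198 d199 d200 d201 d202 d203 
    d204 d205 d206 d207 d208 d209 d210 d211 d212 d213 d214 d215 : Nat) :
    t4G a f s r
    d1 d2 d3 d4 d5 d6 d7 d8 d9 d10 d11 d12 d13 d14 d15 d16 d17 d18 d19 d20 d21 d22 d23 d24 d25 
    d26 d27 d28 d29 d30 d31 d32 d33 d34 d35 d36 d37 d38 d39 d40 d41 d42 d43 d44 d45 d46 d47 d48 
    d49 d50 d51 d52 d53 d54 d55 d56 d57 d58 d59 d60 d61 d62 d63 d64 d65 d66 d67 d68 d69 d70 d71 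
    d72 d73 d74 d75 d76 d77 d78 d79 d80 d81 d82 d83 d84 d85 d86 d87 d88 d89 d90 d91 d92 d93 d94 
    d95 d96 d97 d98 d99 d100 d101 d102 d103 d104 d105 d106 d107 d108 d109 d110 d111 d112 d113 
    d114 d115 d116 d117 d118 d119 d120 d121 d122 d123 d124 d125 d126 d127 d128 d129 d130 d131 
    d132 d133 d134 d135 d136 d137 d138 d139 d140 d141 d142 d143 d144 d145 d146 d147 d148 d149 
    d150 d151 d152 d153 d154 d155 d156 d157 d158 d159 d160 d161 d162 d163 d164 d165 d166 d167 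
    d168 d169 d170 d171 d172 d173 d174 d175 d176 d177 d178 d179 d180 d181 d182 d183 d184 d185 
    d186 d187 d188 d189 d190 d191 d192 d193 d194 d195 d196 d197 d198 d199 d200 d201 d202 d203 
    d204 d205 d206 d207 d208 d209 d210 d211 d212 d213 d214 d215 =
  (ex5 a (Nat.add (Nat.add (Nat.add (Nat.add (red9 a r (Nat.add (Nat.add (Nat.add (Nat.shiftRight (Nat.add (Nat.add (Nat.add (Nat.add
  (force (Nat.add s d1) f)
  (force (Nat.add s d2) f))
  (force (Nat.add s d3) f))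
  (force (Nat.add s d4) f)) (Nat.shiftLeft (Nat.add (Nat.add (Nat.add (Nat.add (Nat.add (Nat.add (Nat.add (Nat.add (Nat.add (Nat.add (Nat.add
  (force (Nat.add s d5) f)
  (force (Nat.add s d6) f))
  (force (Nat.add s d7) f))
  (force (Nat.add s d8) f))
  (force (Nat.add s d9) f))
  (force (Nat.add s d10) f))
  (force (Nat.add s d11) f))
  (force (Nat.add s d12) f))
  (force (Nat.add s d13) f))
  (force (Nat.add s d14) f))
  (force (Nat.add s d15) f))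
  (force (Nat.add s d16) f)) (nat_lit 1))) (sh a (nat_lit 1))) (Nat.shiftRight (Nat.add
  (force (Nat.add s d17) f) (Nat.shiftLeft (Nat.add (Nat.add (Nat.add (Nat.add (Nat.add
  (force (Nat.add s d18) f)
  (force (Nat.add s d19) f))
  (force (Nat.add s d20) f))
  (force (Nat.add s d21) f))
  (force (Nat.add s d22) f))
  (force (Nat.add s d23) f)) (nat_lit 1))) (sh a (nat_lit 4)))) (Nat.shiftRight (Nat.add (Nat.add (Nat.add (Nat.add (Nat.add (Nat.add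
  (force (Nat.add s d24) f)
  (force (Nat.add s d25) f))
  (force (Nat.add s d26) f))
  (force (Nat.add s d27) f))
  (force (Nat.add s d28) f))
  (force (Nat.add s d29) f)) (Nat.shiftLeft (Nat.add (Nat.add (Nat.add (Nat.add (Nat.add (Nat.add
  (force (Nat.add s d30) f)
  (force (Nat.add s d31) f))
  (force (Nat.add s d32) f))
  (force (Nat.add s d33) f))
  (force (Nat.add s d34) f))
  (force (Nat.add s d35) f))
  (force (Nat.add s d36) f)) (nat_lit 1))) (sh a (nat_lit 5)))) (Nat.add (Nat.add (Nat.add (Nat.add (Nat.add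
  (force (Nat.add s d37) f)
  (force (Nat.add s d38) f))
  (force (Nat.add s d39) f))
  (force (Nat.add s d40) f))
  (force (Nat.add s d41) f)) (Nat.shiftLeft (Nat.add
  (force (Nat.add s d42) f)
  (force (Nat.add s d43) f)) (nat_lit 1))))) (red9 a r (Nat.add (Nat.add (Nat.shiftRight (Nat.add (Nat.shiftLeft (Nat.add (Nat.add (Nat.add (Nat.add
  (force (Nat.add s d44) f)
  (force (Nat.add s d45) f))
  (force (Nat.add s d46) f))
  (force (Nat.add s d47) f))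
  (force (Nat.add s d48) f)) (nat_lit 1)) (Nat.add
  (force (Nat.add s d49) f)
  (force (Nat.add s d50) f))) (sh a (nat_lit 5))) (Nat.shiftRight (Nat.add (Nat.add (Nat.add (Nat.add
  (force (Nat.add s d51) f)
  (force (Nat.add s d52) f))
  (force (Nat.add s d53) f))
  (force (Nat.add s d54) f)) (Nat.shiftLeft (Nat.add (Nat.add (Nat.add (Nat.add (Nat.add (Nat.add (Nat.add
  (force (Nat.add s d55) f)
  (force (Nat.add s d56) f))
  (force (Nat.add s d57) f))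
  (force (Nat.add s d58) f))
  (force (Nat.add s d59) f))
  (force (Nat.add s d60) f))
  (force (Nat.add s d61) f))
  (force (Nat.add s d62) f)) (nat_lit 1))) (sh a (nat_lit 9)))) (Nat.shiftRight (Nat.shiftLeft (Nat.add (Nat.add (Nat.add (Nat.add (Nat.add
  (force (Nat.add s d63) f)
  (force (Nat.add s d64) f))
  (force (Nat.add s d65) f))
  (force (Nat.add s d66) f))
  (force (Nat.add s d67) f))
  (force (Nat.add s d68) f)) (nat_lit 1)) (sh a (nat_lit 13)))))) (rdA a r (Nat.shiftRight (Nat.add (Nat.add (Nat.add (Nat.add (Nat.add (Nat.add (Nat.add (Nat.add (Nat.add (Nat.add (Nat.add (Nat.add (Nat.add (Nat.add (Nat.add (Nat.add (Nat.add (Nat.add (Nat.add (Nat.add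
  (force (Nat.add s d69) f)
  (force (Nat.add s d70) f))
  (force (Nat.add s d71) f))
  (force (Nat.add s d72) f))
  (force (Nat.add s d73) f))
  (force (Nat.add s d74) f))
  (force (Nat.add s d75) f))
  (force (Nat.add s d76) f))
  (force (Nat.add s d77) f))
  (force (Nat.add s d78) f))
  (force (Nat.add s d79) f))
  (force (Nat.add s d80) f))
  (force (Nat.add s d81) f))
  (force (Nat.add s d82) f))
  (force (Nat.add s d83) f))
  (force (Nat.add s d84) f))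
  (force (Nat.add s d85) f))
  (force (Nat.add s d86) f))
  (force (Nat.add s d87) f))
  (force (Nat.add s d88) f)) (Nat.shiftLeft (Nat.add (Nat.add (Nat.add (Nat.add (Nat.add (Nat.add (Nat.add (Nat.add (Nat.add (Nat.add (Nat.add (Nat.add (Nat.add (Nat.add (Nat.add (Nat.add (Nat.add (Nat.add (Nat.add (Nat.add (Nat.add (Nat.add (Nat.add (Nat.add
  (force (Nat.add s d89) f)
  (force (Nat.add s d90) f))
  (force (Nat.add s d91) f))
  (force (Nat.add s d92) f))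
  (force (Nat.add s d93) f))
  (force (Nat.add s d94) f))
  (force (Nat.add s d95) f))
  (force (Nat.add s d96) f))
  (force (Nat.add s d97) f))
  (force (Nat.add s d98) f))
  (force (Nat.add s d99) f))
  (force (Nat.add s d100) f))
  (force (Nat.add s d101) f))
  (force (Nat.add s d102) f))
  (force (Nat.add s d103) f))
  (force (Nat.add s d104) f))
  (force (Nat.add s d105) f))
  (force (Nat.add s d106) f))
  (force (Nat.add s d107) f))
  (force (Nat.add s d108) f))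
  (force (Nat.add s d109) f))
  (force (Nat.add s d110) f))
  (force (Nat.add s d111) f))
  (force (Nat.add s d112) f))
  (force (Nat.add s d113) f)) (nat_lit 1))) (sh a (nat_lit 2))))) (rdA a r (Nat.add (Nat.shiftRight (Nat.add (Nat.shiftLeft (Nat.add (Nat.add (Nat.add (Nat.add (Nat.add (Nat.add (Nat.add (Nat.add (Nat.add (Nat.add (Nat.add (Nat.add (Nat.add (Nat.add
  (force (Nat.add s d114) f)
  (force (Nat.add s d115) f))
  (force (Nat.add s d116) f))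
  (force (Nat.add s d117) f))
  (force (Nat.add s d118) f))
  (force (Nat.add s d119) f))
  (force (Nat.add s d120) f))
  (force (Nat.add s d121) f))
  (force (Nat.add s d122) f))
  (force (Nat.add s d123) f))
  (force (Nat.add s d124) f))
  (force (Nat.add s d125) f))
  (force (Nat.add s d126) f))
  (force (Nat.add s d127) f))
  (force (Nat.add s d128) f)) (nat_lit 1)) (Nat.add (Nat.add (Nat.add (Nat.add (Nat.add (Nat.add (Nat.add (Nat.add (Nat.add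
  (force (Nat.add s d129) f)
  (force (Nat.add s d130) f))
  (force (Nat.add s d131) f))
  (force (Nat.add s d132) f))
  (force (Nat.add s d133) f))
  (force (Nat.add s d134) f))
  (force (Nat.add s d135) f))
  (force (Nat.add s d136) f))
  (force (Nat.add s d137) f))
  (force (Nat.add s d138) f))) (sh a (nat_lit 2))) (Nat.shiftRight (Nat.add (Nat.shiftLeft (Nat.add (Nat.add (Nat.add
  (force (Nat.add s d139) f)
  (force (Nat.add s d140) f))
  (force (Nat.add s d141) f))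
  (force (Nat.add s d142) f)) (nat_lit 1)) (Nat.add (Nat.add (Nat.add (Nat.add (Nat.add (Nat.add (Nat.add (Nat.add (Nat.add (Nat.add (Nat.add (Nat.add (Nat.add (Nat.add (Nat.add (Nat.add (Nat.add (Nat.add (Nat.add (Nat.add (Nat.add (Nat.add
  (force (Nat.add s d143) f)
  (force (Nat.add s d144) f))
  (force (Nat.add s d145) f))
  (force (Nat.add s d146) f))
  (force (Nat.add s d147) f))
  (force (Nat.add s d148) f))
  (force (Nat.add s d149) f))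
  (force (Nat.add s d150) f))
  (force (Nat.add s d151) f))
  (force (Nat.add s d152) f))
  (force (Nat.add s d153) f))
  (force (Nat.add s d154) f))
  (force (Nat.add s d155) f))
  (force (Nat.add s d156) f))
  (force (Nat.add s d157) f))
  (force (Nat.add s d158) f))
  (force (Nat.add s d159) f))
  (force (Nat.add s d160) f))
  (force (Nat.add s d161) f))
  (force (Nat.add s d162) f))
  (force (Nat.add s d163) f))
  (force (Nat.add s d164) f))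
  (force (Nat.add s d165) f))) (sh a (nat_lit 6)))))) (rdA a r (Nat.add (Nat.shiftRight (Nat.add (Nat.shiftLeft (Nat.add (Nat.add (Nat.add
  (force (Nat.add s d166) f)
  (force (Nat.add s d167) f))
  (force (Nat.add s d168) f))
  (force (Nat.add s d169) f)) (nat_lit 1)) (Nat.add (Nat.add (Nat.add (Nat.add (Nat.add (Nat.add (Nat.add (Nat.add (Nat.add (Nat.add (Nat.add (Nat.add (Nat.add (Nat.add (Nat.add (Nat.add (Nat.add (Nat.add (Nat.add (Nat.add (Nat.add (Nat.add (Nat.add (Nat.add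
  (force (Nat.add s d170) f)
  (force (Nat.add s d171) f))
  (force (Nat.add s d172) f))
  (force (Nat.add s d173) f))
  (force (Nat.add s d174) f))
  (force (Nat.add s d175) f))
  (force (Nat.add s d176) f))
  (force (Nat.add s d177) f))
  (force (Nat.add s d178) f))
  (force (Nat.add s d179) f))
  (force (Nat.add s d180) f))
  (force (Nat.add s d181) f))
  (force (Nat.add s d182) f))
  (force (Nat.add s d183) f))
  (force (Nat.add s d184) f))
  (force (Nat.add s d185) f))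
  (force (Nat.add s d186) f))
  (force (Nat.add s d187) f))
  (force (Nat.add s d188) f))
  (force (Nat.add s d189) f))
  (force (Nat.add s d190) f))
  (force (Nat.add s d191) f))
  (force (Nat.add s d192) f))
  (force (Nat.add s d193) f))
  (force (Nat.add s d194) f))) (sh a (nat_lit 6))) (Nat.shiftRight (Nat.add (Nat.shiftLeft (Nat.add (Nat.add (Nat.add (Nat.add (Nat.add (Nat.add (Nat.add
  (force (Nat.add s d195) f)
  (force (Nat.add s d196) f))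
  (force (Nat.add s d197) f))
  (force (Nat.add s d198) f))
  (force (Nat.add s d199) f))
  (force (Nat.add s d200) f))
  (force (Nat.add s d201) f))
  (force (Nat.add s d202) f)) (nat_lit 1)) (Nat.add (Nat.add (Nat.add (Nat.add (Nat.add (Nat.add (Nat.add (Nat.add (Nat.add (Nat.add (Nat.add (Nat.add
  (force (Nat.add s d203) f)
  (force (Nat.add s d204) f))
  (force (Nat.add s d205) f))
  (force (Nat.add s d206) f))
  (force (Nat.add s d207) f))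
  (force (Nat.add s d208) f))
  (force (Nat.add s d209) f))
  (force (Nat.add s d210) f))
  (force (Nat.add s d211) f))
  (force (Nat.add s d212) f))
  (force (Nat.add s d213) f))
  (force (Nat.add s d214) f))
  (force (Nat.add s d215) f))) (sh a (nat_lit 10))))))) := rfl

def t4B (a : Bs) (f : Nat → Nat) (s r : Nat) : Nat :=
  t4G a f s r
    (nat_lit 275616112935) (nat_lit 301486579750) (nat_lit 301788561702) (nat_lit 26474455334) 
    (nat_lit 550628237351) (nat_lit 275314130983) (nat_lit 550930219303) (nat_lit 302006567) 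
    (nat_lit 275918094887) (nat_lit 603988519) (nat_lit 576800686118) (nat_lit 26172473382) 
    (nat_lit 26776437286) (nat_lit 327659028517) (nat_lit 52344922149) (nat_lit 52646904101) 
    (nat_lit 26474447649) (nat_lit 52344914724) (nat_lit 26172458532) (nat_lit 52646903841) 
    (nat_lit 301991457) (nat_lit 26776436766) (nat_lit 603980574) (nat_lit 550829555744) 
    (nat_lit 201343008) (nat_lit 805306912) (nat_lit 52546240542) (nat_lit 550728892445) 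
    (nat_lit 100679709) (nat_lit 275515449376) (nat_lit 275817431328) (nat_lit 503324960) 
    (nat_lit 301687898143) (nat_lit 26373791775) (nat_lit 26675773727) (nat_lit 275414786077) 
    (nat_lit 4399388688424) (nat_lit 131112) (nat_lit 905977896) (nat_lit 78517371176) 
    (nat_lit 825942343719) (nat_lit 604504095) (nat_lit 302514198) (nat_lit 275716768029) 
    (nat_lit 402661661) (nat_lit 301587234844) (nat_lit 26273128476) (nat_lit 26575110428) 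
    (nat_lit 704643613) (nat_lit 52445577243) (nat_lit 275616104470) (nat_lit 301998102) 
    (nat_lit 603980054) (nat_lit 26474446869) (nat_lit 275716767769) (nat_lit 402661401) 
    (nat_lit 704643353) (nat_lit 26575110168) (nat_lit 275515441171) (nat_lit 201334803) 
    (nat_lit 503316755) (nat_lit 26373783570) (nat_lit 805306392) (nat_lit 704643093) 
    (nat_lit 503316495) (nat_lit 402653196) (nat_lit 201326598) (nat_lit 100663299) 
    (nat_lit 568076534054) (nat_lit 17448321318) (nat_lit 559352381990) (nat_lit 8724169254) 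
    (nat_lit 18052285222) (nat_lit 9328133158) (nat_lit 568177197093) (nat_lit 17548984357) 
    (nat_lit 284138938661) (nat_lit 550728892965) (nat_lit 284440920613) (nat_lit 18152948261) 
    (nat_lit 9126814245) (nat_lit 100680229) (nat_lit 704644133) (nat_lit 559553708068) 
    (nat_lit 8925495332) (nat_lit 69793218852) (nat_lit 310311387428) (nat_lit 550829556004) 
    (nat_lit 292762427686) (nat_lit 293064409638) (nat_lit 284038275622) (nat_lit 17750303270) 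
    (nat_lit 284340257574) (nat_lit 9026151206) (nat_lit 292863090725) (nat_lit 318934876453) 
    (nat_lit 559453045029) (nat_lit 293165072677) (nat_lit 43620770085) (nat_lit 17850966309) 
    (nat_lit 8824832293) (nat_lit 310210724389) (nat_lit 43922752037) (nat_lit 34896618021) 
    (nat_lit 275414786597) (nat_lit 35198599973) (nat_lit 275716768549) (nat_lit 9428796197) 
    (nat_lit 402662181) (nat_lit 319035539492) (nat_lit 43721433124) (nat_lit 284239601700) 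
    (nat_lit 44023415076) (nat_lit 284541583652) (nat_lit 275515449636) (nat_lit 9227477284) 
    (nat_lit 301587235364) (nat_lit 275817431588) (nat_lit 26273128996) (nat_lit 503325220) 
    (nat_lit 26575110948) (nat_lit 310412050467) (nat_lit 35097944099) (nat_lit 61169729827) 
    (nat_lit 301687898403) (nat_lit 35399926051) (nat_lit 26373792035) (nat_lit 26675773987) 
    (nat_lit 34997281060) (nat_lit 201343268) (nat_lit 61069066788) (nat_lit 35299263012) 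
    (nat_lit 9529459236) (nat_lit 805307172) (nat_lit 69893881891) (nat_lit 52445577763) 
    (nat_lit 61270392866) (nat_lit 52546240802) (nat_lit 284340257054) (nat_lit 9026150686) 
    (nat_lit 9328132638) (nat_lit 35198599453) (nat_lit 292963746079) (nat_lit 17649639711) 
    (nat_lit 284239594015) (nat_lit 17951621663) (nat_lit 8925487647) (nat_lit 9227469599) 
    (nat_lit 293064409118) (nat_lit 17750302750) (nat_lit 43822088478) (nat_lit 18052284702) 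
    (nat_lit 35097936414) (nat_lit 275616104990) (nat_lit 301998622) (nat_lit 603980574) 
    (nat_lit 43922751517) (nat_lit 284440920093) (nat_lit 9126813725) (nat_lit 275716768029) 
    (nat_lit 9428795677) (nat_lit 402661661) (nat_lit 26474447389) (nat_lit 704643613) 
    (nat_lit 35299262492) (nat_lit 284239593755) (nat_lit 8925487387) (nat_lit 9227469339) 
    (nat_lit 35097936154) (nat_lit 292863082780) (nat_lit 26575110428) (nat_lit 17548976412) 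
    (nat_lit 284138930716) (nat_lit 17850958364) (nat_lit 8824824348) (nat_lit 9126806300) 
    (nat_lit 292963745819) (nat_lit 17649639451) (nat_lit 43721425179) (nat_lit 17951621403) 
    (nat_lit 34997273115) (nat_lit 275515441691) (nat_lit 201335323) (nat_lit 503317275) 
    (nat_lit 43822088218) (nat_lit 284340256794) (nat_lit 9026150426) (nat_lit 275616104730) 
    (nat_lit 9328132378) (nat_lit 301998362) (nat_lit 26373784090) (nat_lit 603980314) 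
    (nat_lit 35198599193) (nat_lit 26474447129) (nat_lit 9227469079) (nat_lit 17750294805) 
    (nat_lit 9026142741) (nat_lit 17850957844) (nat_lit 402653716) (nat_lit 9227468819) 
    (nat_lit 503316755) (nat_lit 9026142481) (nat_lit 17850958104) (nat_lit 9126806040) 
    (nat_lit 17951621143) (nat_lit 503317015) (nat_lit 9328132118) (nat_lit 603980054) 
    (nat_lit 9126805780) (nat_lit 17649631506) (nat_lit 8925479442) (nat_lit 17750294545) 
    (nat_lit 301990417) (nat_lit 9126805520) (nat_lit 402653456)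

theorem t4B_eq (a : Bs) (f : Nat → Nat) (s r : Nat) :
    t4B a f s r = ex5 a (ev a r f s et4) :=
  (t4G_eq a f s r ..).trans rfl

def t4L (a : Bs) (K : Nat) (f : Nat → Nat) (s : Nat) : Nat := force (rr K s) (t4B a f s)

def et33 : EX := (EX.add (EX.add (EX.add (EX.add (EX.leaf (nat_lit 825942343719)
    (nat_lit 0) (nat_lit 0) (nat_lit 0) (nat_lit 0) (nat_lit 0) (nat_lit 0) (nat_lit 3) (nat_lit 0) (nat_lit 0) (nat_lit 0))
  (EX.leaf (nat_lit 24615)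
    (nat_lit 0) (nat_lit 0) (nat_lit 3) (nat_lit 0) (nat_lit 0) (nat_lit 0) (nat_lit 0) (nat_lit 0) (nat_lit 0) (nat_lit 0)))
  (EX.leaf (nat_lit 905970471)
    (nat_lit 0) (nat_lit 3) (nat_lit 0) (nat_lit 0) (nat_lit 27) (nat_lit 0) (nat_lit 0) (nat_lit 0) (nat_lit 0) (nat_lit 0)))
  (EX.leaf (nat_lit 78517370916)
    (nat_lit 3) (nat_lit 0) (nat_lit 0) (nat_lit 0) (nat_lit 0) (nat_lit 9) (nat_lit 0) (nat_lit 0) (nat_lit 0) (nat_lit 0)))
  (EX.shr (nat_lit 0) (nat_lit 3) (EX.dbl (EX.add (EX.leaf (nat_lit 603979794)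
    (nat_lit 9) (nat_lit 0) (nat_lit 0) (nat_lit 0) (nat_lit 18) (nat_lit 0) (nat_lit 0) (nat_lit 0) (nat_lit 0) (nat_lit 0))
  (EX.leaf (nat_lit 301989897)
    (nat_lit 18) (nat_lit 0) (nat_lit 0) (nat_lit 0) (nat_lit 9) (nat_lit 0) (nat_lit 0) (nat_lit 0) (nat_lit 0) (nat_lit 0))))))

def t33G (a : Bs) (f : Nat → Nat) (s r : Nat) (
    d1 d2 d3 d4 d5 d6 : Nat) : Nat :=
  (ex6 a r (Nat.add 
  (Nat.rec (motive := fun _ => Nat) (nat_lit 0) (fun m _ => (Nat.add 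
  (Nat.rec (motive := fun _ => Nat) (nat_lit 0) (fun m _ => (Nat.add 
  (Nat.rec (motive := fun _ => Nat) (nat_lit 0) (fun m _ => 
  (Nat.rec (motive := fun _ => Nat) (nat_lit 0) (fun k _ => (Nat.add (f m) (f k))) (Nat.succ (Nat.add s d2)))) (Nat.succ (Nat.add s d1))) (f m))) (Nat.succ (Nat.add s d3))) (f m))) (Nat.succ (Nat.add s d4))) (Nat.shiftRight (Nat.shiftLeft 
  (Nat.rec (motive := fun _ => Nat) (nat_lit 0) (fun m _ => 
  (Nat.rec (motive := fun _ => Nat) (nat_lit 0) (fun k _ => (Nat.add (f m) (f k))) (Nat.succ (Nat.add s d6)))) (Nat.succ (Nat.add s d5))) (nat_lit 1)) (sh a (nat_lit 12)))))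

theorem t33G_eq (a : Bs) (f : Nat → Nat) (s r : Nat) (
    d1 d2 d3 d4 d5 d6 : Nat) :
    t33G a f s r
    d1 d2 d3 d4 d5 d6 =
  (ex6 a r (Nat.add (Nat.add (Nat.add (Nat.add
  (force (Nat.add s d1) f)
  (force (Nat.add s d2) f))
  (force (Nat.add s d3) f))
  (force (Nat.add s d4) f)) (Nat.shiftRight (Nat.shiftLeft (Nat.add
  (force (Nat.add s d5) f)
  (force (Nat.add s d6) f)) (nat_lit 1)) (sh a (nat_lit 12))))) := rfl

def t33B (a : Bs) (f : Nat → Nat) (s r : Nat) : Nat :=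
  t33G a f s r
    (nat_lit 825942343719) (nat_lit 24615) (nat_lit 905970471) (nat_lit 78517370916) 
    (nat_lit 603979794) (nat_lit 301989897)

theorem t33B_eq (a : Bs) (f : Nat → Nat) (s r : Nat) :
    t33B a f s r = ex6 a r (ev a r f s et33) :=
  (t33G_eq a f s r ..).trans rfl

def t33L (a : Bs) (K : Nat) (f : Nat → Nat) (s : Nat) : Nat := force (rr K s) (t33B a f s)

def et3 : EX := (EX.add (EX.add (EX.add (EX.add (EX.add (EX.add (EX.leaf (nat_lit 275314114573)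
    (nat_lit 0) (nat_lit 0) (nat_lit 0) (nat_lit 0) (nat_lit 0) (nat_lit 0) (nat_lit 1) (nat_lit 0) (nat_lit 0) (nat_lit 0))
  (EX.leaf (nat_lit 8205)
    (nat_lit 0) (nat_lit 0) (nat_lit 1) (nat_lit 0) (nat_lit 0) (nat_lit 0) (nat_lit 0) (nat_lit 0) (nat_lit 0) (nat_lit 0)))
  (EX.leaf (nat_lit 301990157)
    (nat_lit 0) (nat_lit 1) (nat_lit 0) (nat_lit 0) (nat_lit 9) (nat_lit 0) (nat_lit 0) (nat_lit 0) (nat_lit 0) (nat_lit 0)))
  (EX.leaf (nat_lit 26172456972)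
    (nat_lit 1) (nat_lit 0) (nat_lit 0) (nat_lit 0) (nat_lit 0) (nat_lit 3) (nat_lit 0) (nat_lit 0) (nat_lit 0) (nat_lit 0)))
  (EX.shr (nat_lit 1) (nat_lit 0) (EX.add (EX.leaf (nat_lit 8824815883)
    (nat_lit 1) (nat_lit 1) (nat_lit 0) (nat_lit 0) (nat_lit 3) (nat_lit 1) (nat_lit 0) (nat_lit 0) (nat_lit 0) (nat_lit 0))
  (EX.dbl (EX.add (EX.add (EX.add (EX.add (EX.add (EX.leaf (nat_lit 17448304908)
    (nat_lit 0) (nat_lit 1) (nat_lit 0) (nat_lit 0) (nat_lit 0) (nat_lit 2) (nat_lit 0) (nat_lit 0) (nat_lit 0) (nat_lit 0))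
  (EX.leaf (nat_lit 8724152844)
    (nat_lit 0) (nat_lit 2) (nat_lit 0) (nat_lit 0) (nat_lit 0) (nat_lit 1) (nat_lit 0) (nat_lit 0) (nat_lit 0) (nat_lit 0)))
  (EX.leaf (nat_lit 17548967947)
    (nat_lit 1) (nat_lit 0) (nat_lit 0) (nat_lit 0) (nat_lit 3) (nat_lit 2) (nat_lit 0) (nat_lit 0) (nat_lit 0) (nat_lit 0)))
  (EX.leaf (nat_lit 100663819)
    (nat_lit 1) (nat_lit 2) (nat_lit 0) (nat_lit 0) (nat_lit 3) (nat_lit 0) (nat_lit 0) (nat_lit 0) (nat_lit 0) (nat_lit 0)))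
  (EX.leaf (nat_lit 8925478922)
    (nat_lit 2) (nat_lit 0) (nat_lit 0) (nat_lit 0) (nat_lit 6) (nat_lit 1) (nat_lit 0) (nat_lit 0) (nat_lit 0) (nat_lit 0)))
  (EX.leaf (nat_lit 201326858)
    (nat_lit 2) (nat_lit 1) (nat_lit 0) (nat_lit 0) (nat_lit 6) (nat_lit 0) (nat_lit 0) (nat_lit 0) (nat_lit 0) (nat_lit 0)))))))
  (EX.mk2 (EX.shr (nat_lit 2) (nat_lit 0) (EX.add (EX.dbl (EX.add (EX.add (EX.add (EX.add (EX.add (EX.leaf (nat_lit 8791261450)
    (nat_lit 1) (nat_lit 1) (nat_lit 0) (nat_lit 0) (nat_lit 2) (nat_lit 1) (nat_lit 0) (nat_lit 0) (nat_lit 0) (nat_lit 0))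
  (EX.leaf (nat_lit 8891924489)
    (nat_lit 2) (nat_lit 0) (nat_lit 0) (nat_lit 0) (nat_lit 5) (nat_lit 1) (nat_lit 0) (nat_lit 0) (nat_lit 0) (nat_lit 0)))
  (EX.leaf (nat_lit 8757707017)
    (nat_lit 2) (nat_lit 1) (nat_lit 0) (nat_lit 0) (nat_lit 1) (nat_lit 1) (nat_lit 0) (nat_lit 0) (nat_lit 0) (nat_lit 0)))
  (EX.leaf (nat_lit 167772425)
    (nat_lit 2) (nat_lit 1) (nat_lit 0) (nat_lit 0) (nat_lit 5) (nat_lit 0) (nat_lit 0) (nat_lit 0) (nat_lit 0) (nat_lit 0)))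
  (EX.leaf (nat_lit 8858370056)
    (nat_lit 3) (nat_lit 0) (nat_lit 0) (nat_lit 0) (nat_lit 4) (nat_lit 1) (nat_lit 0) (nat_lit 0) (nat_lit 0) (nat_lit 0)))
  (EX.leaf (nat_lit 134217992)
    (nat_lit 3) (nat_lit 1) (nat_lit 0) (nat_lit 0) (nat_lit 4) (nat_lit 0) (nat_lit 0) (nat_lit 0) (nat_lit 0) (nat_lit 0))))
  (EX.add (EX.add (EX.add (EX.add (EX.add (EX.leaf (nat_lit 17515413514)
    (nat_lit 1) (nat_lit 0) (nat_lit 0) (nat_lit 0) (nat_lit 2) (nat_lit 2) (nat_lit 0) (nat_lit 0) (nat_lit 0) (nat_lit 0))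
  (EX.leaf (nat_lit 67109386)
    (nat_lit 1) (nat_lit 2) (nat_lit 0) (nat_lit 0) (nat_lit 2) (nat_lit 0) (nat_lit 0) (nat_lit 0) (nat_lit 0) (nat_lit 0)))
  (EX.leaf (nat_lit 17481859081)
    (nat_lit 2) (nat_lit 0) (nat_lit 0) (nat_lit 0) (nat_lit 1) (nat_lit 2) (nat_lit 0) (nat_lit 0) (nat_lit 0) (nat_lit 0)))
  (EX.leaf (nat_lit 33554953)
    (nat_lit 2) (nat_lit 2) (nat_lit 0) (nat_lit 0) (nat_lit 1) (nat_lit 0) (nat_lit 0) (nat_lit 0) (nat_lit 0) (nat_lit 0)))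
  (EX.leaf (nat_lit 268435464)
    (nat_lit 3) (nat_lit 0) (nat_lit 0) (nat_lit 0) (nat_lit 8) (nat_lit 0) (nat_lit 0) (nat_lit 0) (nat_lit 0) (nat_lit 0)))
  (EX.leaf (nat_lit 234881031)
    (nat_lit 4) (nat_lit 0) (nat_lit 0) (nat_lit 0) (nat_lit 7) (nat_lit 0) (nat_lit 0) (nat_lit 0) (nat_lit 0) (nat_lit 0)))))))
  (EX.shr (nat_lit 0) (nat_lit 1) (EX.dbl (EX.add (EX.leaf (nat_lit 201326598)
    (nat_lit 3) (nat_lit 0) (nat_lit 0) (nat_lit 0) (nat_lit 6) (nat_lit 0) (nat_lit 0) (nat_lit 0) (nat_lit 0) (nat_lit 0))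
  (EX.leaf (nat_lit 100663299)
    (nat_lit 6) (nat_lit 0) (nat_lit 0) (nat_lit 0) (nat_lit 3) (nat_lit 0) (nat_lit 0) (nat_lit 0) (nat_lit 0) (nat_lit 0))))))

def t3G (a : Bs) (f : Nat → Nat) (s r : Nat) (
    d1 d2 d3 d4 d5 d6 d7 d8 d9 d10 d11 d12 d13 d14 d15 d16 d17 d18 d19 d20 d21 d22 d23 d24 d25 : Nat) : Nat :=
  (red9 a r (Nat.add (Nat.add (Nat.add 
  (Nat.rec (motive := fun _ => Nat) (nat_lit 0) (fun m _ => (Nat.add 
  (Nat.rec (motive := fun _ => Nat) (nat_lit 0) (fun m _ => (Nat.add 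
  (Nat.rec (motive := fun _ => Nat) (nat_lit 0) (fun m _ => 
  (Nat.rec (motive := fun _ => Nat) (nat_lit 0) (fun k _ => (Nat.add (f m) (f k))) (Nat.succ (Nat.add s d2)))) (Nat.succ (Nat.add s d1))) (f m))) (Nat.succ (Nat.add s d3))) (f m))) (Nat.succ (Nat.add s d4))) (Nat.shiftRight 
  (Nat.rec (motive := fun _ => Nat) (nat_lit 0) (fun m _ => (Nat.add (f m) (Nat.shiftLeft 
  (Nat.rec (motive := fun _ => Nat) (nat_lit 0) (fun m _ => (Nat.add 
  (Nat.rec (motive := fun _ => Nat) (nat_lit 0) (fun m _ => (Nat.add 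
  (Nat.rec (motive := fun _ => Nat) (nat_lit 0) (fun m _ => (Nat.add 
  (Nat.rec (motive := fun _ => Nat) (nat_lit 0) (fun m _ => (Nat.add 
  (Nat.rec (motive := fun _ => Nat) (nat_lit 0) (fun m _ => 
  (Nat.rec (motive := fun _ => Nat) (nat_lit 0) (fun k _ => (Nat.add (f m) (f k))) (Nat.succ (Nat.add s d7)))) (Nat.succ (Nat.add s d6))) (f m))) (Nat.succ (Nat.add s d8))) (f m))) (Nat.succ (Nat.add s d9))) (f m))) (Nat.succ (Nat.add s d10))) (f m))) (Nat.succ (Nat.add s d11))) (nat_lit 1)))) (Nat.succ (Nat.add s d5))) (sh a (nat_lit 1)))) (Nat.land (Nat.shiftRight (Nat.add (Nat.shiftLeft 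
  (Nat.rec (motive := fun _ => Nat) (nat_lit 0) (fun m _ => (Nat.add 
  (Nat.rec (motive := fun _ => Nat) (nat_lit 0) (fun m _ => (Nat.add 
  (Nat.rec (motive := fun _ => Nat) (nat_lit 0) (fun m _ => (Nat.add 
  (Nat.rec (motive := fun _ => Nat) (nat_lit 0) (fun m _ => (Nat.add 
  (Nat.rec (motive := fun _ => Nat) (nat_lit 0) (fun m _ => 
  (Nat.rec (motive := fun _ => Nat) (nat_lit 0) (fun k _ => (Nat.add (f m) (f k))) (Nat.succ (Nat.add s d13)))) (Nat.succ (Nat.add s d12))) (f m))) (Nat.succ (Nat.add s d14))) (f m))) (Nat.succ (Nat.add s d15))) (f m))) (Nat.succ (Nat.add s d16))) (f m))) (Nat.succ (Nat.add s d17))) (nat_lit 1)) 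
  (Nat.rec (motive := fun _ => Nat) (nat_lit 0) (fun m _ => (Nat.add 
  (Nat.rec (motive := fun _ => Nat) (nat_lit 0) (fun m _ => (Nat.add 
  (Nat.rec (motive := fun _ => Nat) (nat_lit 0) (fun m _ => (Nat.add 
  (Nat.rec (motive := fun _ => Nat) (nat_lit 0) (fun m _ => (Nat.add 
  (Nat.rec (motive := fun _ => Nat) (nat_lit 0) (fun m _ => 
  (Nat.rec (motive := fun _ => Nat) (nat_lit 0) (fun k _ => (Nat.add (f m) (f k))) (Nat.succ (Nat.add s d19)))) (Nat.succ (Nat.add s d18))) (f m))) (Nat.succ (Nat.add s d20))) (f m))) (Nat.succ (Nat.add s d21))) (f m))) (Nat.succ (Nat.add s d22))) (f m))) (Nat.succ (Nat.add s d23)))) (sh a (nat_lit 2))) (mA2 a))) (Nat.shiftRight (Nat.shiftLeft 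
  (Nat.rec (motive := fun _ => Nat) (nat_lit 0) (fun m _ => 
  (Nat.rec (motive := fun _ => Nat) (nat_lit 0) (fun k _ => (Nat.add (f m) (f k))) (Nat.succ (Nat.add s d25)))) (Nat.succ (Nat.add s d24))) (nat_lit 1)) (sh a (nat_lit 4)))))

theorem t3G_eq (a : Bs) (f : Nat → Nat) (s r : Nat) (
    d1 d2 d3 d4 d5 d6 d7 d8 d9 d10 d11 d12 d13 d14 d15 d16 d17 d18 d19 d20 d21 d22 d23 d24 d25 : Nat) :
    t3G a f s r
    d1 d2 d3 d4 d5 d6 d7 d8 d9 d10 d11 d12 d13 d14 d15 d16 d17 d18 d19 d20 d21 d22 d23 d24 d25 =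
  (red9 a r (Nat.add (Nat.add (Nat.add (Nat.add (Nat.add (Nat.add
  (force (Nat.add s d1) f)
  (force (Nat.add s d2) f))
  (force (Nat.add s d3) f))
  (force (Nat.add s d4) f)) (Nat.shiftRight (Nat.add
  (force (Nat.add s d5) f) (Nat.shiftLeft (Nat.add (Nat.add (Nat.add (Nat.add (Nat.add
  (force (Nat.add s d6) f)
  (force (Nat.add s d7) f))
  (force (Nat.add s d8) f))
  (force (Nat.add s d9) f))
  (force (Nat.add s d10) f))
  (force (Nat.add s d11) f)) (nat_lit 1))) (sh a (nat_lit 1)))) (Nat.land (Nat.shiftRight (Nat.add (Nat.shiftLeft (Nat.add (Nat.add (Nat.add (Nat.add (Nat.add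
  (force (Nat.add s d12) f)
  (force (Nat.add s d13) f))
  (force (Nat.add s d14) f))
  (force (Nat.add s d15) f))
  (force (Nat.add s d16) f))
  (force (Nat.add s d17) f)) (nat_lit 1)) (Nat.add (Nat.add (Nat.add (Nat.add (Nat.add
  (force (Nat.add s d18) f)
  (force (Nat.add s d19) f))
  (force (Nat.add s d20) f))
  (force (Nat.add s d21) f))
  (force (Nat.add s d22) f))
  (force (Nat.add s d23) f))) (sh a (nat_lit 2))) (mA2 a))) (Nat.shiftRight (Nat.shiftLeft (Nat.add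
  (force (Nat.add s d24) f)
  (force (Nat.add s d25) f)) (nat_lit 1)) (sh a (nat_lit 4))))) := rfl

def t3B (a : Bs) (f : Nat → Nat) (s r : Nat) : Nat :=
  t3G a f s r
    (nat_lit 275314114573) (nat_lit 8205) (nat_lit 301990157) (nat_lit 26172456972) 
    (nat_lit 8824815883) (nat_lit 17448304908) (nat_lit 8724152844) (nat_lit 17548967947) 
    (nat_lit 100663819) (nat_lit 8925478922) (nat_lit 201326858) (nat_lit 8791261450) 
    (nat_lit 8891924489) (nat_lit 8757707017) (nat_lit 167772425) (nat_lit 8858370056) 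
    (nat_lit 134217992) (nat_lit 17515413514) (nat_lit 67109386) (nat_lit 17481859081) 
    (nat_lit 33554953) (nat_lit 268435464) (nat_lit 234881031) (nat_lit 201326598) 
    (nat_lit 100663299)

theorem t3B_eq (a : Bs) (f : Nat → Nat) (s r : Nat) :
    t3B a f s r = red9 a r (ev a r f s et3) :=
  (t3G_eq a f s r ..).trans rfl

def t3L (a : Bs) (K : Nat) (f : Nat → Nat) (s : Nat) : Nat := force (rr K s) (t3B a f s)

def et29 : EX := (EX.add (EX.add (EX.leaf (nat_lit 78517370916)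
    (nat_lit 0) (nat_lit 0) (nat_lit 0) (nat_lit 0) (nat_lit 0) (nat_lit 9) (nat_lit 0) (nat_lit 0) (nat_lit 0) (nat_lit 0))
  (EX.leaf (nat_lit 2340)
    (nat_lit 0) (nat_lit 9) (nat_lit 0) (nat_lit 0) (nat_lit 0) (nat_lit 0) (nat_lit 0) (nat_lit 0) (nat_lit 0) (nat_lit 0)))
  (EX.leaf (nat_lit 905969691)
    (nat_lit 9) (nat_lit 0) (nat_lit 0) (nat_lit 0) (nat_lit 27) (nat_lit 0) (nat_lit 0) (nat_lit 0) (nat_lit 0) (nat_lit 0)))

def t29G (a : Bs) (f : Nat → Nat) (s r : Nat) (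
    d1 d2 d3 : Nat) : Nat :=
  (ex6 a r 
  (Nat.rec (motive := fun _ => Nat) (nat_lit 0) (fun m _ => (Nat.add 
  (Nat.rec (motive := fun _ => Nat) (nat_lit 0) (fun m _ => 
  (Nat.rec (motive := fun _ => Nat) (nat_lit 0) (fun k _ => (Nat.add (f m) (f k))) (Nat.succ (Nat.add s d2)))) (Nat.succ (Nat.add s d1))) (f m))) (Nat.succ (Nat.add s d3))))

theorem t29G_eq (a : Bs) (f : Nat → Nat) (s r : Nat) (
    d1 d2 d3 : Nat) :
    t29G a f s r
    d1 d2 d3 =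
  (ex6 a r (Nat.add (Nat.add
  (force (Nat.add s d1) f)
  (force (Nat.add s d2) f))
  (force (Nat.add s d3) f))) := rfl

def t29B (a : Bs) (f : Nat → Nat) (s r : Nat) : Nat :=
  t29G a f s r
    (nat_lit 78517370916) (nat_lit 2340) (nat_lit 905969691)

theorem t29B_eq (a : Bs) (f : Nat → Nat) (s r : Nat) :
    t29B a f s r = ex6 a r (ev a r f s et29) :=
  (t29G_eq a f s r ..).trans rfl

def t29L (a : Bs) (K : Nat) (f : Nat → Nat) (s : Nat) : Nat := force (rr K s) (t29B a f s)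

def et23 : EX := (EX.add (EX.add (EX.leaf (nat_lit 26172456972)
    (nat_lit 0) (nat_lit 0) (nat_lit 0) (nat_lit 0) (nat_lit 0) (nat_lit 3) (nat_lit 0) (nat_lit 0) (nat_lit 0) (nat_lit 0))
  (EX.leaf (nat_lit 780)
    (nat_lit 0) (nat_lit 3) (nat_lit 0) (nat_lit 0) (nat_lit 0) (nat_lit 0) (nat_lit 0) (nat_lit 0) (nat_lit 0) (nat_lit 0)))
  (EX.leaf (nat_lit 301989897)
    (nat_lit 3) (nat_lit 0) (nat_lit 0) (nat_lit 0) (nat_lit 9) (nat_lit 0) (nat_lit 0) (nat_lit 0) (nat_lit 0) (nat_lit 0)))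

def t23G (a : Bs) (f : Nat → Nat) (s r : Nat) (
    d1 d2 d3 : Nat) : Nat :=
  (ex6 a r 
  (Nat.rec (motive := fun _ => Nat) (nat_lit 0) (fun m _ => (Nat.add 
  (Nat.rec (motive := fun _ => Nat) (nat_lit 0) (fun m _ => 
  (Nat.rec (motive := fun _ => Nat) (nat_lit 0) (fun k _ => (Nat.add (f m) (f k))) (Nat.succ (Nat.add s d2)))) (Nat.succ (Nat.add s d1))) (f m))) (Nat.succ (Nat.add s d3))))

theorem t23G_eq (a : Bs) (f : Nat → Nat) (s r : Nat) (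
    d1 d2 d3 : Nat) :
    t23G a f s r
    d1 d2 d3 =
  (ex6 a r (Nat.add (Nat.add
  (force (Nat.add s d1) f)
  (force (Nat.add s d2) f))
  (force (Nat.add s d3) f))) := rfl

def t23B (a : Bs) (f : Nat → Nat) (s r : Nat) : Nat :=
  t23G a f s r
    (nat_lit 26172456972) (nat_lit 780) (nat_lit 301989897)

theorem t23B_eq (a : Bs) (f : Nat → Nat) (s r : Nat) :
    t23B a f s r = ex6 a r (ev a r f s et23) :=
  (t23G_eq a f s r ..).trans rfl

def t23L (a : Bs) (K : Nat) (f : Nat → Nat) (s : Nat) : Nat := force (rr K s) (t23B a f s)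

def et2 : EX := (EX.add (EX.add (EX.add (EX.leaf (nat_lit 8724152324)
    (nat_lit 0) (nat_lit 0) (nat_lit 0) (nat_lit 0) (nat_lit 0) (nat_lit 1) (nat_lit 0) (nat_lit 0) (nat_lit 0) (nat_lit 0))
  (EX.leaf (nat_lit 260)
    (nat_lit 0) (nat_lit 1) (nat_lit 0) (nat_lit 0) (nat_lit 0) (nat_lit 0) (nat_lit 0) (nat_lit 0) (nat_lit 0) (nat_lit 0)))
  (EX.leaf (nat_lit 100663299)
    (nat_lit 1) (nat_lit 0) (nat_lit 0) (nat_lit 0) (nat_lit 3) (nat_lit 0) (nat_lit 0) (nat_lit 0) (nat_lit 0) (nat_lit 0)))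
  (EX.shr (nat_lit 1) (nat_lit 0) (EX.dbl (EX.add (EX.leaf (nat_lit 67108866)
    (nat_lit 1) (nat_lit 0) (nat_lit 0) (nat_lit 0) (nat_lit 2) (nat_lit 0) (nat_lit 0) (nat_lit 0) (nat_lit 0) (nat_lit 0))
  (EX.leaf (nat_lit 33554433)
    (nat_lit 2) (nat_lit 0) (nat_lit 0) (nat_lit 0) (nat_lit 1) (nat_lit 0) (nat_lit 0) (nat_lit 0) (nat_lit 0) (nat_lit 0))))))

def t2G (a : Bs) (f : Nat → Nat) (s r : Nat) (
    d1 d2 d3 d4 d5 : Nat) : Nat :=
  (ex6 a r (Nat.add 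
  (Nat.rec (motive := fun _ => Nat) (nat_lit 0) (fun m _ => (Nat.add 
  (Nat.rec (motive := fun _ => Nat) (nat_lit 0) (fun m _ => 
  (Nat.rec (motive := fun _ => Nat) (nat_lit 0) (fun k _ => (Nat.add (f m) (f k))) (Nat.succ (Nat.add s d2)))) (Nat.succ (Nat.add s d1))) (f m))) (Nat.succ (Nat.add s d3))) (Nat.shiftRight (Nat.shiftLeft 
  (Nat.rec (motive := fun _ => Nat) (nat_lit 0) (fun m _ => 
  (Nat.rec (motive := fun _ => Nat) (nat_lit 0) (fun k _ => (Nat.add (f m) (f k))) (Nat.succ (Nat.add s d5)))) (Nat.succ (Nat.add s d4))) (nat_lit 1)) (sh a (nat_lit 1)))))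

theorem t2G_eq (a : Bs) (f : Nat → Nat) (s r : Nat) (
    d1 d2 d3 d4 d5 : Nat) :
    t2G a f s r
    d1 d2 d3 d4 d5 =
  (ex6 a r (Nat.add (Nat.add (Nat.add
  (force (Nat.add s d1) f)
  (force (Nat.add s d2) f))
  (force (Nat.add s d3) f)) (Nat.shiftRight (Nat.shiftLeft (Nat.add
  (force (Nat.add s d4) f)
  (force (Nat.add s d5) f)) (nat_lit 1)) (sh a (nat_lit 1))))) := rfl

def t2B (a : Bs) (f : Nat → Nat) (s r : Nat) : Nat :=
  t2G a f s r
    (nat_lit 8724152324) (nat_lit 260) (nat_lit 100663299) (nat_lit 67108866) (nat_lit 33554433)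

theorem t2B_eq (a : Bs) (f : Nat → Nat) (s r : Nat) :
    t2B a f s r = ex6 a r (ev a r f s et2) :=
  (t2G_eq a f s r ..).trans rfl

def t2L (a : Bs) (K : Nat) (f : Nat → Nat) (s : Nat) : Nat := force (rr K s) (t2B a f s)

def eh4 : EX := (EX.add (EX.add (EX.add (EX.add (EX.add (EX.add (EX.add (EX.add (EX.add (EX.add (EX.add (EX.add (EX.shr (nat_lit 0) (nat_lit 1) (EX.leaf (nat_lit 2340)
    (nat_lit 0) (nat_lit 9) (nat_lit 0) (nat_lit 0) (nat_lit 0) (nat_lit 0) (nat_lit 0) (nat_lit 0) (nat_lit 0) (nat_lit 0)))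
  (EX.shr (nat_lit 1) (nat_lit 0) (EX.leaf (nat_lit 24615)
    (nat_lit 0) (nat_lit 0) (nat_lit 3) (nat_lit 0) (nat_lit 0) (nat_lit 0) (nat_lit 0) (nat_lit 0) (nat_lit 0) (nat_lit 0))))
  (EX.shr (nat_lit 1) (nat_lit 3) (EX.leaf (nat_lit 1048602)
    (nat_lit 1) (nat_lit 0) (nat_lit 0) (nat_lit 0) (nat_lit 0) (nat_lit 0) (nat_lit 0) (nat_lit 0) (nat_lit 2) (nat_lit 0))))
  (EX.shr (nat_lit 1) (nat_lit 6) (EX.dbl (EX.leaf (nat_lit 524301)
    (nat_lit 2) (nat_lit 0) (nat_lit 0) (nat_lit 0) (nat_lit 0) (nat_lit 0) (nat_lit 0) (nat_lit 0) (nat_lit 1) (nat_lit 0)))))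
  (EX.shr (nat_lit 0) (nat_lit 9) (EX.add (EX.dbl (EX.leaf (nat_lit 260)
    (nat_lit 0) (nat_lit 1) (nat_lit 0) (nat_lit 0) (nat_lit 0) (nat_lit 0) (nat_lit 0) (nat_lit 0) (nat_lit 0) (nat_lit 0)))
  (EX.leaf (nat_lit 0)
    (nat_lit 4) (nat_lit 0) (nat_lit 0) (nat_lit 0) (nat_lit 0) (nat_lit 0) (nat_lit 0) (nat_lit 0) (nat_lit 0) (nat_lit 0)))))
  (EX.shr (nat_lit 1) (nat_lit 1) (EX.dbl (EX.leaf (nat_lit 1048602)
    (nat_lit 9) (nat_lit 0) (nat_lit 0) (nat_lit 0) (nat_lit 0) (nat_lit 0) (nat_lit 0) (nat_lit 0) (nat_lit 2) (nat_lit 0)))))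
  (EX.shr (nat_lit 1) (nat_lit 4) (EX.dbl (EX.leaf (nat_lit 524301)
    (nat_lit 10) (nat_lit 0) (nat_lit 0) (nat_lit 0) (nat_lit 0) (nat_lit 0) (nat_lit 0) (nat_lit 0) (nat_lit 1) (nat_lit 0)))))
  (EX.shr (nat_lit 1) (nat_lit 7) (EX.dbl (EX.leaf (nat_lit 0)
    (nat_lit 11) (nat_lit 0) (nat_lit 0) (nat_lit 0) (nat_lit 0) (nat_lit 0) (nat_lit 0) (nat_lit 0) (nat_lit 0) (nat_lit 0)))))
  (EX.shr (nat_lit 1) (nat_lit 2) (EX.dbl (EX.leaf (nat_lit 524301)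
    (nat_lit 18) (nat_lit 0) (nat_lit 0) (nat_lit 0) (nat_lit 0) (nat_lit 0) (nat_lit 0) (nat_lit 0) (nat_lit 1) (nat_lit 0)))))
  (EX.mk2 (EX.add (EX.add (EX.add (EX.add (EX.add (EX.shr (nat_lit 2) (nat_lit 0) (EX.dbl (EX.leaf (nat_lit 1049382)
    (nat_lit 0) (nat_lit 3) (nat_lit 0) (nat_lit 0) (nat_lit 0) (nat_lit 0) (nat_lit 0) (nat_lit 0) (nat_lit 2) (nat_lit 0))))
  (EX.shr (nat_lit 2) (nat_lit 3) (EX.dbl (EX.leaf (nat_lit 525081)
    (nat_lit 1) (nat_lit 3) (nat_lit 0) (nat_lit 0) (nat_lit 0) (nat_lit 0) (nat_lit 0) (nat_lit 0) (nat_lit 1) (nat_lit 0)))))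
  (EX.shr (nat_lit 2) (nat_lit 6) (EX.dbl (EX.leaf (nat_lit 780)
    (nat_lit 2) (nat_lit 3) (nat_lit 0) (nat_lit 0) (nat_lit 0) (nat_lit 0) (nat_lit 0) (nat_lit 0) (nat_lit 0) (nat_lit 0)))))
  (EX.shr (nat_lit 2) (nat_lit 1) (EX.leaf (nat_lit 525081)
    (nat_lit 9) (nat_lit 3) (nat_lit 0) (nat_lit 0) (nat_lit 0) (nat_lit 0) (nat_lit 0) (nat_lit 0) (nat_lit 1) (nat_lit 0))))
  (EX.shr (nat_lit 2) (nat_lit 4) (EX.dbl (EX.leaf (nat_lit 780)
    (nat_lit 10) (nat_lit 3) (nat_lit 0) (nat_lit 0) (nat_lit 0) (nat_lit 0) (nat_lit 0) (nat_lit 0) (nat_lit 0) (nat_lit 0)))))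
  (EX.shr (nat_lit 2) (nat_lit 2) (EX.dbl (EX.leaf (nat_lit 780)
    (nat_lit 18) (nat_lit 3) (nat_lit 0) (nat_lit 0) (nat_lit 0) (nat_lit 0) (nat_lit 0) (nat_lit 0) (nat_lit 0) (nat_lit 0)))))))
  (EX.shr (nat_lit 1) (nat_lit 5) (EX.leaf (nat_lit 0)
    (nat_lit 19) (nat_lit 0) (nat_lit 0) (nat_lit 0) (nat_lit 0) (nat_lit 0) (nat_lit 0) (nat_lit 0) (nat_lit 0) (nat_lit 0))))
  (EX.add (EX.dbl (EX.leaf (nat_lit 1572903)
    (nat_lit 1) (nat_lit 0) (nat_lit 0) (nat_lit 0) (nat_lit 0) (nat_lit 0) (nat_lit 0) (nat_lit 0) (nat_lit 3) (nat_lit 0)))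
  (EX.add (EX.leaf (nat_lit 8388648)
    (nat_lit 0) (nat_lit 0) (nat_lit 0) (nat_lit 0) (nat_lit 0) (nat_lit 0) (nat_lit 0) (nat_lit 0) (nat_lit 0) (nat_lit 1))
  (EX.leaf (nat_lit 524301)
    (nat_lit 27) (nat_lit 0) (nat_lit 0) (nat_lit 0) (nat_lit 0) (nat_lit 0) (nat_lit 0) (nat_lit 0) (nat_lit 1) (nat_lit 0)))))
  (EX.shr (nat_lit 0) (nat_lit 3) (EX.dbl (EX.leaf (nat_lit 0)
    (nat_lit 28) (nat_lit 0) (nat_lit 0) (nat_lit 0) (nat_lit 0) (nat_lit 0) (nat_lit 0) (nat_lit 0) (nat_lit 0) (nat_lit 0)))))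

def h4G (a : Bs) (f : Nat → Nat) (s r : Nat) (
    d1 d2 d3 d4 d5 d6 d7 d8 d9 d10 d11 d12 d13 d14 d15 d16 d17 : Nat) : Nat :=
  (red9 a r (Nat.add (Nat.add (Nat.add (Nat.add (Nat.add (Nat.add (Nat.add (Nat.add (Nat.add (Nat.add (Nat.add (Nat.add 
  (Nat.rec (motive := fun _ => Nat) (nat_lit 0) (fun m _ => (Nat.shiftRight (f m) (sh a (nat_lit 4)))) (Nat.succ (Nat.add s d1))) 
  (Nat.rec (motive := fun _ => Nat) (nat_lit 0) (fun m _ => (Nat.shiftRight (f m) (sh a (nat_lit 1)))) (Nat.succ (Nat.add s d2)))) 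
  (Nat.rec (motive := fun _ => Nat) (nat_lit 0) (fun m _ => (Nat.shiftRight (f m) (sh a (nat_lit 13)))) (Nat.succ (Nat.add s d3)))) (Nat.shiftRight 
  (Nat.rec (motive := fun _ => Nat) (nat_lit 0) (fun m _ => (Nat.shiftLeft (f m) (nat_lit 1))) (Nat.succ (Nat.add s d4))) (sh a (nat_lit 25)))) (Nat.shiftRight (Nat.add 
  (Nat.rec (motive := fun _ => Nat) (nat_lit 0) (fun m _ => (Nat.shiftLeft (f m) (nat_lit 1))) (Nat.succ (Nat.add s d5))) (f s)) (sh a (nat_lit 36)))) (Nat.shiftRight 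
  (Nat.rec (motive := fun _ => Nat) (nat_lit 0) (fun m _ => (Nat.shiftLeft (f m) (nat_lit 1))) (Nat.succ (Nat.add s d6))) (sh a (nat_lit 5)))) (Nat.shiftRight 
  (Nat.rec (motive := fun _ => Nat) (nat_lit 0) (fun m _ => (Nat.shiftLeft (f m) (nat_lit 1))) (Nat.succ (Nat.add s d7))) (sh a (nat_lit 17)))) (Nat.shiftRight (Nat.shiftLeft (f s) (nat_lit 1)) (sh a (nat_lit 29)))) (Nat.shiftRight 
  (Nat.rec (motive := fun _ => Nat) (nat_lit 0) (fun m _ => (Nat.shiftLeft (f m) (nat_lit 1))) (Nat.succ (Nat.add s d8))) (sh a (nat_lit 9)))) (Nat.land (Nat.add (Nat.add (Nat.add (Nat.add (Nat.add (Nat.shiftRight 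
  (Nat.rec (motive := fun _ => Nat) (nat_lit 0) (fun m _ => (Nat.shiftLeft (f m) (nat_lit 1))) (Nat.succ (Nat.add s d9))) (sh a (nat_lit 2))) (Nat.shiftRight 
  (Nat.rec (motive := fun _ => Nat) (nat_lit 0) (fun m _ => (Nat.shiftLeft (f m) (nat_lit 1))) (Nat.succ (Nat.add s d10))) (sh a (nat_lit 14)))) (Nat.shiftRight 
  (Nat.rec (motive := fun _ => Nat) (nat_lit 0) (fun m _ => (Nat.shiftLeft (f m) (nat_lit 1))) (Nat.succ (Nat.add s d11))) (sh a (nat_lit 26)))) 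
  (Nat.rec (motive := fun _ => Nat) (nat_lit 0) (fun m _ => (Nat.shiftRight (f m) (sh a (nat_lit 6)))) (Nat.succ (Nat.add s d12)))) (Nat.shiftRight 
  (Nat.rec (motive := fun _ => Nat) (nat_lit 0) (fun m _ => (Nat.shiftLeft (f m) (nat_lit 1))) (Nat.succ (Nat.add s d13))) (sh a (nat_lit 18)))) (Nat.shiftRight 
  (Nat.rec (motive := fun _ => Nat) (nat_lit 0) (fun m _ => (Nat.shiftLeft (f m) (nat_lit 1))) (Nat.succ (Nat.add s d14))) (sh a (nat_lit 10)))) (mA2 a))) (Nat.shiftRight (f s) (sh a (nat_lit 21)))) (Nat.add 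
  (Nat.rec (motive := fun _ => Nat) (nat_lit 0) (fun m _ => (Nat.shiftLeft (f m) (nat_lit 1))) (Nat.succ (Nat.add s d15))) 
  (Nat.rec (motive := fun _ => Nat) (nat_lit 0) (fun m _ => 
  (Nat.rec (motive := fun _ => Nat) (nat_lit 0) (fun k _ => (Nat.add (f m) (f k))) (Nat.succ (Nat.add s d17)))) (Nat.succ (Nat.add s d16))))) (Nat.shiftRight (Nat.shiftLeft (f s) (nat_lit 1)) (sh a (nat_lit 12)))))

theorem h4G_eq (a : Bs) (f : Nat → Nat) (s r : Nat) (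
    d1 d2 d3 d4 d5 d6 d7 d8 d9 d10 d11 d12 d13 d14 d15 d16 d17 : Nat) :
    h4G a f s r
    d1 d2 d3 d4 d5 d6 d7 d8 d9 d10 d11 d12 d13 d14 d15 d16 d17 =
  (red9 a r (Nat.add (Nat.add (Nat.add (Nat.add (Nat.add (Nat.add (Nat.add (Nat.add (Nat.add (Nat.add (Nat.add (Nat.add (Nat.shiftRight
  (force (Nat.add s d1) f) (sh a (nat_lit 4))) (Nat.shiftRight
  (force (Nat.add s d2) f) (sh a (nat_lit 1)))) (Nat.shiftRight
  (force (Nat.add s d3) f) (sh a (nat_lit 13)))) (Nat.shiftRight (Nat.shiftLeft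
  (force (Nat.add s d4) f) (nat_lit 1)) (sh a (nat_lit 25)))) (Nat.shiftRight (Nat.add (Nat.shiftLeft
  (force (Nat.add s d5) f) (nat_lit 1)) (f s)) (sh a (nat_lit 36)))) (Nat.shiftRight (Nat.shiftLeft
  (force (Nat.add s d6) f) (nat_lit 1)) (sh a (nat_lit 5)))) (Nat.shiftRight (Nat.shiftLeft
  (force (Nat.add s d7) f) (nat_lit 1)) (sh a (nat_lit 17)))) (Nat.shiftRight (Nat.shiftLeft (f s) (nat_lit 1)) (sh a (nat_lit 29)))) (Nat.shiftRight (Nat.shiftLeft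
  (force (Nat.add s d8) f) (nat_lit 1)) (sh a (nat_lit 9)))) (Nat.land (Nat.add (Nat.add (Nat.add (Nat.add (Nat.add (Nat.shiftRight (Nat.shiftLeft
  (force (Nat.add s d9) f) (nat_lit 1)) (sh a (nat_lit 2))) (Nat.shiftRight (Nat.shiftLeft
  (force (Nat.add s d10) f) (nat_lit 1)) (sh a (nat_lit 14)))) (Nat.shiftRight (Nat.shiftLeft
  (force (Nat.add s d11) f) (nat_lit 1)) (sh a (nat_lit 26)))) (Nat.shiftRight
  (force (Nat.add s d12) f) (sh a (nat_lit 6)))) (Nat.shiftRight (Nat.shiftLeft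
  (force (Nat.add s d13) f) (nat_lit 1)) (sh a (nat_lit 18)))) (Nat.shiftRight (Nat.shiftLeft
  (force (Nat.add s d14) f) (nat_lit 1)) (sh a (nat_lit 10)))) (mA2 a))) (Nat.shiftRight (f s) (sh a (nat_lit 21)))) (Nat.add (Nat.shiftLeft
  (force (Nat.add s d15) f) (nat_lit 1)) (Nat.add
  (force (Nat.add s d16) f)
  (force (Nat.add s d17) f)))) (Nat.shiftRight (Nat.shiftLeft (f s) (nat_lit 1)) (sh a (nat_lit 12))))) := rfl

def h4B (a : Bs) (f : Nat → Nat) (s r : Nat) : Nat :=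
  h4G a f s r
    (nat_lit 2340) (nat_lit 24615) (nat_lit 1048602) (nat_lit 524301) (nat_lit 260) 
    (nat_lit 1048602) (nat_lit 524301) (nat_lit 524301) (nat_lit 1049382) (nat_lit 525081) 
    (nat_lit 780) (nat_lit 525081) (nat_lit 780) (nat_lit 780) (nat_lit 1572903) 
    (nat_lit 8388648) (nat_lit 524301)

theorem h4B_eq (a : Bs) (f : Nat → Nat) (s r : Nat) :
    h4B a f s r = red9 a r (ev a r f s eh4) :=
  (h4G_eq a f s r ..).trans rfl

def h4L (a : Bs) (f : Nat → Nat) (s : Nat) : Nat :=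
  force (Nat.sub s (nat_lit 40)) fun s0 => force (rr (kT a) s) (h4B a f s0)

def eh33 : EX := (EX.add (EX.add (EX.leaf (nat_lit 1572903)
    (nat_lit 0) (nat_lit 0) (nat_lit 0) (nat_lit 0) (nat_lit 0) (nat_lit 0) (nat_lit 0) (nat_lit 0) (nat_lit 3) (nat_lit 0))
  (EX.shr (nat_lit 0) (nat_lit 9) (EX.dbl (EX.leaf (nat_lit 0)
    (nat_lit 3) (nat_lit 0) (nat_lit 0) (nat_lit 0) (nat_lit 0) (nat_lit 0) (nat_lit 0) (nat_lit 0) (nat_lit 0) (nat_lit 0)))))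
  (EX.shr (nat_lit 0) (nat_lit 3) (EX.leaf (nat_lit 0)
    (nat_lit 27) (nat_lit 0) (nat_lit 0) (nat_lit 0) (nat_lit 0) (nat_lit 0) (nat_lit 0) (nat_lit 0) (nat_lit 0) (nat_lit 0))))

def h33G (a : Bs) (f : Nat → Nat) (s r : Nat) (
    d1 : Nat) : Nat :=
  (ex6 a r (Nat.add 
  (Nat.rec (motive := fun _ => Nat) (nat_lit 0) (fun m _ => (Nat.add (f m) (Nat.shiftRight (Nat.shiftLeft (f s) (nat_lit 1)) (sh a (nat_lit 36))))) (Nat.succ (Nat.add s d1))) (Nat.shiftRight (f s) (sh a (nat_lit 12)))))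

theorem h33G_eq (a : Bs) (f : Nat → Nat) (s r : Nat) (
    d1 : Nat) :
    h33G a f s r
    d1 =
  (ex6 a r (Nat.add (Nat.add
  (force (Nat.add s d1) f) (Nat.shiftRight (Nat.shiftLeft (f s) (nat_lit 1)) (sh a (nat_lit 36)))) (Nat.shiftRight (f s) (sh a (nat_lit 12))))) := rfl

def h33B (a : Bs) (f : Nat → Nat) (s r : Nat) : Nat :=
  h33G a f s r
    (nat_lit 1572903)

theorem h33B_eq (a : Bs) (f : Nat → Nat) (s r : Nat) :
    h33B a f s r = ex6 a r (ev a r f s eh33) :=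
  (h33G_eq a f s r ..).trans rfl

def h33L (a : Bs) (f : Nat → Nat) (s : Nat) : Nat :=
  force (Nat.sub s (nat_lit 39)) fun s0 => force (rr (kT a) s) (h33B a f s0)

def eh3 : EX := (EX.add (EX.add (EX.add (EX.add (EX.leaf (nat_lit 524301)
    (nat_lit 0) (nat_lit 0) (nat_lit 0) (nat_lit 0) (nat_lit 0) (nat_lit 0) (nat_lit 0) (nat_lit 0) (nat_lit 1) (nat_lit 0))
  (EX.shr (nat_lit 1) (nat_lit 0) (EX.leaf (nat_lit 780)
    (nat_lit 0) (nat_lit 3) (nat_lit 0) (nat_lit 0) (nat_lit 0) (nat_lit 0) (nat_lit 0) (nat_lit 0) (nat_lit 0) (nat_lit 0))))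
  (EX.shr (nat_lit 0) (nat_lit 3) (EX.dbl (EX.leaf (nat_lit 0)
    (nat_lit 1) (nat_lit 0) (nat_lit 0) (nat_lit 0) (nat_lit 0) (nat_lit 0) (nat_lit 0) (nat_lit 0) (nat_lit 0) (nat_lit 0)))))
  (EX.mk2 (EX.shr (nat_lit 2) (nat_lit 2) (EX.dbl (EX.leaf (nat_lit 0)
    (nat_lit 3) (nat_lit 0) (nat_lit 0) (nat_lit 0) (nat_lit 0) (nat_lit 0) (nat_lit 0) (nat_lit 0) (nat_lit 0) (nat_lit 0))))))
  (EX.shr (nat_lit 0) (nat_lit 1) (EX.leaf (nat_lit 0)
    (nat_lit 9) (nat_lit 0) (nat_lit 0) (nat_lit 0) (nat_lit 0) (nat_lit 0) (nat_lit 0) (nat_lit 0) (nat_lit 0) (nat_lit 0))))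

def h3G (a : Bs) (f : Nat → Nat) (s r : Nat) (
    d1 d2 : Nat) : Nat :=
  (ex6 a r (Nat.add (Nat.add (Nat.add 
  (Nat.rec (motive := fun _ => Nat) (nat_lit 0) (fun m _ => (Nat.add (f m) 
  (Nat.rec (motive := fun _ => Nat) (nat_lit 0) (fun m _ => (Nat.shiftRight (f m) (sh a (nat_lit 1)))) (Nat.succ (Nat.add s d2))))) (Nat.succ (Nat.add s d1))) (Nat.shiftRight (Nat.shiftLeft (f s) (nat_lit 1)) (sh a (nat_lit 12)))) (Nat.land (Nat.shiftRight (Nat.shiftLeft (f s) (nat_lit 1)) (sh a (nat_lit 10))) (mA2 a))) (Nat.shiftRight (f s) (sh a (nat_lit 4)))))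

theorem h3G_eq (a : Bs) (f : Nat → Nat) (s r : Nat) (
    d1 d2 : Nat) :
    h3G a f s r
    d1 d2 =
  (ex6 a r (Nat.add (Nat.add (Nat.add (Nat.add
  (force (Nat.add s d1) f) (Nat.shiftRight
  (force (Nat.add s d2) f) (sh a (nat_lit 1)))) (Nat.shiftRight (Nat.shiftLeft (f s) (nat_lit 1)) (sh a (nat_lit 12)))) (Nat.land (Nat.shiftRight (Nat.shiftLeft (f s) (nat_lit 1)) (sh a (nat_lit 10))) (mA2 a))) (Nat.shiftRight (f s) (sh a (nat_lit 4))))) := rfl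

def h3B (a : Bs) (f : Nat → Nat) (s r : Nat) : Nat :=
  h3G a f s r
    (nat_lit 524301) (nat_lit 780)

theorem h3B_eq (a : Bs) (f : Nat → Nat) (s r : Nat) :
    h3B a f s r = ex6 a r (ev a r f s eh3) :=
  (h3G_eq a f s r ..).trans rfl

def h3L (a : Bs) (f : Nat → Nat) (s : Nat) : Nat :=
  force (Nat.sub s (nat_lit 13)) fun s0 => force (rr (kT a) s) (h3B a f s0)

def eh23 : EX := (EX.shr (nat_lit 0) (nat_lit 3) (EX.leaf (nat_lit 0)
    (nat_lit 0) (nat_lit 0) (nat_lit 0) (nat_lit 0) (nat_lit 0) (nat_lit 0) (nat_lit 0) (nat_lit 0) (nat_lit 0) (nat_lit 0)))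

def h23B (a : Bs) (f : Nat → Nat) (s : Nat) : Nat := (Nat.shiftRight (f s) (sh a (nat_lit 12)))

theorem h23B_eq (a : Bs) (f : Nat → Nat) (s r : Nat) : h23B a f s = ev a r f s eh23 := rfl

def h23L (a : Bs) (f : Nat → Nat) (s : Nat) : Nat :=
  force (Nat.sub s (nat_lit 12)) (h23B a f)

def eh2 : EX := (EX.add (EX.shr (nat_lit 0) (nat_lit 1) (EX.leaf (nat_lit 0)
    (nat_lit 0) (nat_lit 0) (nat_lit 0) (nat_lit 0) (nat_lit 0) (nat_lit 0) (nat_lit 0) (nat_lit 0) (nat_lit 0) (nat_lit 0)))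
  (EX.shr (nat_lit 1) (nat_lit 0) (EX.leaf (nat_lit 0)
    (nat_lit 3) (nat_lit 0) (nat_lit 0) (nat_lit 0) (nat_lit 0) (nat_lit 0) (nat_lit 0) (nat_lit 0) (nat_lit 0) (nat_lit 0))))

def h2B (a : Bs) (f : Nat → Nat) (s r : Nat) : Nat := ex6 a r (Nat.add (Nat.shiftRight (f s) (sh a (nat_lit 4)))
  (Nat.shiftRight (f s) (sh a (nat_lit 1))))

theorem h2B_eq (a : Bs) (f : Nat → Nat) (s r : Nat) :
    h2B a f s r = ex6 a r (ev a r f s eh2) := rfl

def h2L (a : Bs) (f : Nat → Nat) (s : Nat) : Nat :=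
  force (Nat.sub s (nat_lit 4)) fun s0 => force (rr (kT a) s) (h2B a f s0)

def eh1 : EX := (EX.shr (nat_lit 1) (nat_lit 0) (EX.leaf (nat_lit 0)
    (nat_lit 0) (nat_lit 0) (nat_lit 0) (nat_lit 0) (nat_lit 0) (nat_lit 0) (nat_lit 0) (nat_lit 0) (nat_lit 0) (nat_lit 0)))

def h1B (a : Bs) (f : Nat → Nat) (s r : Nat) : Nat := Nat.land (Nat.shiftRight (f s) (sh a (nat_lit 1))) (mFF a r)

theorem h1B_eq (a : Bs) (f : Nat → Nat) (s r : Nat) :
    h1B a f s r = Nat.land (ev a r f s eh1) (mFF a r) := rfl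

def h1L (a : Bs) (f : Nat → Nat) (s : Nat) : Nat :=
  force (Nat.sub s (nat_lit 1)) fun s0 => force (rr (kT a) s) (h1B a f s0)

end Vale.Agent.P236JW

end
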