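import Vale.Agent.P236JW.Gd
import Vale.Agent.P236JI.Rw
import Vale.Agent.P236JE.Lv2

/-!
# P236JW / Lev : one level of the recursion on byte lanes
-/

noncomputable section

namespace Vale.Agent.P236JW

open Vale.Agent.P236K3 Vale.Agent.P236KE
open Vale.Agent.P236JK (mulT negT sumT sumT_cons sumT_nil sumT_append sumT_perm sumT_neg sumT_mul
  le4_iff tup)

/-- the terms of a sum -/
def den : EX → List DT
  | .leaf _ x1 x2 x3 x4 y1 y2 y3 y4 g e => [⟨1, (0, 0, g, e), (x1, x2, x3, x4), (y1, y2, y3, y4)⟩]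
  | .add f g => den f ++ den g
  | .dbl f => (den f).map negT
  | .shr a b f => (den f).map (mulT (a, b, 0, 0) 0)
  | .mk2 f => den f
  | .rd f => den f
  | .rd2 f => den f

/-- the bound for the digits -/
def bd : EX → ℕ
  | .leaf _ _ _ _ _ _ _ _ _ _ _ => 2
  | .add f g => bd f + bd g
  | .dbl f => 2 * bd f
  | .shr _ _ f => bd f
  | .mk2 f => bd f
  | .rd _ => 2
  | .rd2 _ => 2

/-- the sum is built from leaves by additions only -/
def pl : EX → Bool
  | .leaf _ _ _ _ _ _ _ _ _ _ _ => true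
  | .add f g => pl f && pl g
  | .dbl f => pl f
  | .shr _ _ _ => false
  | .mk2 _ => false
  | .rd _ => false
  | .rd2 _ => false

/-- the sum vanishes in the lanes which are not in use -/
def zz : EX → Bool
  | .leaf _ _ _ _ _ _ _ _ _ _ _ => true
  | .add f g => zz f && zz g
  | .dbl f => zz f
  | .shr a _ f => Nat.beq a 0 && zz f
  | .mk2 _ => true
  | .rd _ => true
  | .rd2 _ => true

/-- there is no overflow -/
def nov : EX → Bool
  | .leaf _ _ _ _ _ _ _ _ _ _ _ => true
  | .add f g => nov f && nov g && Nat.blt (bd f + bd g) 256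
  | .dbl f => nov f && Nat.blt (2 * bd f) 256
  | .shr _ _ f => nov f
  | .mk2 f => nov f
  | .rd f => nov f && Nat.ble (bd f) 143
  | .rd2 f => nov f && Nat.ble (bd f) 143

/-- the codes are correct and all terms have weight `k`; `o` : below the mask for `v_1 ^ 2` -/
def okE : EX → Bool → ℕ → Bool
  | .leaf dl x1 x2 x3 x4 y1 y2 y3 y4 g e, _, k =>
      Nat.beq dl (coW 0 0 (x1, x2, x3, x4) (y1, y2, y3, y4) g e) &&
        Nat.beq k (wt4 (x1, x2, x3, x4) + wt4 (y1, y2, y3, y4) + 13 * g + 40 * e)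
  | .add f g, o, k => okE f o k && okE g o k
  | .dbl f, o, k => okE f o k
  | .shr a b f, o, k => (Nat.ble a 1 || (o && Nat.beq a 2)) && pl f && Nat.ble (a + 4 * b) k &&
      okE f false (k - (a + 4 * b))
  | .mk2 f, _, k => okE f true k && (den f).all fun τ => Nat.ble 2 τ.v.1
  | .rd f, o, k => okE f o k
  | .rd2 f, _, k => okE f true k && (den f).all fun τ => Nat.ble 2 τ.v.1

variable {p : Bs} {z : Col} {r dw k₀ u g e : ℕ} {X : ℕ → ℕ} {S : Q4 → Prop}
  {val : Q4 → Q4 → Q4 → K} {E F : Q4}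

theorem coW_add (k dw : ℕ) (E F x y : Q4) (g e g' e' : ℕ) :
    coW k dw (E + x) (F + y) (g + g') (e + e') = coW k dw E F g e + coW 0 0 x y g' e' := by
  simp only [coW, loW, mW, hiW, wt4, Prod.fst_add, Prod.snd_add]
  omega

theorem coW_sub (k : ℕ) : coW k₀ (dw + k) E F g e - k = coW k₀ dw E F g e := by
  simp only [coW, loW, mW]
  omega

theorem zz_of_pl {f : EX} (h : pl f = true) : zz f = true := by
  induction f with
  | leaf => rfl
  | add f g ih ih' =>
    simp only [pl, zz, Bool.and_eq_true] at h ⊢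
    exact ⟨ih h.1, ih' h.2⟩
  | dbl f ih => exact ih h
  | shr a b f ih => exact absurd h Bool.false_ne_true
  | mk2 f ih => rfl
  | rd f ih => rfl
  | rd2 f ih => rfl

theorem ev_bd (hn : 0 < p.n) (hX : ∀ s, Gd p (X s)) (s : ℕ) (f : EX) (he : nov f = true) :
    Bd (ev p r X s f) (bd f) := by
  induction f with
  | leaf => exact (hX _).bd
  | add f g ih ih' =>
    simp only [nov, Bool.and_eq_true, Nat.blt_eq] at he
    exact (ih he.1.1).add (ih' he.1.2) he.2
  | dbl f ih =>
    simp only [nov, Bool.and_eq_true, Nat.blt_eq] at he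
    exact (ih he.1).dbl he.2
  | shr a b f ih => exact (ih he).sh p _
  | mk2 f ih => exact (ih he).and _
  | rd f ih =>
    simp only [nov, Bool.and_eq_true, Nat.ble_eq] at he
    exact (rd_red9 hn ((ih he.1).mono he.2) r).bd hn
  | rd2 f ih =>
    simp only [nov, Bool.and_eq_true, Nat.ble_eq] at he
    exact (rd_rdA hn ((ih he.1).mono he.2) r).bd hn

theorem ev_z (hn : 0 < p.n) (hX : ∀ s, Gd p (X s)) (s : ℕ) (f : EX) (he : nov f = true)
    (hz : zz f = true) : Gz p (ev p r X s f) := by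
  induction f with
  | leaf => exact (hX _).z
  | add f g ih ih' =>
    simp only [nov, zz, Bool.and_eq_true, Nat.blt_eq] at he hz
    exact (ih he.1.1 hz.1).add (ih' he.1.2 hz.2) (ev_bd hn hX s f he.1.1) (ev_bd hn hX s g he.1.2)
      he.2
  | dbl f ih =>
    simp only [nov, Bool.and_eq_true, Nat.blt_eq] at he
    exact (ih he.1 hz).dbl (ev_bd hn hX s f he.1) he.2
  | shr a b f ih =>
    simp only [zz, Bool.and_eq_true, Nat.beq_eq] at hz
    obtain ⟨rfl, hz⟩ := hz
    change Gz p (_ >>> sh p (0 + 4 * b))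
    rw [zero_add]
    exact (ih he hz).sh b
  | mk2 f ih =>
    exact fun j i hi ho => dg_and_off _ ((dg_mA2 j hi).trans (if_neg fun h => ho h.seven))
  | rd f ih =>
    simp only [nov, Bool.and_eq_true, Nat.ble_eq] at he
    exact ((rd_red9 hn ((ev_bd hn hX s f he.1).mono he.2) r).gd hn fun _ _ h => h.2).z
  | rd2 f ih =>
    simp only [nov, Bool.and_eq_true, Nat.ble_eq] at he
    exact ((rd_rdA hn ((ev_bd hn hX s f he.1).mono he.2) r).gd hn fun _ _ h => h.2.seven).z

theorem mul_comm_map (l : List DT) (a b : Q4) :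
    (l.map (mulT a 0)).map (mulT b 0) = (l.map (mulT b 0)).map (mulT a 0) := by
  simp only [List.map_map]
  exact List.map_congr_left fun τ _ => by simp only [Function.comp, mulT, add_right_comm τ.v a b]

theorem sumT_high {l : List DT} {V : Q4} (h : ∀ τ ∈ l, V.1 < τ.v.1) : sumT l val V E F = 0 := by
  induction l with
  | nil => rfl
  | cons τ l ih =>
    rw [sumT_cons, ih fun σ hσ => h σ (List.mem_cons_of_mem _ hσ), add_zero, if_neg]
    have := h τ List.mem_cons_self
    rw [le4_iff]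
    omega

theorem sumT_two {l : List DT} (h : (l.all fun τ => Nat.ble 2 τ.v.1) = true) {a : ℕ} (ha : a < 2)
    (V : ℕ × ℕ × ℕ) : sumT (l.map (mulT (0, 0, g, e) 0)) val (a, V) E F = 0 :=
  sumT_high fun τ hτ => by
    obtain ⟨σ, hσ, rfl⟩ := List.mem_map.1 hτ
    have h4 := Nat.le_of_ble_eq_true (List.all_eq_true.1 h σ hσ)
    change a < σ.v.1 + 0
    omega

theorem ext_eq (z : Col) (val : Q4 → K) (g e : ℕ) {a : ℕ} (ha : a < 3) (b : ℕ) :
    z.ext val g e (z.D + (a + 4 * b)) =
      if le4 (0, 0, g, e) (a, b, z.c, z.d) = true then val ((a, b, z.c, z.d) - (0, 0, g, e))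
      else 0 := by
  rw [Col.ext, Nat.add_sub_cancel_left, show (a + 4 * b) % 4 = a by omega,
    show (a + 4 * b) / 4 = b by omega]
  exact if_congr (by simp only [le4_iff]; omega) rfl rfl

/-- the value of a sum -/
theorem ev_at (hi : z.i < p.n) (hD : z.D = byte p.dc z.i) (hX : ∀ s, Gd p (X s))
    (h : RepW p.n p.tt z S k₀ dw X u val) (f : EX) (hn : nov f = true) {o : Bool} {k : ℕ}
    (he : okE f o k = true) (hF : ∀ τ ∈ den f, S (F + τ.y)) {a b : ℕ} (ha : a < 3)
    (ho : o = true → a = 2) (hj : pl f = true ∨ p.tt - (z.D + (a + 4 * b)) < r)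
    (ht : z.D + (a + 4 * b) ≤ p.tt)
    (hw : z.D + (a + 4 * b) = dw + u + k + wt4 E + wt4 F + 13 * g + 40 * e) :
    cl (ev p r X (coW k₀ dw E F g e) f) (p.n * (p.tt - (z.D + (a + 4 * b))) + z.i) =
      sumT ((den f).map (mulT (0, 0, g, e) 0)) val (a, b, z.c, z.d) E F := by
  have h0 : 0 < p.n := Nat.zero_lt_of_lt hi
  induction f generalizing o k a b with
  | leaf dl x1 x2 x3 x4 y1 y2 y3 y4 g' e' =>
    simp only [okE, Bool.and_eq_true, Nat.beq_eq] at he
    have h1 := (h (E + (x1, x2, x3, x4)) (F + (y1, y2, y3, y4)) (g + g') (e + e') _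
      (hF _ (List.mem_singleton_self _)) ht (by
        simp only [wt4, Prod.fst_add, Prod.snd_add] at hw he ⊢
        omega)).2
    simp only [coW_add, ← he.1] at h1
    rw [den, List.map_singleton, sumT_cons, sumT_nil, add_zero]
    refine h1.trans ?_
    rw [ext_eq z _ _ _ ha]
    simp only [mulT, Nat.cast_one, one_mul, Prod.mk_add_mk, add_zero, add_comm g', add_comm e']
  | add f f' ih ih' =>
    simp only [okE, nov, pl, Bool.and_eq_true, Nat.blt_eq] at he hn hj
    rw [den, List.map_append, sumT_append, ← ih hn.1.1 he.1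
      (fun τ hτ => hF _ (List.mem_append_left _ hτ)) ha ho (hj.imp_left And.left) ht hw,
      ← ih' hn.1.2 he.2 (fun τ hτ => hF _ (List.mem_append_right _ hτ)) ha ho
      (hj.imp_left And.right) ht hw]
    exact (ev_bd h0 hX _ f hn.1.1).cl_add (ev_bd h0 hX _ f' hn.1.2) hn.2 _
  | dbl f ih =>
    simp only [nov, Bool.and_eq_true, Nat.blt_eq] at hn
    rw [den, show ((den f).map negT).map (mulT (0, 0, g, e) 0) =
      ((den f).map (mulT (0, 0, g, e) 0)).map negT by simp only [List.map_map]; rfl, sumT_neg,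
      ← ih hn.1 he (fun τ hτ => hF (negT τ) (List.mem_map_of_mem hτ)) ha ho hj ht hw]
    exact (ev_bd h0 hX _ f hn.1).cl_dbl hn.2 _
  | shr a' b' f ih =>
    simp only [okE, Bool.and_eq_true, Bool.or_eq_true, Nat.ble_eq, Nat.beq_eq] at he
    obtain ⟨⟨⟨h1, h3⟩, h4⟩, h5⟩ := he
    refine (cl_sh p _ (a' + 4 * b') _ _).trans ?_
    rw [den, mul_comm_map, sumT_mul]
    split_ifs with h7
    · simp only [le4_iff, Nat.zero_le, and_true] at h7
      rw [show E + (0, 0, 0, 0) = E from add_zero E, show p.tt - (z.D + (a + 4 * b)) +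
        (a' + 4 * b') = p.tt - (z.D + (a - a' + 4 * (b - b'))) by omega]
      exact ih hn h5 (fun τ hτ => hF (mulT _ _ τ) (List.mem_map_of_mem hτ)) (by omega)
        (fun h => absurd h Bool.false_ne_true) (Or.inl h3) (by omega) (by omega)
    · refine (ev_z h0 hX _ f hn (zz_of_pl h3)).cl hi ?_
      have h8 : a' ≤ 1 ∨ (a' = 2 ∧ a = 2) := h1.imp_right fun h => ⟨h.2, ho h.1⟩
      simp only [le4_iff, Nat.zero_le, and_true, on_seven, ← hD] at h7 ⊢
      omega
  | mk2 f ih =>
    simp only [okE, Bool.and_eq_true] at he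
    have h1 := dg_mA2 (p.tt - (z.D + (a + 4 * b))) hi
    by_cases h3 : a = 2
    · refine (cl_and_on _ (h1.trans (if_pos (by rw [on_four, ← hD]; omega)))).trans ?_
      exact ih hn he.1 hF ha (fun _ => h3) (Or.inr (hj.resolve_left Bool.false_ne_true)) ht hw
    · exact (cl_and_off _ (h1.trans (if_neg (by rw [on_four, ← hD]; omega)))).trans
        (sumT_two he.2 (by omega) _).symm
  | rd f ih =>
    simp only [nov, Bool.and_eq_true, Nat.ble_eq] at hn
    have h1 := hj.resolve_left Bool.false_ne_true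
    refine ((rd_red9 h0 ((ev_bd h0 hX _ f hn.1).mono hn.2) r).cl _ hi).trans ?_
    rw [if_pos ⟨h1, by rw [on_seven, ← hD]; omega⟩]
    exact ih hn.1 he hF ha ho (Or.inr h1) ht hw
  | rd2 f ih =>
    simp only [okE, nov, Bool.and_eq_true, Nat.ble_eq] at he hn
    have h1 := hj.resolve_left Bool.false_ne_true
    refine ((rd_rdA h0 ((ev_bd h0 hX _ f hn.1).mono hn.2) r).cl _ hi).trans ?_
    by_cases h3 : a = 2
    · rw [if_pos ⟨h1, by rw [on_four, ← hD]; omega⟩]
      exact ih hn.1 he.1 hF ha (fun _ => h3) (Or.inr h1) ht hw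
    · rw [if_neg fun h4 => by rw [on_four, ← hD] at h4; omega]
      exact (sumT_two he.2 (by omega) _).symm

/-- the sum `f` consists of the terms `l`, which have weight `k`; its digits are at most `B` -/
def isE (B : ℕ) (o : Bool) (f : EX) (k : ℕ) (l : List DT) : Bool :=
  nov f && Nat.ble (bd f) B && (!o || zz f) && okE f false k && ((den f).map tup).isPerm (l.map tup)

theorem of_isE {B : ℕ} {o : Bool} {f : EX} {k : ℕ} {l : List DT} (h : isE B o f k l = true) :
    nov f = true ∧ bd f ≤ B ∧ (o = true → zz f = true) ∧ okE f false k = true ∧ (den f).Perm l := by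
  simp only [isE, Bool.and_eq_true, List.isPerm_iff, Nat.ble_eq, Bool.or_eq_true] at h
  refine ⟨h.1.1.1.1, h.1.1.1.2, fun h1 => h.1.1.2.resolve_left (by simp [h1]), h.1.2,
    (List.map_perm_map_iff fun a b e => ?_).1 h.2⟩
  cases a
  cases b
  simp only [tup, Prod.mk.injEq] at e
  simp only [e]

/-- the family consists of good arrays and represents the values -/
structure Fam (p : Bs) (z : Col) (S : Q4 → Prop) (k dw : ℕ) (X : ℕ → ℕ) (u : ℕ)
    (val : Q4 → Q4 → Q4 → K) : Prop where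
  gd : ∀ s, Gd p (X s)
  rep : RepW p.n p.tt z S k dw X u val

/-- **One level.** -/
theorem Fam.lev (h : Fam p z S k₀ dw X u val) (hi : z.i < p.n) (hD : z.D = byte p.dc z.i)
    (hT : p.tt ≤ 100) {fn : ℕ → ℕ → ℕ} {B : ℕ} {o : Bool} (hf : FnOk p fn B o)
    {f : EX} {k₁ k₂ : ℕ} {l : List DT}
    (he : isE B o f (k₁ + k₂) l = true) (hF : ∀ τ ∈ l, ∀ F, S F → S (F + τ.y))
    {val' : Q4 → Q4 → Q4 → K} (hv : ∀ V E F, S F → V.1 < 3 → val' V E F = sumT l val V E F)
    {Y : ℕ → ℕ} {K₀ : ℕ} (hK : p.tt + 1 - (u + k₂) ≤ K₀)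
    (hY : ∀ s, Y s = fn (rr K₀ s) (ev p (rr K₀ s) X (s - k₁) f)) :
    Fam p z S k₀ (dw + k₁) Y (u + k₂) val' := by
  obtain ⟨h1, h3, h2, h4, h5⟩ := of_isE he
  have h0 : 0 < p.n := Nat.zero_lt_of_lt hi
  have h6 := fun s => hf (rr K₀ s) _ ((ev_bd (r := rr K₀ s) h0 h.gd (s - k₁) f h1).mono h3)
    fun ho => ev_z h0 h.gd _ f h1 (h2 ho)
  have h7 : ∀ s, Gd p (Y s) := fun s => hY s ▸ (h6 s).1
  refine ⟨h7, fun E F g e W hF' ht hw => ⟨(h7 _).bd, ?_⟩⟩
  by_cases h8 : On p 7 (p.tt - W) z.i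
  · have h9 := on_seven.1 h8
    rw [← hD] at h9
    obtain ⟨a, b, ha, rfl⟩ : ∃ a b, a < 3 ∧ W = z.D + (a + 4 * b) :=
      ⟨(W - z.D) % 4, (W - z.D) / 4, by omega, by omega⟩
    have h10 : p.tt - (z.D + (a + 4 * b)) < rr K₀ (coW k₀ (dw + k₁) E F g e) := by
      change _ < K₀ - (_ &&& 255)
      rw [show ∀ x, x &&& 255 = x % 256 from fun x => and_ones x 8, (coW_dec (by omega)).2.2, mW]
      rw [wt4.eq_1 E] at hw
      omega
    change cl (Y _) _ = _
    rw [hY, (h6 _).2 _ h10 _ hi h8, coW_sub, ev_at hi hD h.gd h.rep f h1 h4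
      (fun τ hτ => hF τ (h5.subset hτ) F hF') ha (fun h => absurd h Bool.false_ne_true)
      (Or.inr h10) ht (by omega), sumT_mul, ext_eq z _ _ _ ha, sumT_perm h5,
      show E + (0, 0, 0, 0) = E from add_zero E, hv _ _ _ hF' ha]
  · refine ((h7 _).z.cl hi h8).trans (if_neg fun h9 => h8 ?_).symm
    rw [on_seven, ← hD]
    omega

end Vale.Agent.P236JW

end
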