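import Vale.Agent.P236JW.Lane

/-!
# P236JW / Red : exact reduction of byte lanes modulo three
-/

namespace Vale.Agent.P236JW

open Vale.Agent.P236KE

variable {x y m m' i : ℕ}

theorem dg_div16 (A i : ℕ) : dg (A / 16) i = dg A i / 16 + 16 * (dg A (i + 1) % 16) := by
  unfold dg
  rw [Nat.div_div_eq_div_mul, mul_comm 16, ← Nat.div_div_eq_div_mul, mul_add_one, pow_add,
    ← Nat.div_div_eq_div_mul]
  generalize A / 2 ^ (8 * i) = z
  omega

theorem dg_div32 (A i : ℕ) : dg (A / 32) i = dg A i / 32 + 8 * (dg A (i + 1) % 32) := by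
  unfold dg
  rw [Nat.div_div_eq_div_mul, mul_comm 32, ← Nat.div_div_eq_div_mul, mul_add_one, pow_add,
    ← Nat.div_div_eq_div_mul]
  generalize A / 2 ^ (8 * i) = z
  omega

theorem and_240 : ∀ a < 256, a &&& 240 = 16 * (a / 16) := by decide +kernel

theorem and_224 : ∀ a < 24, (11 * a) &&& 224 = 32 * (a / 3) := by decide +kernel

/-- **exact reduction** of digits at most `23` -/
theorem dg_ex5 (hy : Bd y 23) (hm : ∀ i, dg m i = 224 ∨ dg y i = 0) (i : ℕ) :
    dg (y - ((((y * 11) &&& m) * 3) >>> 5)) i = dg y i % 3 := by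
  have h1 : ∀ j, dg ((y * 11) &&& m) j = 32 * (dg y j / 3) := fun j => by
    rw [dg_land, mul_comm y, hy.dg_mul 11 (by norm_num)]
    rcases hm j with h | h <;> rw [h]
    · exact and_224 _ (Nat.lt_succ_of_le (hy j))
    · exact Nat.zero_and _
  generalize (y * 11) &&& m = A at h1
  have h2 : ∀ j, dg (A / 32) j = dg y j / 3 := fun j => by
    rw [dg_div32, h1, h1]
    omega
  have h3 : (A * 3) >>> 5 = 3 * (A / 32) := by
    have h4 := h1 0
    rw [dg_at_zero] at h4
    rw [Nat.shiftRight_eq_div_pow]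
    omega
  have h4 : ∀ j, dg (3 * (A / 32)) j = 3 * (dg y j / 3) := fun j => by
    rw [dg_mulc 3 (fun k => by have := hy k; rw [h2]; omega), h2]
  rw [h3, dg_sub (fun j => by rw [h4]; omega), h4]
  omega

/-- the sum of the two halves of a digit -/
theorem dg_hl (hm : ∀ i, (dg m i = 15 ∧ dg m' i = 240) ∨ (dg m i = 0 ∧ dg m' i = 0)) (x i : ℕ) :
    dg ((x &&& m) + ((x &&& m') >>> 4)) i =
      if dg m i = 15 then dg x i % 16 + dg x i / 16 else 0 := by
  have h1 : ∀ j, dg (x &&& m) j = if dg m j = 15 then dg x j % 16 else 0 := fun j => by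
    rw [dg_land]
    rcases hm j with h | h <;> rw [h.1]
    exacts [and_ones _ 4, Nat.and_zero _]
  have h3 : ∀ j, dg (x &&& m') j = if dg m j = 15 then 16 * (dg x j / 16) else 0 := fun j => by
    rw [dg_land]
    rcases hm j with h | h <;> rw [h.1, h.2]
    exacts [and_240 _ (dg_lt _ _), Nat.and_zero _]
  have h2 : ∀ j, dg ((x &&& m') >>> 4) j = if dg m j = 15 then dg x j / 16 else 0 := fun j => by
    rw [Nat.shiftRight_eq_div_pow, show 2 ^ 4 = 16 from rfl, dg_div16, h3, h3]
    split_ifs <;> omega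
  rw [dg_add, h1, h2]
  · split_ifs <;> rfl
  · intro j
    have := dg_lt x j
    rw [h1, h2]
    split_ifs <;> omega

/-- **exact reduction and masking** of digits at most `143` -/
theorem dg_red9 {m₃ : ℕ} (hx : Bd x 143)
    (hm : ∀ i, (dg m i = 15 ∧ dg m' i = 240 ∧ dg m₃ i = 224) ∨ (dg m i = 0 ∧ dg m' i = 0))
    (hy : y = (x &&& m) + ((x &&& m') >>> 4)) (i : ℕ) :
    dg (y - ((((y * 11) &&& m₃) * 3) >>> 5)) i = if dg m i = 15 then dg x i % 3 else 0 := by
  have h1 := dg_hl (m := m) (m' := m') (fun j => (hm j).imp (fun h => ⟨h.1, h.2.1⟩) id) x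
  rw [← hy] at h1
  rw [dg_ex5 (fun j => by have := hx j; rw [h1]; split_ifs <;> omega)
    (fun j => (hm j).imp (fun h => h.2.2) fun h => by rw [h1, if_neg (by omega)]), h1]
  split_ifs <;> omega

/-- **exact reduction and masking** of digits at most `23` -/
theorem dg_ex6 {m₃ : ℕ} (hx : Bd x 23)
    (hm : ∀ i, (dg m i = 255 ∧ dg m₃ i = 224) ∨ dg m i = 0) (hy : y = x &&& m) (i : ℕ) :
    dg (y - ((((y * 11) &&& m₃) * 3) >>> 5)) i = if dg m i = 255 then dg x i % 3 else 0 := by
  rw [dg_ex5 (hy ▸ hx.and m) (fun j => (hm j).imp (fun h => h.2) fun h => hy ▸ dg_and_off x h), hy]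
  rcases hm i with h | h
  · rw [dg_and_on x h.1, if_pos h.1]
  · rw [dg_and_off x h, if_neg (by omega)]

theorem cl_of_mod {c : Prop} [Decidable c] (h : dg y i = if c then dg x i % 3 else 0) :
    cl y i = if c then cl x i else 0 := by
  rw [cl, h]
  split_ifs
  exacts [cast_eq (by omega), Nat.cast_zero]

theorem bd_of_mod {c : ℕ → Prop} [DecidablePred c]
    (h : ∀ i, dg y i = if c i then dg x i % 3 else 0) : Bd y 2 := fun i => by
  rw [h]
  split_ifs <;> omega

end Vale.Agent.P236JW
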